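import Vale.Agent.P237.Petty.Cor.Tiny.Core

/-!
# P237: the algebra of the forms of the tiny cell

Everything here is about real numbers; the coefficients are letters.
-/

namespace Vale.Agent.P237.Petty.Cor.Tiny

/-- A linear function on the cone of the states. -/
theorem cone_nonneg {y R H α β w D : ℝ} (hy : 0 ≤ y) (hR : 0 ≤ R) (hpos : 0 < y ∨ 0 < R)
    (hw : 0 ≤ w) (hD : D ≤ H * w) (hlo : -(y * D) ≤ w * R) (h1 : 0 ≤ α + H * β)
    (h2 : 0 ≤ y * α - R * β) : 0 ≤ α * w + β * D := by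
  rcases le_or_gt β 0 with hb | hb
  · nlinarith [mul_le_mul_of_nonpos_left hD hb, mul_nonneg h1 hw]
  · rcases hy.eq_or_lt with h0 | h0
    · have hR' : 0 < R := hpos.resolve_left (by rw [← h0]; exact lt_irrefl 0)
      rw [← h0] at h2
      nlinarith [mul_pos hR' hb]
    · have : 0 ≤ y * (α * w + β * D) := by
        nlinarith [mul_le_mul_of_nonneg_left hlo hb.le, mul_nonneg h2 hw]
      exact nonneg_of_mul_nonneg_right this h0

/-- The first order part of a form. -/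
theorem lin_part {y R H x0 s2 x0' x2' w D : ℝ} (hy : 0 ≤ y) (hR : 0 ≤ R) (hpos : 0 < y ∨ 0 < R)
    (hw : 0 ≤ w) (hw1 : w ≤ 3 / 20) (hD : D ≤ H * w) (hlo : -(y * D) ≤ w * R)
    (hH : x0' + H * x2' ≤ x0 + H * s2) (hR2 : 0 ≤ y * (x0 - x0') - R * (s2 - x2'))
    (hH0 : 0 ≤ x0' + H * x2') (hR0 : 0 ≤ y * x0' - R * x2') :
    20 / 3 * (w * (x0' * w + x2' * D)) ≤ x0 * w + s2 * D := by
  have h1 := cone_nonneg (α := x0 - x0') (β := s2 - x2') hy hR hpos hw hD hlo (by linarith) hR2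
  have h2 := cone_nonneg hy hR hpos hw hD hlo hH0 hR0
  have h3 := mul_le_mul_of_nonneg_right (show 20 / 3 * w ≤ 1 by linarith) h2
  linarith

/-- The reduction of a cell to a form in three variables. -/
theorem mat_core {y X c2 kt e R H x0 x2 mu kap dw rem A B C lam th eta x0' x2' wW w v U D : ℝ}
    (hw : 0 ≤ w) (hw1 : w ≤ 3 / 20) (hveq : v = 1 + e * U)
    (hy : 0 ≤ y) (hX : X = y / c2) (hc2 : 0 < c2) (hR : 0 ≤ R) (hpos : 0 < y ∨ 0 < R)
    (hD : D ≤ H * w) (hlo : -(y * D) ≤ w * R) (hmu : 0 ≤ mu)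
    (hl0 : 0 ≤ lam) (hl1 : lam ≤ 1) (heta : 0 ≤ eta)
    (hcut : U - e * (U ^ 2 / v) ≤ w + X * D + 2 * e ^ 2 * w * |X * D| + e * X * D ^ 2 / 2)
    (htail : lam = 1 ∨ U + e * (U ^ 2 / (v + 1)) - w * v ≤ kt * D)
    (hH : x0' + H * x2' ≤ x0 + H * (x2 - mu * (kt - X) * (1 - lam)))
    (hR2 : 0 ≤ y * (x0 - x0') - R * (x2 - mu * (kt - X) * (1 - lam) - x2'))
    (hH0 : 0 ≤ x0' + H * x2') (hR0 : 0 ≤ y * x0' - R * x2')
    {a b c d f : ℝ}
    (ha : a = 8 * th + 20 / 3 * x0' - 4 * lam * (e ^ 2 * (mu * (R / c2))) - eta * H * R - rem)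
    (hb : b = 4 * (kap - th) - mu * e * ((1 - lam) / 2))
    (hc : c = 4 * dw + 10 / 3 * x2' - lam * (e ^ 2 * (mu * X)) + eta / 2 * (R - y * H))
    (hd : d * U ^ 2 ≤ (A - lam * (mu * e)) / v * U ^ 2 +
      (1 - lam) * (mu * e) / (v + 1) * U ^ 2)
    (hf : f = B - lam / 2 * (mu * e * X) + eta * y)
    (hform : 0 ≤ a * w ^ 2 + 2 * b * (w * U) + 2 * c * (w * D) + d * U ^ 2 + 2 * (-C) * (U * D) +
      f * D ^ 2)
    (hW : wW = x0 + (mu + 8 * th * w)) :
    0 ≤ w * wW - w ^ 2 * rem + (-mu + 8 * w * (kap - th)) * U +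
      (x2 + mu * X + 8 * w * dw) * D + A * (U ^ 2 / v) + B * D ^ 2 - 2 * C * (U * D) := by
  have hlin := lin_part (x0 := x0) (s2 := x2 - mu * (kt - X) * (1 - lam)) hy hR hpos hw hw1 hD hlo
    hH hR2 hH0 hR0
  have hX0 : 0 ≤ X := hX ▸ div_nonneg hy hc2.le
  have habs : |X * D| ≤ X * D + 2 * (w * (R / c2)) := by
    have hd2 : -(X * D) ≤ w * (R / c2) := by
      rw [hX, ← mul_div_assoc, div_mul_eq_mul_div, ← neg_div]
      gcongr
    have : 0 ≤ w * (R / c2) := mul_nonneg hw (div_nonneg hR hc2.le)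
    rw [abs_le]
    constructor <;> linarith
  have h1 := mul_le_mul_of_nonneg_left hcut (mul_nonneg hl0 hmu)
  have h2 := mul_le_mul_of_nonneg_left habs
    (mul_nonneg (mul_nonneg hl0 hmu) (show 0 ≤ 2 * e ^ 2 * w by positivity))
  have h3 : (1 - lam) * mu * (U + e * (U ^ 2 / (v + 1)) - w * v) ≤
      (1 - lam) * mu * (kt * D) := by
    rcases htail with h | h
    · rw [h]; simp
    · exact mul_le_mul_of_nonneg_left h (mul_nonneg (sub_nonneg.2 hl1) hmu)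
  have h4 : 0 ≤ eta * ((R * w + y * D) * (H * w - D)) :=
    mul_nonneg heta (mul_nonneg (by linarith) (by linarith))
  have hd' : d * U ^ 2 ≤ A * (U ^ 2 / v) - lam * mu * e * (U ^ 2 / v) +
      (1 - lam) * mu * e * (U ^ 2 / (v + 1)) := by
    refine hd.trans (le_of_eq ?_)
    ring
  subst a b c f
  rw [hW]
  have e3 : w * v = w + e * (w * U) := by rw [hveq]; ring
  rw [e3] at h3
  linarith

/-- The form from the signs of its intervals, with a weight of the first variable. -/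
theorem near_mul_weighted {x m r om a b : ℝ} (h : |x - m| ≤ r) (ho : 0 < om) :
    2 * m * (a * b) - r * (om * a ^ 2 + b ^ 2 / om) ≤ 2 * x * (a * b) := by
  refine le_of_mul_le_mul_left ?_ ho
  have h2 := near_mul_ge (a := om * a) (b := b) h
  refine le_trans (le_of_eq ?_) (h2.trans (le_of_eq ?_))
  · field_simp
  · ring

/-- The last step of a piece. -/
theorem quad_pos {q B C U X : ℝ} (hq : 0 < q) (h : C ^ 2 ≤ q * B) :
    0 ≤ q * U ^ 2 + B * X ^ 2 - 2 * C * (U * X) := by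
  refine (mul_nonneg_iff_of_pos_left hq).1 ?_
  refine le_of_le_of_eq (add_nonneg (sq_nonneg (q * U - C * X))
    (mul_nonneg (sub_nonneg.2 h) (sq_nonneg X))) ?_
  ring

/-- The last step of a piece, above a line. -/
theorem quad_ray {q B C rho U X : ℝ} (hr : 0 < rho) (hC : 0 ≤ C) (hCB : C ≤ B * rho)
    (h : 0 ≤ B * rho ^ 2 - 2 * C * rho + q) (hU : 0 ≤ U) (hX : rho * U ≤ X) :
    0 ≤ q * U ^ 2 + B * X ^ 2 - 2 * C * (U * X) := by
  have hB : 0 ≤ B := nonneg_of_mul_nonneg_left (hC.trans hCB) hr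
  refine le_of_le_of_eq (add_nonneg (mul_nonneg h (sq_nonneg U)) (mul_nonneg (sub_nonneg.2 hX)
    (add_nonneg (mul_nonneg hB (sub_nonneg.2 hX))
      (mul_nonneg (mul_nonneg zero_le_two (sub_nonneg.2 hCB)) hU)))) ?_
  ring

/-- A piece with the linear slack in `X`. -/
theorem lin_core {e y c2 mu x2 X k kt K kap dw rem A B C wW lam nu l rho w v U D : ℝ}
    (hy : 0 < y) (hc2 : 0 < c2) (hX : X = y / c2) (hk : k = c2 / y) (hK : kt = X * K)
    (hw : 0 ≤ w) (hU : 0 ≤ U) (hD : 0 ≤ D) (hmu : 0 ≤ mu) (hkap : 0 ≤ kap)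
    (hl : l = 1 - lam - nu) (hl0 : 0 ≤ lam) (hn0 : 0 ≤ nu) (hl1 : 0 ≤ l)
    (hcut : lam = 0 ∨ U - e * (U ^ 2 / v) ≤
      w + X * D + 2 * e ^ 2 * w * |X * D| + e * X * D ^ 2 / 2)
    (hrho : nu = 0 ∨ (0 < rho ∧ rho * U ≤ X * D))
    (htail : U + e * (U ^ 2 / (v + 1)) - w * v ≤ kt * D)
    {P c0 q B0 C0 : ℝ}
    (hmain : 0 ≤ w * c0 + P * (X * D) + q * U ^ 2 + B0 * (X * D) ^ 2 - 2 * C0 * (U * (X * D)))
    (hc0 : c0 ≤ wW - w * rem - mu * (lam + l * v))
    (hP : P ≤ x2 * k + 8 * w * (k * dw) + mu * (1 - lam - (if nu = 0 then 0 else nu / rho) -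
      2 * lam * (e ^ 2 * w) - l * K))
    (hq : q * U ^ 2 ≤ (A - lam * (mu * e)) * (U ^ 2 / v) + l * (mu * e) * (U ^ 2 / (v + 1)))
    (hB : B0 ≤ B * k ^ 2 - lam / 2 * (mu * e * k))
    (hC : C * k ≤ C0) :
    0 ≤ w * wW - w ^ 2 * rem + (-mu + 8 * w * kap) * U + (x2 + mu * X + 8 * w * dw) * D +
      A * (U ^ 2 / v) + B * D ^ 2 - 2 * C * (U * D) := by
  have hX0 : 0 < X := hX ▸ div_pos hy hc2
  have hkX : k * X = 1 := by rw [hk, hX]; field_simp
  obtain ⟨Z, hZ⟩ : ∃ Z, X * D = Z := ⟨_, rfl⟩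
  have hD' : D = k * Z := by rw [← hZ, ← mul_assoc, hkX, one_mul]
  have hZ0 : 0 ≤ Z := hZ ▸ mul_nonneg hX0.le hD
  have h1 : lam * mu * (U - e * (U ^ 2 / v)) ≤
      lam * mu * (w + Z + 2 * e ^ 2 * w * Z + e * k * Z ^ 2 / 2) := by
    rcases hcut with h | h
    · rw [h]; simp
    · refine mul_le_mul_of_nonneg_left (h.trans (le_of_eq ?_)) (mul_nonneg hl0 hmu)
      have e2 : X * D ^ 2 = k * Z ^ 2 := by
        rw [← hZ]; linear_combination -(X * D ^ 2) * hkX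
      rw [hZ, abs_of_nonneg hZ0, mul_assoc e X, e2]
      ring
  have h2 : nu * mu * U ≤ mu * ((if nu = 0 then 0 else nu / rho) * Z) := by
    rcases hrho with h | ⟨h, h'⟩
    · simp [h]
    · split
      next h0 => simp [h0]
      next h0 =>
        rw [hZ] at h'
        have : nu * U ≤ nu / rho * Z := by
          rw [div_mul_eq_mul_div, le_div_iff₀ h]
          nlinarith [mul_le_mul_of_nonneg_left h' hn0]
        nlinarith [mul_le_mul_of_nonneg_left this hmu]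
  have h3 := mul_le_mul_of_nonneg_left htail (mul_nonneg hl1 hmu)
  rw [hK, mul_right_comm X K D, hZ] at h3
  have h4 := mul_le_mul_of_nonneg_right hP hZ0
  have h5 := mul_le_mul_of_nonneg_left hc0 hw
  have h6 := mul_le_mul_of_nonneg_right hB (sq_nonneg Z)
  have h7 := mul_le_mul_of_nonneg_right hC (mul_nonneg (mul_nonneg zero_le_two hU) hZ0)
  have h8 : 0 ≤ 8 * w * kap * U := by positivity
  have e1 : (x2 + mu * X + 8 * w * dw) * D = Z * (x2 * k + mu + 8 * w * (k * dw)) := by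
    rw [hD']; linear_combination mu * Z * hkX
  rw [hZ] at hmain
  rw [e1, hD']
  have el : mu * U = lam * mu * U + nu * mu * U + l * mu * U := by rw [hl]; ring
  linarith

end Vale.Agent.P237.Petty.Cor.Tiny
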