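import Vale.Agent.P237.Petty.Cor.Tiny.State

/-!
# P237: the leaves of the tiny cell and their tests

A leaf is a box in `y` and `e` with the multipliers for its states. A `Mat` uses the cut and the
tail chord at the abscissa with weights `lam` and `1 - lam`, the box of `D` and a form in
`(w, U, D)`. A `Lin` keeps the linear slack in `X = y D / (1 - s ^ 2)` on a piece of `v` and uses a
bound `rho U ≤ X` from a tail chord. A `Top` excludes larger `v`.
-/

namespace Vale.Agent.P237.Petty.Cor.Tiny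

/-- Multipliers of a form in `(w, U, D)`. -/
structure Mat where
  lam : ℚ
  th : ℚ
  eta : ℚ
  V : ℚ
  rv : ℚ
  h : ℚ
  x0 : ℚ
  x2 : ℚ
  om : ℚ

/-- Multipliers on a piece of `v`; without `V1` it is unbounded. -/
structure Lin where
  V0 : ℚ
  V1 : Option ℚ
  lam : ℚ
  nu : ℚ
  tht : ℚ
  rho : ℚ
  c : ℚ
  rv : ℚ
  h : ℚ
  shift : Bool

/-- An upper bound of `v`. -/
structure Top where
  V : ℚ
  rl : ℚ
  h : ℚ
  c : ℚ

/-- The states with `D ≤ 0`. -/
inductive Neg
  | form (m : Mat)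
  | sign (V : ℚ)

/-- A piece of `v` above one. -/
inductive Piece
  | form (m : Mat)
  | lin (l : Lin)

/-- The multipliers of a box. -/
inductive Cert
  | bulk (m : Mat) (t : Top)
  | wide (hl : ℚ) (n : Neg) (ps : List Piece) (t : Option Top)

/-- A subdivision of a box. -/
inductive Plan
  | leaf (c : Cert)
  | splitY (at' : ℚ) (l r : Plan)
  | splitE (at' : ℚ) (l r : Plan)

/-- The rational lower bound of the logarithm. -/
def padeQ (x : ℚ) : ℚ := (x - 1) * (1 + 5 * x) / (x * (4 + 2 * x))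

/-- The series of the mass below, at a rational. -/
def serQ (Y : ℚ) : ℚ :=
  1 + Y / 3 + Y ^ 2 / 15 + Y ^ 3 / 105 + Y ^ 4 / 945 + Y ^ 5 / 10395 + Y ^ 6 / 135135 +
    Y ^ 7 / 2027025 + Y ^ 8 / 34459425 + Y ^ 9 / 654729075 + Y ^ 10 / 8511477975

/-- An upper bound of the exponential on `[0, 32]`. -/
def expQ (x : ℚ) : ℚ :=
  (1 + x / 32 + (x / 32) ^ 2 / 2 + (x / 32) ^ 3 / 6 + (x / 32) ^ 4 * 5 / 96) ^ 32

/-- The sign test of a symmetric form with entries in intervals, with a weight of the first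
variable. -/
def psdIv (om : ℚ) (a b c d x f : Iv) : Bool :=
  let a' := a.lo - (b.rad + c.rad) * om
  let d' := d.lo - b.rad / om - x.rad
  let f' := f.lo - c.rad / om - x.rad
  let m := d' * f' - x.mid ^ 2
  decide (0 < om) && decide (0 < d') && decide (0 < m) &&
    decide (0 ≤ a' * m - (f' * b.mid ^ 2 - 2 * x.mid * b.mid * c.mid + d' * c.mid ^ 2))

namespace Box

variable (b : Box)

/-- The range of `w`. -/
def ww : Iv := ⟨0, 3 / 20⟩

/-- The coefficients of the remainder about a point. -/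
def remShift (a : ℚ) : ℕ → ℚ
  | 0 => phiCoef 0 + a * (phiCoef 1 + a * (phiCoef 2 + a * (phiCoef 3 + a * (phiCoef 4 + a * (phiCoef 5 + a * (phiCoef 6))))))
  | 1 => phiCoef 1 + a * (2 * phiCoef 2 + a * (3 * phiCoef 3 + a * (4 * phiCoef 4 + a * (5 * phiCoef 5 + a * (6 * phiCoef 6)))))
  | 2 => phiCoef 2 + a * (3 * phiCoef 3 + a * (6 * phiCoef 4 + a * (10 * phiCoef 5 + a * (15 * phiCoef 6))))
  | 3 => phiCoef 3 + a * (4 * phiCoef 4 + a * (10 * phiCoef 5 + a * (20 * phiCoef 6)))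
  | 4 => phiCoef 4 + a * (5 * phiCoef 5 + a * (15 * phiCoef 6))
  | 5 => phiCoef 5 + a * (6 * phiCoef 6)
  | 6 => phiCoef 6
  | _ => 0

/-- The remainder of the second order. -/
def rem : Iv :=
  let c := remShift b.y.lo
  let t : Iv := ⟨0, b.y.hi - b.y.lo⟩
  (Iv.pt (c 0)).add (t.mul ((Iv.pt (c 1)).add (t.mul ((Iv.pt (c 2)).add (t.mul ((Iv.pt (c 3)).add
    (t.mul ((Iv.pt (c 4)).add (t.mul ((Iv.pt (c 5)).add (t.scale (c 6))))))))))))

/-- The weight under the switch, times the factor of the multipliers. -/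
def mu0 : Iv := (b.phi.mul b.wh).scale (191 / 200)

/-- The multiplier of a form. -/
def mu (th : ℚ) : Iv := b.mu0.sub (ww.scale (8 * th))

/-- The constant of the linear slack. -/
def x0 : Iv := b.wh.mul ((Iv.pt (994 / 1000)).sub (b.phi.scale (191 / 200)))

/-- The slope of the linear slack. -/
def x2 : Iv :=
  ((((Iv.pt 1).sub b.phi).mul b.sh).sub (((b.y.mul b.dphi).mul b.wh).scale 2)).scale (191 / 200)

/-- The linear slack at the pinned end, times `y`. -/
def corner : Iv :=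
  (b.wh.mul (b.y.mul ((Iv.pt (994 / 1000 - 191 / 200)).add
    (b.rlo.mul (b.dphi.scale (191 / 100)))))).add
      ((((Iv.pt 1).sub b.phi).mul ((b.y.mul b.wh).sub (b.rlo.mul b.sh))).scale (191 / 200))

/-- The coefficient of `D` at the second order without the multiplier. -/
def dw (th : ℚ) : Iv :=
  ((b.y.mul b.dkap).scale 2).sub ((b.kap.sub (Iv.pt th)).mul b.yc)

/-- A tested upper bound of the mass below over the abscissa and the circle. -/
def hiOK (h : ℚ) : Bool :=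
  let g := h * (1 - 3 / 40 * b.e.hi)
  decide (0 ≤ h) &&
    ((decide (b.yc.hi ≤ 8) && decide (serQ b.yc.hi ≤ g)) ||
      (decide (0 < b.y.lo) && decide (b.yc.hi * (2 - b.z.lo) / 4 ≤ 32) &&
        decide ((12566 / 10000 * expQ (b.yc.hi * (2 - b.z.lo) / 4)) ^ 2 ≤ g ^ 2 * b.y.lo)))

/-- The test of a form, with the upper bound `H` of `D` over `w` and, if `full`, the pinned box
below; otherwise `D` is nonnegative. -/
def matOK (m : Mat) (full : Bool) (H : ℚ) : Bool :=
  let R := if full then b.rlo else Iv.pt 0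
  let mu := b.mu m.th
  let me := mu.mul b.e
  let s2 := b.x2.sub ((mu.mul (b.kt.sub b.yc)).scale (1 - m.lam))
  let num := (b.qa m.V).sub (me.scale m.lam)
  decide (0 ≤ m.lam) && decide (m.lam ≤ 1) && decide (0 ≤ m.eta) && decide (1 ≤ m.V) &&
    decide (0 ≤ H) && decide (0 ≤ mu.lo) && decide (0 ≤ num.lo) &&
    decide (m.x0 + H * m.x2 ≤ (b.x0.add (s2.scale H)).lo) && decide (0 ≤ m.x0 + H * m.x2) &&
    (decide (0 < b.y.lo) || decide (0 < R.lo)) &&
    (if full then
      decide (m.lam = 1) &&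
      decide (0 ≤ (b.corner.sub ((b.y.scale m.x0).sub (b.rlo.scale m.x2))).lo)
    else
      decide (0 ≤ ((b.y.mul (b.x0.sub (Iv.pt m.x0))).sub
        (R.mul (s2.sub (Iv.pt m.x2)))).lo)) &&
    decide (0 ≤ ((b.y.scale m.x0).sub (R.scale m.x2)).lo) &&
    psdIv m.om
      ((((Iv.pt (8 * m.th + 20 / 3 * m.x0)).sub
        ((b.e.sq.mul (mu.mul (R.mul b.c2.inv))).scale (4 * m.lam))).sub
          (R.scale (m.eta * H))).sub b.rem)
      (((b.kap.sub (Iv.pt m.th)).scale 4).sub (me.scale ((1 - m.lam) / 2)))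
      ((((((b.dw m.th).scale 4).add (Iv.pt (10 / 3 * m.x2))).sub
        ((b.e.sq.mul (mu.mul b.yc)).scale m.lam))).add ((R.sub (b.y.scale H)).scale (m.eta / 2)))
      ((num.scale (1 / m.V)).add (me.scale ((1 - m.lam) / (m.V + 1))))
      b.qc.neg
      ((b.qb.sub ((me.mul b.yc).scale (m.lam / 2))).add (b.y.scale m.eta))

/-- The test of `v ≤ 1` for positive `D`. -/
def lowOK (h : ℚ) : Bool :=
  let lD := ((b.x2.add (b.mu0.mul b.yc))).add
    ((ww.mul (((b.y.mul b.dkap).scale 2).sub (b.kap.mul b.yc))).scale 8)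
  decide (3 / 20 * max 0 b.rem.hi ≤ (b.wh.scale (994 / 1000)).lo) &&
    (decide (0 ≤ b.qb.lo) && decide (0 ≤ lD.lo) ||
      b.hiOK h && decide (b.qb.lo ≤ 0) && decide (0 ≤ lD.lo + b.qb.lo * (3 / 20 * h))) &&
    decide (0 ≤ b.qc.lo) && decide (0 ≤ (b.qa (1 / 2)).lo) &&
    decide (0 ≤ (b.mu0.sub ((ww.mul b.kap).scale 8)).lo) &&
    decide (0 ≤ ((b.mu0.sub ((ww.mul b.kap).scale 8)).mul b.e).lo + min 0 (b.qa 1).lo)

/-- The test of an upper bound `v ≤ 1 / (1 - ell)`. -/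
def negTopOK (V : ℚ) : Bool := decide (1 ≤ V * (1 - 3 / 20 * b.e.hi))

/-- The test of `D ≤ 0` by signs. -/
def signOK (V : ℚ) : Bool :=
  let lD := max 0 ((b.x2.add (b.mu0.mul b.yc)).add
    ((ww.mul (((b.y.mul b.dkap).scale 2).sub (b.kap.mul b.yc))).scale 8)).hi
  let low := (b.mu0.sub ((ww.mul b.kap).scale 8)).mul b.y |>.sub
    (((ww.mul b.qc).mul b.rlo).scale 2)
  b.negTopOK V && decide (1 ≤ V) && decide (V ≤ 2) && decide (0 ≤ b.qb.lo) &&
    decide (0 ≤ b.qc.lo) && decide (0 ≤ (b.qa (1 / 2)).lo) && decide (0 ≤ b.kap.lo) &&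
    decide (0 ≤ low.lo) && decide (0 ≤ (low.mul b.e).lo + b.y.hi * min 0 (b.qa 1).lo) &&
    decide (0 ≤ ((b.wh.mul ((Iv.pt (994 / 1000)).sub (b.phi.scale (191 / 200 * V)))).mul b.y).lo - lD * b.rlo.hi +
      b.y.hi * (3 / 20 * V ^ 2 * min 0 (b.qa V).lo - 3 / 20 * max 0 b.rem.hi))

/-- The test of `rho U ≤ X` from a tail chord. -/
def rhoOK (V0 rho c : ℚ) : Bool :=
  let L := b.y.lo * (1 - c ^ 2) / (2 - (1 + c ^ 2) * b.z.lo)
  let K1 := rho * (((b.z.scale 2).add (Iv.pt 1)).mul b.y.inv).hi + rho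
  let lg := L + padeQ V0 - 3 / 20 * b.e.hi
  decide (0 ≤ c) && decide (c ≤ 1) && decide (1 ≤ V0) && decide (0 ≤ lg + 1 - K1) &&
    decide (0 ≤ V0 * lg - K1 * (V0 - 1) - (1 - c) * b.kt.hi)

/-- The last test of a piece. -/
def quadOK (q B C rho : ℚ) : Bool :=
  (decide (0 < q) && decide (0 < B) && decide (C ^ 2 ≤ q * B)) ||
    (decide (0 < rho) && decide (C ≤ B * rho) && decide (0 ≤ B * rho ^ 2 - 2 * C * rho + q))

/-- The test of a piece with the linear slack. -/
def linOK (t : Lin) : Bool :=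
  let k := b.c2.mul b.y.inv
  let l := 1 - t.lam - t.nu
  let me := b.mu0.mul b.e
  let nr := if t.nu = 0 then 0 else t.nu / t.rho
  let P0 := ((((((Iv.pt 1).sub b.phi).mul b.sh).mul k).sub
      (((b.c2.mul b.dphi).mul b.wh).scale 2)).scale (191 / 200)).add
    ((ww.mul (((b.c2.mul b.dkap).scale 2).sub b.kap)).scale 8) |>.add
    (b.mu0.mul (((Iv.pt (1 - t.lam - nr)).sub ((b.e.sq.mul ww).scale (2 * t.lam))).sub
      (((((b.z.scale 2).add (Iv.pt 1)).mul b.y.inv).add (Iv.pt 1)).scale l)))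
  let B0 := ((b.qb.mul k.sq).sub ((me.mul k).scale (t.lam / 2))).lo
  let C := (b.qc.mul k).hi
  let rest := 3 / 20 * max 0 b.rem.hi
  decide (0 < b.y.lo) && decide (0 ≤ t.lam) && (decide (t.nu = 0) || decide (0 < t.rho)) && decide (0 ≤ t.nu) && decide (0 ≤ l) &&
    decide (0 ≤ t.tht) && decide (t.tht ≤ 1) && decide (1 ≤ t.V0) && decide (0 ≤ t.rho) &&
    decide (0 ≤ b.qc.lo) && decide (0 ≤ b.kap.lo) && decide (0 ≤ me.lo) &&
    (decide (t.rho = 0) && decide (t.nu = 0) && decide (t.tht = 0) ||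
      decide (t.shift = true) && decide (t.V0 = 1) && decide (t.nu = 0) &&
        decide (t.rho * ((((b.z.scale 2).add (Iv.pt 1)).mul b.y.inv).add (Iv.pt 1)).hi ≤ 1) ||
      decide (t.shift = false) && b.rhoOK t.V0 t.rho t.c) &&
    match t.V1 with
    | some V1 =>
      let P := P0.lo
      let num := ((b.qa V1).sub (me.scale t.lam)).lo
      let q := (if 0 ≤ num then num / V1 else num / t.V0) + l * me.lo / (V1 + 1)
      let Xm := b.yc.hi * (3 / 20) * t.h * t.rv
      let B := if t.tht = 1 || t.h = 0 then B0 else B0 + (1 - t.tht) * P / Xm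
      let q' := if t.tht = 0 then q else q + t.tht * P * t.rho * b.e.lo / (V1 - 1)
      decide (1 < V1) && decide (t.V0 ≤ V1) && decide (0 ≤ P) &&
        (decide (t.h = 0) || (b.hiOK t.h && decide (0 < t.rv) && decide (V1 ≤ t.rv ^ 2))) &&
        decide (rest + (if t.shift then t.tht * P * t.rho * V1 else 0) ≤
          (b.wh.mul ((Iv.pt (994 / 1000)).sub
            (b.phi.scale (191 / 200 * (t.lam + l * V1))))).lo) &&
        quadOK q' B C (if t.shift then 0 else t.rho)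
    | none =>
      let P := (P0.sub (me.scale (3 / 20 * l / t.rho))).lo
      let top := ((b.qa 1).scale 2).sub (b.qa (-(1 / 2)))
      decide (t.lam = 0) && decide (t.shift = false) && decide (0 < t.rho) && decide (0 ≤ P) &&
        decide (rest ≤ (b.wh.mul ((Iv.pt (994 / 1000)).sub (b.phi.scale (191 / 200 * l)))).lo) &&
        quadOK (min 0 top.lo / t.V0) B0 C t.rho

/-- The test of an upper bound of `v`. -/
def topOK (t : Top) : Bool :=
  let L := b.y.lo * (1 - t.c ^ 2) / (2 - (1 + t.c ^ 2) * b.z.lo)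
  let lg := L + padeQ t.V - 3 / 20 * b.e.hi
  b.hiOK t.h && decide (0 ≤ t.c) && decide (t.c ≤ 1) && decide (1 ≤ t.V) && decide (0 < t.rl) &&
    decide (t.rl ^ 2 ≤ t.V) && decide (0 ≤ lg) &&
    decide (b.e.hi * (3 / 20) * t.h * b.kt.hi < t.rl * lg - (1 - t.c) * b.kt.hi / t.rl)

/-- The `v` reached by the pieces, starting from `r`. -/
def piecesOK : List Piece → ℚ → Option Top → Bool
  | [], r, some t => b.topOK t && decide (t.V ≤ r)
  | [], _, none => false
  | .form m :: ps, r, t =>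
    b.matOK m false (m.h * m.rv) && b.hiOK m.h && decide (0 ≤ m.rv) &&
      decide (m.V ≤ m.rv ^ 2) && piecesOK ps (max r m.V) t
  | .lin l :: ps, r, t =>
    b.linOK l && decide (l.V0 ≤ r) &&
      match l.V1 with
      | none => true
      | some V1 => piecesOK ps (max r V1) t

/-- The test of a leaf. -/
def certOK : Cert → Bool
  | .bulk m t =>
    decide (m.lam = 1) && b.topOK t && decide (t.V ≤ m.V) && b.negTopOK m.V && b.hiOK m.h &&
      decide (0 ≤ m.rv) && decide (m.V ≤ m.rv ^ 2) && b.matOK m true (m.h * m.rv)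
  | .wide hl n ps t =>
    b.lowOK hl && decide (0 < b.y.lo) && piecesOK b ps 1 t &&
      match n with
      | .form m => decide (m.lam = 1) && b.negTopOK m.V && b.matOK m true 0
      | .sign V => b.signOK V

end Box

/-- The test of a plan. -/
def Plan.check : Plan → Box → Bool
  | .leaf c, b => b.ok && b.certOK c
  | .splitY a l r, b => l.check ⟨⟨b.y.lo, a⟩, b.e⟩ && r.check ⟨⟨a, b.y.hi⟩, b.e⟩
  | .splitE a l r, b => l.check ⟨b.y, ⟨b.e.lo, a⟩⟩ && r.check ⟨b.y, ⟨a, b.e.hi⟩⟩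

namespace Plan

variable {lo hi elo ehi a : ℚ} {l r : Plan}

/-- A split in `y` from its halves. -/
theorem check_splitY (h1 : l.check ⟨⟨lo, a⟩, ⟨elo, ehi⟩⟩ = true)
    (h2 : r.check ⟨⟨a, hi⟩, ⟨elo, ehi⟩⟩ = true) :
    (Plan.splitY a l r).check ⟨⟨lo, hi⟩, ⟨elo, ehi⟩⟩ = true :=
  Bool.and_eq_true_iff.2 ⟨h1, h2⟩

/-- A split in `e` from its halves. -/
theorem check_splitE (h1 : l.check ⟨⟨lo, hi⟩, ⟨elo, a⟩⟩ = true)
    (h2 : r.check ⟨⟨lo, hi⟩, ⟨a, ehi⟩⟩ = true) :
    (Plan.splitE a l r).check ⟨⟨lo, hi⟩, ⟨elo, ehi⟩⟩ = true :=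
  Bool.and_eq_true_iff.2 ⟨h1, h2⟩

end Plan

end Vale.Agent.P237.Petty.Cor.Tiny
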