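import Vale.Agent.P237.Petty.Cor.Tiny.Lower
import Vale.Agent.P237.Petty.Cor.Tiny.Leaf
import Vale.Agent.P237.Petty.Cor.Tiny.Algebra

/-!
# P237: the tests of the bounds of `v` and `D` in a leaf
-/

namespace Vale.Agent.P237.Petty.Cor.Tiny

open Set
open Ident (half)
open Lift (circLow)

variable {p : ℕ} {b : Box} {s w v U D : ℝ}

/-- The sign test of a form. -/
theorem psdIv_sound {om : ℚ} {A B C F P Q : Iv} {a b c d x f : ℝ}
    (h : psdIv om A B C P Q F = true) (hA : A.Has a) (hB : B.Has b) (hC : C.Has c) (hP : P.Has d)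
    (hQ : Q.Has x) (hF : F.Has f) (w u v : ℝ) :
    0 ≤ a * w ^ 2 + 2 * b * (w * u) + 2 * c * (w * v) + d * u ^ 2 + 2 * x * (u * v) +
      f * v ^ 2 := by
  simp only [psdIv, Bool.and_eq_true, decide_eq_true_eq] at h
  obtain ⟨⟨⟨ho, h1⟩, h2⟩, h3⟩ := h
  have ho' : (0 : ℝ) < om := by exact_mod_cast ho
  have h1' : (0 : ℝ) < P.lo - B.rad / om - Q.rad := by exact_mod_cast h1
  have h2' : (0 : ℝ) < (P.lo - B.rad / om - Q.rad) * (F.lo - C.rad / om - Q.rad) -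
      (Q.mid : ℝ) ^ 2 := by exact_mod_cast h2
  have h3' : (0 : ℝ) ≤ (A.lo - (B.rad + C.rad) * om) * ((P.lo - B.rad / om - Q.rad) *
      (F.lo - C.rad / om - Q.rad) - (Q.mid : ℝ) ^ 2) - ((F.lo - C.rad / om - Q.rad) *
        (B.mid : ℝ) ^ 2 - 2 * Q.mid * B.mid * C.mid +
          (P.lo - B.rad / om - Q.rad) * (C.mid : ℝ) ^ 2) := by
    exact_mod_cast h3
  have hf := form_nonneg (w := w) (u := u) (v := v) h1' h2' h3'
  have e1 := near_mul_weighted (a := w) (b := u) hB.abs_sub_mid ho'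
  have e2 := near_mul_weighted (a := w) (b := v) hC.abs_sub_mid ho'
  have e3 := near_mul_ge (a := u) (b := v) hQ.abs_sub_mid
  have e4 := mul_le_mul_of_nonneg_right hA.1 (sq_nonneg w)
  have e5 := mul_le_mul_of_nonneg_right hP.1 (sq_nonneg u)
  have e6 := mul_le_mul_of_nonneg_right hF.1 (sq_nonneg v)
  linear_combination hf + e1 + e2 + e3 + e4 + e5 + e6

/-- The exponential from above on `[0, 32]`. -/
theorem exp_le_expQ {x : ℚ} (h0 : 0 ≤ x) (h1 : x ≤ 32) :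
    Real.exp (x : ℝ) ≤ (expQ x : ℝ) := by
  have h0' : (0 : ℝ) ≤ x := by exact_mod_cast h0
  have h1' : (x : ℝ) ≤ 32 := by exact_mod_cast h1
  have h := Real.exp_bound' (x := (x : ℝ) / 32) (by positivity) (by linarith) (n := 4) (by norm_num)
  simp [Finset.sum_range_succ, Nat.factorial] at h
  rw [show (x : ℝ) = ((32 : ℕ) : ℝ) * ((x : ℝ) / 32) by push_cast; ring, Real.exp_nat_mul, expQ]
  push_cast
  refine pow_le_pow_left₀ (Real.exp_pos _).le (h.trans (le_of_eq ?_)) _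
  ring

/-- The logarithm of a number above one by the half difference with its reciprocal. -/
theorem log_le_half_diff {x : ℝ} (hx : 1 ≤ x) : Real.log x ≤ (x - x⁻¹) / 2 := by
  have h := Real.self_le_sinh_iff.2 (Real.log_nonneg hx)
  rwa [Real.sinh_log (by linarith)] at h

/-- The circle, inverse, over its exponent. -/
theorem inv_arc_pow_le_sharp (hs : s ∈ Ioo (0 : ℝ) 1) :
    1 / arc s ^ (p + 1) ≤
      Real.exp (((p : ℝ) + 1) * s ^ 2 / (1 - s ^ 2) * (2 - s ^ 2) / 4) := by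
  have hz : 0 < 1 - s ^ 2 := by nlinarith [hs.1, hs.2]
  have hc := arc_pos (u := s) ⟨by linarith [hs.1], hs.2⟩
  rw [← Real.log_le_iff_le_exp (by positivity), one_div, Real.log_inv, Real.log_pow, arc,
    Real.log_sqrt hz.le]
  have h := log_le_half_diff (x := (1 - s ^ 2)⁻¹) (by
    rw [one_le_inv₀ hz]; nlinarith)
  rw [Real.log_inv, inv_inv] at h
  have e : (1 - s ^ 2)⁻¹ - (1 - s ^ 2) = s ^ 2 * (2 - s ^ 2) / (1 - s ^ 2) := by
    field_simp; ring
  rw [e] at h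
  push_cast
  have := mul_le_mul_of_nonneg_left h (show 0 ≤ ((p : ℝ) + 1) / 2 by positivity)
  refine le_trans (le_of_eq ?_) (this.trans (le_of_eq ?_))
  · ring
  · field_simp
    ring

/-- The upper bound of `D` over `w`. -/
theorem Box.hi_sound {h : ℚ} (hp : 198 ≤ p) (hok : b.ok = true) (hh : b.hiOK h = true)
    (E : b.Encl p s) (S : Hat p s w v U D) :
    0 ≤ (h : ℝ) ∧ (0 < D → D ≤ w * h * √v) := by
  obtain ⟨hy0, -, he1, hc20, -, hz0, -⟩ := Box.ok_iff hok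
  simp only [Box.hiOK, Bool.and_eq_true, Bool.or_eq_true, decide_eq_true_eq] at hh
  obtain ⟨h0, hh⟩ := hh
  have h0' : (0 : ℝ) ≤ h := by exact_mod_cast h0
  refine ⟨h0', fun hD => ?_⟩
  have hs := S.s_mem
  have he1' : (b.e.hi : ℝ) ≤ 1 / 199 := by simpa using (Rat.cast_le (K := ℝ)).2 he1
  have hz : 0 < 1 - s ^ 2 := by nlinarith [hs.1, hs.2]
  have hsc : 0 < s * arc s ^ (p + 1) :=
    mul_pos hs.1 (pow_pos (arc_pos ⟨by linarith [hs.1], hs.2⟩) _)
  obtain ⟨g, hg⟩ : ∃ g : ℝ, (h : ℝ) * (1 - 3 / 40 * b.e.hi) = g := ⟨_, rfl⟩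
  have hY0 : 0 ≤ ((p : ℝ) + 1) * s ^ 2 / (1 - s ^ 2) := div_nonneg (by positivity) hz.le
  have hg0 : 0 ≤ g := hg ▸ mul_nonneg h0' (by linarith)
  have hlow : circLow p s ≤ g * (s * arc s ^ (p + 1)) := by
    rcases hh with ⟨h8, hser⟩ | ⟨⟨hy, h32⟩, hex⟩
    · have hY := E.yc.le_hi h8
      have hser' : lowSer (b.yc.hi : ℝ) ≤ g := by
        have := (Rat.cast_le (K := ℝ)).2 hser
        rw [← hg]
        simp only [serQ] at this
        push_cast at this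
        exact this
      refine (circLow_le_ser hs (by simpa using hY)).trans
        (mul_le_mul_of_nonneg_right (le_trans ?_ hser') hsc.le)
      have hYh := E.yc.2
      unfold lowSer
      gcongr
    · have hy' : (0 : ℝ) < b.y.lo := by exact_mod_cast hy
      obtain ⟨xq, hxq⟩ : ∃ xq : ℚ, b.yc.hi * (2 - b.z.lo) / 4 = xq := ⟨_, rfl⟩
      rw [hxq] at h32 hex
      have hzl : (b.z.lo : ℝ) ≤ s ^ 2 := E.z.1
      have hz1 : s ^ 2 ≤ 1 := by linarith
      have hx : ((p : ℝ) + 1) * s ^ 2 / (1 - s ^ 2) * (2 - s ^ 2) / 4 ≤ (xq : ℝ) := by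
        rw [← hxq]
        push_cast
        have := mul_le_mul E.yc.2 (show 2 - s ^ 2 ≤ 2 - (b.z.lo : ℝ) by linarith) (by linarith)
          (hY0.trans E.yc.2)
        linarith
      have hx0 : 0 ≤ xq := by
        have : (0 : ℝ) ≤ (xq : ℝ) := le_trans
          (div_nonneg (mul_nonneg hY0 (by linarith)) (by norm_num)) hx
        exact_mod_cast this
      have hC := (inv_arc_pow_le_sharp (p := p) hs).trans
        ((Real.exp_le_exp.2 hx).trans (exp_le_expQ hx0 h32))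
      have hQ0 : (0 : ℝ) ≤ (expQ xq : ℝ) :=
        (Real.exp_pos _).le.trans (exp_le_expQ hx0 h32)
      have hex' : (12566 / 10000 * (expQ xq : ℝ)) ^ 2 ≤ g ^ 2 * b.y.lo := by
        have := (Rat.cast_le (K := ℝ)).2 hex
        rw [← hg]
        push_cast at this
        exact this
      have h2 : 12566 / 10000 * (expQ xq : ℝ) ≤ g * √(((p : ℝ) + 1) * s ^ 2) := by
        refine (pow_le_pow_iff_left₀ (by positivity) (mul_nonneg hg0 (Real.sqrt_nonneg _))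
          two_ne_zero).1 ?_
        rw [mul_pow g, Real.sq_sqrt (by positivity)]
        exact hex'.trans (mul_le_mul_of_nonneg_left E.y.1 (sq_nonneg g))
      have h3 : circLow p s ≤ half (p + 1) := by
        refine intervalIntegral.integral_mono_interval le_rfl hs.1.le hs.2.le ?_
          ((continuous_arc.pow _).intervalIntegrable _ _)
        exact Filter.Eventually.of_forall fun u => pow_nonneg (Real.sqrt_nonneg _) _
      have h4 : √(((p : ℝ) + 1) * s ^ 2) * half (p + 1) ≤ 12566 / 10000 * s := by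
        rw [Real.sqrt_mul (by positivity), Real.sqrt_sq hs.1.le]
        have hk : half (p + 1) * √((p : ℝ) + 3) ≤ 12566 / 10000 :=
          Top.half_mul_sqrt_le (m0 := 199) (by norm_num)
            (by have : (198 : ℝ) ≤ p := by exact_mod_cast hp
                linarith) (by norm_num) (by norm_num)
        have := mul_le_mul_of_nonneg_left hk hs.1.le
        refine le_trans ?_ (this.trans (le_of_eq (mul_comm _ _)))
        rw [mul_comm (half (p + 1)), ← mul_assoc, mul_comm (√((p : ℝ) + 1)) s]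
        exact mul_le_mul_of_nonneg_right
          (mul_le_mul_of_nonneg_left (Real.sqrt_le_sqrt (by linarith)) hs.1.le) (Ident.half_pos _).le
      have hy2 : 0 < √(((p : ℝ) + 1) * s ^ 2) :=
        Real.sqrt_pos.2 (hy'.trans_le E.y.1)
      refine le_of_mul_le_mul_left ?_ hy2
      calc √(((p : ℝ) + 1) * s ^ 2) * circLow p s
          ≤ √(((p : ℝ) + 1) * s ^ 2) * half (p + 1) := mul_le_mul_of_nonneg_left h3 hy2.le
        _ ≤ 12566 / 10000 * s := h4
        _ ≤ 12566 / 10000 * s * ((expQ xq : ℝ) * arc s ^ (p + 1)) := by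
            refine le_mul_of_one_le_right (mul_nonneg (by norm_num) hs.1.le) ?_
            rwa [div_le_iff₀ (pow_pos (arc_pos ⟨by linarith [hs.1], hs.2⟩) _)] at hC
        _ = 12566 / 10000 * (expQ xq : ℝ) * (s * arc s ^ (p + 1)) := by ring
        _ ≤ g * √(((p : ℝ) + 1) * s ^ 2) * (s * arc s ^ (p + 1)) :=
            mul_le_mul_of_nonneg_right h2 hsc.le
        _ = √(((p : ℝ) + 1) * s ^ 2) * (g * (s * arc s ^ (p + 1))) := by ring
  refine (S.hi hD g hlow).trans ?_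
  refine mul_le_mul_of_nonneg_right ?_ (Real.sqrt_nonneg _)
  rw [mul_assoc]
  refine mul_le_mul_of_nonneg_left ?_ S.w_nonneg
  have hew : 1 / ((p : ℝ) + 1) * w / 2 ≤ 3 / 40 * (b.e.hi : ℝ) := by
    nlinarith [E.e.2, S.w_le, S.w_nonneg, show (0 : ℝ) < 1 / ((p : ℝ) + 1) by positivity]
  have hlt : 1 / ((p : ℝ) + 1) * w / 2 < 1 := by linarith
  have h5 : Real.exp (1 / ((p : ℝ) + 1) * w / 2) * (1 - 3 / 40 * (b.e.hi : ℝ)) ≤ 1 := by
    have h6 : Real.exp (1 / ((p : ℝ) + 1) * w / 2) ≤ 1 / (1 - 1 / ((p : ℝ) + 1) * w / 2) :=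
      Real.exp_bound_div_one_sub_of_interval
        (by have := S.w_nonneg; positivity) hlt
    rw [le_div_iff₀ (by linarith)] at h6
    refine le_trans ?_ h6
    exact mul_le_mul_of_nonneg_left (by linarith) (Real.exp_pos _).le
  rw [← hg]
  nlinarith [mul_le_mul_of_nonneg_left h5 h0']

/-- Negative `D` bounds `v` by the value alone. -/
theorem Box.negTop_exp (E : b.Encl p s) (S : Hat p s w v U D) (hD : D ≤ 0) :
    v * (1 - 1 / ((p : ℝ) + 1) * w) ≤ 1 := by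
  obtain ⟨e, he⟩ : ∃ e, 1 / ((p : ℝ) + 1) = e := ⟨_, rfl⟩
  have ht := S.tail
  have hDg := S.D_gt
  have he1 := E.e.2
  rw [he] at ht hDg he1 ⊢
  have he0 : 0 < e := he ▸ by positivity
  have hv := S.v_pos
  have hs := S.s_mem
  have hz : 0 < 1 - s ^ 2 := by nlinarith [hs.1, hs.2]
  obtain ⟨K, hK, hK0⟩ : ∃ K, ((((p : ℝ) + 3) * s ^ 2 + 1) / (1 - s ^ 2)) = K ∧ 0 ≤ K :=
    ⟨_, rfl, div_nonneg (by positivity) hz.le⟩
  have key : Real.log v ≤ e * w := by
    by_contra hlt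
    push Not at hlt
    obtain ⟨G, hG, hGe⟩ : ∃ G, 0 < G ∧ v * (Real.log v - e * w) = G :=
      ⟨_, mul_pos hv (sub_pos.2 hlt), rfl⟩
    obtain ⟨η, h1, h2, h3⟩ : ∃ η, 0 < η ∧ η ≤ 1 + e * D ∧ η * K < G := by
      refine ⟨min (1 + e * D) (G / (2 * (K + 1))), lt_min (by linarith) (by positivity),
        min_le_left _ _, ?_⟩
      refine lt_of_le_of_lt (mul_le_mul_of_nonneg_right (min_le_right _ _) hK0) ?_
      rw [div_mul_eq_mul_div, div_lt_iff₀ (by positivity)]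
      nlinarith [mul_pos hG (show (0 : ℝ) < K + 2 by linarith)]
    have hc1 : 1 + e * D - η ≤ 1 := by linarith [mul_nonpos_of_nonneg_of_nonpos he0.le hD]
    have h4 := ht (1 + e * D - η) ⟨by linarith, hc1⟩ (by linarith)
    have hL : 0 ≤ ((p : ℝ) + 1) * s ^ 2 * (1 - (1 + e * D - η) ^ 2) /
        (2 - (1 + (1 + e * D - η) ^ 2) * s ^ 2) := by
      have hc2 : (1 + e * D - η) ^ 2 ≤ 1 := pow_le_one₀ (by linarith) hc1
      exact div_nonneg (mul_nonneg (by positivity) (by linarith))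
        (by nlinarith [mul_le_mul_of_nonneg_right hc2 (sq_nonneg s)])
    rw [hK, show e * D + (1 - (1 + e * D - η)) = η by ring] at h4
    nlinarith [mul_nonneg hv.le hL]
  have h1 : v ≤ Real.exp (e * w) := by
    rw [← Real.log_le_iff_le_exp hv]; exact key
  rcases lt_or_ge (e * w) 1 with hlt | hlt
  · have h2 := h1.trans (Real.exp_bound_div_one_sub_of_interval (mul_nonneg he0.le S.w_nonneg) hlt)
    rwa [le_div_iff₀ (by linarith)] at h2
  · nlinarith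

/-- Negative `D` bounds `v`. -/
theorem Box.negTop_sound {V : ℚ} (hok : b.ok = true) (hh : b.negTopOK V = true) (E : b.Encl p s)
    (S : Hat p s w v U D) (hD : D ≤ 0) : v ≤ (V : ℝ) := by
  simp only [Box.negTopOK, decide_eq_true_eq] at hh
  have hh' : (1 : ℝ) ≤ (V : ℝ) * (1 - 3 / 20 * (b.e.hi : ℝ)) := by
    have := (Rat.cast_le (K := ℝ)).2 hh
    push_cast at this
    exact this
  have h := Box.negTop_exp E S hD
  have he199 : (b.e.hi : ℝ) ≤ 1 / 199 := by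
    simpa using (Rat.cast_le (K := ℝ)).2 (Box.ok_iff hok).2.2.1
  have hew : 1 / ((p : ℝ) + 1) * w ≤ 3 / 20 * (b.e.hi : ℝ) := by
    nlinarith [S.w_le, S.w_nonneg, E.e.2, show (0 : ℝ) < 1 / ((p : ℝ) + 1) by positivity]
  have hV : 0 < (V : ℝ) := by nlinarith
  by_contra hlt
  push Not at hlt
  nlinarith [mul_le_mul_of_nonneg_left hew S.v_pos.le,
    mul_lt_mul_of_pos_right hlt (show 0 < 1 - 3 / 20 * (b.e.hi : ℝ) by linarith)]

/-- The contradiction behind an upper bound of `v`. -/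
theorem top_arith {r rl lg A C : ℝ} (hlg : 0 ≤ lg) (hrl : 0 < rl) (hr : rl ≤ r)
    (hC : 0 ≤ C) (h : A < rl * lg - C / rl) (h2 : r ^ 2 * lg ≤ A * r + C) : False := by
  have h3 : A * rl < rl ^ 2 * lg - C := by
    have := mul_lt_mul_of_pos_right h hrl
    rw [sub_mul, div_mul_cancel₀ _ hrl.ne'] at this
    linarith
  nlinarith [mul_le_mul_of_nonneg_left hr hC, mul_nonneg (mul_nonneg hlg (sub_nonneg.2 hr))
    (mul_nonneg hrl.le (hrl.le.trans hr))]

/-- An upper bound of `v`. -/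
theorem Box.top_sound {t : Top} (hp : 198 ≤ p) (hok : b.ok = true) (hh : b.topOK t = true)
    (E : b.Encl p s) (S : Hat p s w v U D) (hD : 0 < D) : v ≤ (t.V : ℝ) := by
  simp only [Box.topOK, Bool.and_eq_true, decide_eq_true_eq] at hh
  obtain ⟨⟨⟨⟨⟨⟨⟨hhi, hc0⟩, hc1⟩, hV⟩, hrl⟩, hrlV⟩, hlg⟩, hmain⟩ := hh
  obtain ⟨hy0, -, -, -, -, hz0, hz1⟩ := Box.ok_iff hok
  obtain ⟨hh0, hhD⟩ := Box.hi_sound hp hok hhi E S
  by_contra hlt
  push Not at hlt
  have hc0' : (0 : ℝ) ≤ t.c := by exact_mod_cast hc0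
  have hc1' : (t.c : ℝ) ≤ 1 := by exact_mod_cast hc1
  have hV' : (1 : ℝ) ≤ t.V := by exact_mod_cast hV
  have hrl' : (0 : ℝ) < t.rl := by exact_mod_cast hrl
  have hrlV' : (t.rl : ℝ) ^ 2 ≤ t.V := by exact_mod_cast hrlV
  obtain ⟨lg, hlge⟩ : ∃ lg : ℝ, (b.y.lo : ℝ) * (1 - (t.c : ℝ) ^ 2) /
      (2 - (1 + (t.c : ℝ) ^ 2) * b.z.lo) + ((t.V - 1) * (1 + 5 * t.V) / (t.V * (4 + 2 * t.V))) -
      3 / 20 * b.e.hi = lg := ⟨_, rfl⟩
  have hlg' : 0 ≤ lg := by
    have := (Rat.cast_le (K := ℝ)).2 hlg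
    rw [← hlge]
    simp only [padeQ] at this
    push_cast at this
    exact this
  have hmain' : (b.e.hi : ℝ) * (3 / 20) * t.h * b.kt.hi <
      t.rl * lg - (1 - t.c) * b.kt.hi / t.rl := by
    have := (Rat.cast_lt (K := ℝ)).2 hmain
    rw [← hlge]
    simp only [padeQ] at this
    push_cast at this
    exact this
  obtain ⟨e, he⟩ : ∃ e, 1 / ((p : ℝ) + 1) = e := ⟨_, rfl⟩
  have ht := S.tail (t.c : ℝ) ⟨hc0', hc1'⟩
  have he1 := E.e.2
  rw [he] at ht he1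
  have he0 : 0 < e := he ▸ by positivity
  replace ht := ht (by nlinarith)
  have hv := S.v_pos
  have hz0' : (0 : ℝ) ≤ b.z.lo := by exact_mod_cast hz0
  have hz1' : (b.z.hi : ℝ) ≤ 1 / 2 := by simpa using (Rat.cast_le (K := ℝ)).2 hz1
  have hzz := E.z
  have hc2' : (t.c : ℝ) ^ 2 ≤ 1 := pow_le_one₀ hc0' hc1'
  have hden : 0 < 2 - (1 + (t.c : ℝ) ^ 2) * s ^ 2 := by
    nlinarith [hzz.2, sq_nonneg s, mul_le_mul_of_nonneg_right hc2' (sq_nonneg s)]
  have hL : (b.y.lo : ℝ) * (1 - (t.c : ℝ) ^ 2) / (2 - (1 + (t.c : ℝ) ^ 2) * b.z.lo) ≤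
      ((p : ℝ) + 1) * s ^ 2 * (1 - (t.c : ℝ) ^ 2) / (2 - (1 + (t.c : ℝ) ^ 2) * s ^ 2) := by
    refine div_le_div₀ (mul_nonneg (by positivity) (by linarith))
      (mul_le_mul_of_nonneg_right E.y.1 (by linarith)) hden ?_
    linarith [mul_le_mul_of_nonneg_left hzz.1 (show 0 ≤ 1 + (t.c : ℝ) ^ 2 by positivity)]
  have hlog : ((t.V : ℝ) - 1) * (1 + 5 * t.V) / (t.V * (4 + 2 * t.V)) ≤ Real.log v :=
    (pade_le_log (show (0 : ℝ) < t.V by linarith)).trans
      (Real.log_le_log (by linarith) hlt.le)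
  have hew : e * w ≤ 3 / 20 * (b.e.hi : ℝ) := by nlinarith [S.w_le, S.w_nonneg]
  have h1 : v * lg ≤ v * (((p : ℝ) + 1) * s ^ 2 * (1 - (t.c : ℝ) ^ 2) /
      (2 - (1 + (t.c : ℝ) ^ 2) * s ^ 2) + Real.log v - e * w) :=
    mul_le_mul_of_nonneg_left (by linarith) hv.le
  have hkt := E.kt
  obtain ⟨K, hK⟩ : ∃ K, ((((p : ℝ) + 3) * s ^ 2 + 1) / (1 - s ^ 2)) = K := ⟨_, rfl⟩
  rw [hK] at ht hkt
  have hK0 : 0 ≤ K := hK ▸ div_nonneg (by positivity) (by nlinarith [S.s_mem.1, S.s_mem.2])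
  obtain ⟨r, hr⟩ : ∃ r, √v = r := ⟨_, rfl⟩
  have hrr : v = r ^ 2 := by rw [← hr, Real.sq_sqrt hv.le]
  have hr0 : 0 < r := hr ▸ Real.sqrt_pos.2 hv
  have hrl2 : (t.rl : ℝ) ≤ r := by
    refine (pow_le_pow_iff_left₀ hrl'.le hr0.le two_ne_zero).1 ?_
    rw [← hrr]; linarith
  have hDb := hhD hD
  rw [hr] at hDb
  have heD : e * D ≤ (b.e.hi : ℝ) * (3 / 20) * t.h * r := by
    calc e * D ≤ e * (w * t.h * r) := mul_le_mul_of_nonneg_left hDb he0.le
      _ ≤ (b.e.hi : ℝ) * ((3 / 20) * t.h * r) := by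
          refine mul_le_mul he1 ?_ (by have := S.w_nonneg; positivity) (by linarith)
          exact mul_le_mul_of_nonneg_right (mul_le_mul_of_nonneg_right S.w_le hh0) hr0.le
      _ = _ := by ring
  have h2 : r ^ 2 * lg ≤ ((b.e.hi : ℝ) * (3 / 20) * t.h * r + (1 - t.c)) * b.kt.hi := by
    rw [← hrr]
    refine h1.trans (ht.trans (mul_le_mul (by linarith) hkt.2 hK0 ?_))
    have : 0 ≤ (b.e.hi : ℝ) := he0.le.trans he1
    have := sub_nonneg.2 hc1'
    positivity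
  exact top_arith (A := (b.e.hi : ℝ) * (3 / 20) * t.h * b.kt.hi)
    (C := (1 - t.c) * b.kt.hi) hlg' hrl' hrl2 (mul_nonneg (sub_nonneg.2 hc1') (hK0.trans hkt.2))
    hmain' (h2.trans (le_of_eq (by ring)))

/-- The tail chord at the abscissa. -/
theorem tail_one (S : Hat p s w v U D) (hD : 0 < D) (hv : 1 ≤ v) :
    U + 1 / ((p : ℝ) + 1) * (U ^ 2 / (v + 1)) - w * v ≤
      (((p : ℝ) + 3) * s ^ 2 + 1) / (1 - s ^ 2) * D := by
  obtain ⟨e, he⟩ : ∃ e, 1 / ((p : ℝ) + 1) = e := ⟨_, rfl⟩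
  have ht := S.tail 1 ⟨zero_le_one, le_rfl⟩
  have hveq := S.v_eq
  rw [he] at ht hveq ⊢
  have he0 : 0 < e := he ▸ by positivity
  replace ht := ht (by rw [sub_self]; positivity)
  have h := mul_log_ge hv
  rw [one_pow, sub_self, mul_zero, zero_div, zero_add, add_zero] at ht
  rw [show v - 1 = e * U by linarith] at h
  refine le_of_mul_le_mul_left ?_ he0
  linear_combination h + ht

/-- A tail chord gives `rho U ≤ X`. -/
theorem Box.rho_sound {V0 rho c : ℚ} (hok : b.ok = true) (hr : 0 ≤ rho)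
    (hh : b.rhoOK V0 rho c = true) (hy : 0 < b.y.lo) (E : b.Encl p s)
    (S : Hat p s w v U D) (hD : 0 < D) (hv : (V0 : ℝ) ≤ v) :
    (rho : ℝ) * U ≤ ((p : ℝ) + 1) * s ^ 2 / (1 - s ^ 2) * D := by
  simp only [Box.rhoOK, Bool.and_eq_true, decide_eq_true_eq] at hh
  obtain ⟨⟨⟨⟨hc0, hc1⟩, hV⟩, hA⟩, hB⟩ := hh
  obtain ⟨hy0, -, -, -, -, hz0, hz1⟩ := Box.ok_iff hok
  have hc0' : (0 : ℝ) ≤ c := by exact_mod_cast hc0
  have hc1' : (c : ℝ) ≤ 1 := by exact_mod_cast hc1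
  have hV' : (1 : ℝ) ≤ V0 := by exact_mod_cast hV
  have hr' : (0 : ℝ) ≤ rho := by exact_mod_cast hr
  obtain ⟨lg, hlge⟩ : ∃ lg : ℝ, (b.y.lo : ℝ) * (1 - (c : ℝ) ^ 2) /
      (2 - (1 + (c : ℝ) ^ 2) * b.z.lo) + (((V0 : ℝ) - 1) * (1 + 5 * V0) /
        (V0 * (4 + 2 * V0))) - 3 / 20 * b.e.hi = lg := ⟨_, rfl⟩
  obtain ⟨K1, hK1e⟩ : ∃ K1 : ℝ,
      (rho : ℝ) * ((((b.z.scale 2).add (Iv.pt 1)).mul b.y.inv).hi : ℝ) + rho = K1 := ⟨_, rfl⟩
  have hA' : 0 ≤ lg + 1 - K1 := by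
    have := (Rat.cast_le (K := ℝ)).2 hA
    rw [← hlge, ← hK1e]
    simp only [padeQ] at this
    push_cast at this
    exact this
  have hB' : 0 ≤ (V0 : ℝ) * lg - K1 * (V0 - 1) - (1 - c) * b.kt.hi := by
    have := (Rat.cast_le (K := ℝ)).2 hB
    rw [← hlge, ← hK1e]
    simp only [padeQ] at this
    push_cast at this
    exact this
  obtain ⟨e, he⟩ : ∃ e, 1 / ((p : ℝ) + 1) = e := ⟨_, rfl⟩
  have ht := S.tail (c : ℝ) ⟨hc0', hc1'⟩
  have he1 := E.e.2
  have hveq := S.v_eq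
  rw [he] at ht he1 hveq
  have he0 : 0 < e := he ▸ by positivity
  replace ht := ht (by nlinarith)
  have hv1 : 1 ≤ v := hV'.trans hv
  have hv0 := S.v_pos
  have hs := S.s_mem
  have hz : 0 < 1 - s ^ 2 := by nlinarith [hs.1, hs.2]
  have hzz := E.z
  have hz0' : (0 : ℝ) ≤ b.z.lo := by exact_mod_cast hz0
  have hz1' : (b.z.hi : ℝ) ≤ 1 / 2 := by simpa using (Rat.cast_le (K := ℝ)).2 hz1
  have hc2' : (c : ℝ) ^ 2 ≤ 1 := pow_le_one₀ hc0' hc1'
  have hden : 0 < 2 - (1 + (c : ℝ) ^ 2) * s ^ 2 := by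
    nlinarith [hzz.2, sq_nonneg s, mul_le_mul_of_nonneg_right hc2' (sq_nonneg s)]
  have hL : (b.y.lo : ℝ) * (1 - (c : ℝ) ^ 2) / (2 - (1 + (c : ℝ) ^ 2) * b.z.lo) ≤
      ((p : ℝ) + 1) * s ^ 2 * (1 - (c : ℝ) ^ 2) / (2 - (1 + (c : ℝ) ^ 2) * s ^ 2) := by
    refine div_le_div₀ (mul_nonneg (by positivity) (by linarith))
      (mul_le_mul_of_nonneg_right E.y.1 (by linarith)) hden ?_
    linarith [mul_le_mul_of_nonneg_left hzz.1 (show 0 ≤ 1 + (c : ℝ) ^ 2 by positivity)]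
  have hlog := pade_le_log (show (0 : ℝ) < V0 by linarith)
  have hew : e * w ≤ 3 / 20 * (b.e.hi : ℝ) := by nlinarith [S.w_le, S.w_nonneg]
  have hconv : (V0 : ℝ) * Real.log V0 + (Real.log V0 + 1) * (v - V0) ≤ v * Real.log v := by
    have h := Real.one_sub_inv_le_log_of_pos (show 0 < v / V0 by positivity)
    rw [Real.log_div hv0.ne' (by positivity), inv_div] at h
    have := mul_le_mul_of_nonneg_left h hv0.le
    rw [mul_sub, mul_one, mul_div_cancel₀ _ hv0.ne'] at this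
    linarith
  obtain ⟨Q, hQ⟩ : ∃ Q, (2 * s ^ 2 + 1) / (((p : ℝ) + 1) * s ^ 2) + 1 = Q := ⟨_, rfl⟩
  have hy' : 0 < ((p : ℝ) + 1) * s ^ 2 := by
    have : (0 : ℝ) < b.y.lo := by exact_mod_cast hy
    linarith [E.y.1]
  have hQb : (rho : ℝ) * Q ≤ K1 := by
    have h := (((hzz.scale 2).add (Iv.has_pt 1)).mul (E.y.inv hy)).2
    push_cast at h
    rw [← hK1e, ← hQ, mul_add, mul_one]
    refine add_le_add (mul_le_mul_of_nonneg_left ?_ hr') le_rfl
    rwa [div_eq_mul_one_div]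
  have eK : (((p : ℝ) + 3) * s ^ 2 + 1) / (1 - s ^ 2) =
      ((p : ℝ) + 1) * s ^ 2 / (1 - s ^ 2) * Q := by
    rw [← hQ]
    have hs0 := hs.1.ne'
    have hz' := hz.ne'
    have hm : ((p : ℝ) + 1) ≠ 0 := by positivity
    field_simp
    ring
  have hQ0 : 0 < Q := by rw [← hQ]; positivity
  have hkt := E.kt.2
  have hvl : v * lg ≤ v * (((p : ℝ) + 1) * s ^ 2 * (1 - (c : ℝ) ^ 2) /
      (2 - (1 + (c : ℝ) ^ 2) * s ^ 2) + Real.log v - e * w) +
        v * ((((V0 : ℝ) - 1) * (1 + 5 * V0) / (V0 * (4 + 2 * V0))) - Real.log v) := by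
    rw [← mul_add]
    exact mul_le_mul_of_nonneg_left (by linarith) hv0.le
  have hk2 : K1 * (v - 1) ≤ e * D * ((((p : ℝ) + 3) * s ^ 2 + 1) / (1 - s ^ 2)) := by
    have h1 := mul_nonneg hA' (sub_nonneg.2 hv)
    have h2 := mul_le_mul_of_nonneg_left hkt (sub_nonneg.2 hc1')
    have h3 : (v : ℝ) * ((((V0 : ℝ) - 1) * (1 + 5 * V0) / (V0 * (4 + 2 * V0)))) +
        (v - V0) ≤ v * Real.log v := by
      have := mul_le_mul_of_nonneg_left hlog hv0.le
      linarith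
    linarith
  refine le_of_mul_le_mul_left ?_ (mul_pos he0 hQ0)
  rw [eK] at hk2
  rw [show v - 1 = e * U by linarith] at hk2
  have := mul_le_mul_of_nonneg_right hQb (show 0 ≤ e * U by linarith)
  linarith

end Vale.Agent.P237.Petty.Cor.Tiny
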