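import Vale.Agent.P237.Petty.Cor.Tiny.FarBounds
import Vale.Agent.P237.Petty.Cor.Tiny.SoundBase

/-!
# P237: the tiny cell beyond `y = 45`

There the switch and the second multiplier are constant and the remainder is nonpositive. With
`Z = y D / (1 - s ^ 2)` the cell times the circle is a linear part in `U` and `Z` with slopes
`farM` and `farT + farM`, and a quadratic part.
-/

namespace Vale.Agent.P237.Petty.Cor.Tiny

open Set

variable {p : ℕ} {s w v U D : ℝ}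

/-- The cell times the circle from below, with named bounds. -/
theorem farCell_ge (hp : 198 ≤ p) (S : Hat p s w v U D) (hy : 45 ≤ ((p : ℝ) + 1) * s ^ 2) :
    w * (farM p s * (20000 / 955) * (994 / 1000)) - farM p s * U +
        (farT p s + farM p s) * (((p : ℝ) + 1) * s ^ 2 / (1 - s ^ 2) * D) -
        farA (s ^ 2) (arc s) v * (U ^ 2 / v) +
        arc s * (43 / 1000 * ((((p : ℝ) + 1) * s ^ 2) ^ 2 / (1 - s ^ 2))) * D ^ 2 -
        2 * (arc s * quadC p s) * (U * D) ≤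
      arc s * cellT p s w v U D := by
  have hs := S.s_mem
  have hz : 0 < 1 - s ^ 2 := by nlinarith [hs.1, hs.2]
  have hcp : 0 < arc s := arc_pos ⟨by linarith [hs.1], hs.2⟩
  obtain ⟨h1, h2, h3, h4⟩ := switch_const (show 18 ≤ ((p : ℝ) + 1) * s ^ 2 by linarith)
  obtain ⟨hqb, -, -, hA⟩ := far_quads hp hs hy
  have hr := mul_nonpos_of_nonneg_of_nonpos (mul_nonneg hcp.le (sq_nonneg w)) (remT_nonpos hy)
  have hA' := mul_le_mul_of_nonneg_right (hA v S.v_pos) (div_nonneg (sq_nonneg U) S.v_pos.le)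
  have hB' := mul_le_mul_of_nonneg_right (mul_le_mul_of_nonneg_left hqb hcp.le) (sq_nonneg D)
  have e : arc s * (linUh p s w * U + linDh p s w * D) = -(farM p s) * U +
      (farT p s + farM p s) * (((p : ℝ) + 1) * s ^ 2 / (1 - s ^ 2) * D) := by
    have hs0 := hs.1.ne'
    have hm : ((p : ℝ) + 1) ≠ 0 := by positivity
    have hz' := hz.ne'
    rw [linUh, linDh, farT, farM, h1, h2, h3, h4]
    field_simp
    ring
  rw [cellT, farM] at *
  linarith

/-- The coefficient against nonpositive `U`. -/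
theorem far_low_U {z c Y v e U M L : ℝ} (he : 0 < e) (hv : 0 < v) (hv1 : v ≤ 1)
    (hveq : v = 1 + e * U) (hz : 0 ≤ z) (hc : 0 ≤ c) (hzc : z + c ^ 2 = 1) (hY1 : 45 * z ≤ Y)
    (hY2 : 199 * z ^ 2 ≤ Y) (hvm : z ≤ 1 / 3 ∨ 1 / 4 ≤ v) (hL : 169 / 10000 * Y + L ≤ e * M)
    (_hL0 : 0 ≤ L) :
    L / e * -U ≤ -(M * U) - farA z c v * (U ^ 2 / v) := by
  have hU : U ≤ 0 := by nlinarith
  have hY : 0 ≤ Y := le_trans (by positivity) hY1
  have h1 : (1 - v) * farA z c v ≤ 169 / 10000 * Y * v := by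
    rcases le_or_gt v (1 / 4) with h | h
    · rcases hvm with hm | hm
      · have := farA_small hz hc hzc hm hv h
        have h2 := mul_nonneg (sub_nonneg.2 hv1) (neg_nonneg.2 this)
        have h3 : 0 ≤ 169 / 10000 * Y * v := by positivity
        linarith
      · exact far_below hz hc hzc hY1 hY2 hm hv1
    · exact far_below hz hc hzc hY1 hY2 h.le hv1
  have h2 := mul_le_mul_of_nonneg_right h1 (show 0 ≤ -U / (e * v) from
    div_nonneg (by linarith) (by positivity))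
  have h3 := mul_le_mul_of_nonneg_right hL (show 0 ≤ -U / e from div_nonneg (by linarith) he.le)
  have e1 : (1 - v) * farA z c v * (-U / (e * v)) = farA z c v * (U ^ 2 / v) := by
    rw [hveq]; field_simp; ring
  have e2 : 169 / 10000 * Y * v * (-U / (e * v)) = 169 / 10000 * Y * (-U / e) := by field_simp
  have e3 : e * M * (-U / e) = -(M * U) := by field_simp
  have e4 : L * (-U / e) = L / e * -U := by ring
  rw [e1, e2] at h2
  rw [add_mul, e3, e4] at h3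
  linarith

/-- The chord at three quarters, near zero. -/
theorem chord_near {y z v : ℝ} (hy : 45 ≤ y) (hz : 0 ≤ z) (hz1 : z ≤ 1 / 4) (hv : 7 / 5 ≤ v) :
    64 / 15 * (v - 1) ≤ v * (y * (1 - (3 / 4) ^ 2) / (2 - (1 + (3 / 4) ^ 2) * z) - 1 / 1000) +
      (v - 1) - (1 - 3 / 4) * ((y + 2 * z + 1) / (1 - z)) := by
  have hd : 0 < 2 - (1 + (3 / 4 : ℝ) ^ 2) * z := by linarith
  have hc : 0 < 1 - z := by linarith
  have h0 : 10 ≤ y * (1 - (3 / 4 : ℝ) ^ 2) / (2 - (1 + (3 / 4 : ℝ) ^ 2) * z) + 1 := by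
    rw [← sub_le_iff_le_add, le_div_iff₀ hd]; nlinarith
  have h1 : (1 - 3 / 4) * ((y + 2 * z + 1) / (1 - z)) + 131 / 100 ≤
      7 / 5 * (y * (1 - (3 / 4 : ℝ) ^ 2) / (2 - (1 + (3 / 4 : ℝ) ^ 2) * z)) := by
    rw [mul_div_assoc', mul_div_assoc', div_add' _ _ _ hc.ne', div_le_div_iff₀ hc hd]
    nlinarith [mul_nonneg (sub_nonneg.2 hy) (show 0 ≤ 1 / 4 - z by linarith), mul_nonneg hz
      (show 0 ≤ 1 / 4 - z by linarith)]
  nlinarith [mul_le_mul_of_nonneg_left h0 (sub_nonneg.2 hv)]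

/-- The chord at zero, away from zero. -/
theorem chord_far {y z c v : ℝ} (hy : 45 ≤ y) (hz : 1 / 4 ≤ z) (hzc : z + c ^ 2 = 1) (hc : 0 < c)
    (hv : 11 / 5 ≤ c ^ 2 * v) :
    32 / 10 * (v - 1) ≤
      v * (y * (1 - (0 : ℝ) ^ 2) / (2 - (1 + (0 : ℝ) ^ 2) * z) - 1 / 1000) + (v - 1) -
        (1 - 0) * ((y + 2 * z + 1) / (1 - z)) := by
  have hc2 : 0 < c ^ 2 := by positivity
  have h1 : (y + 2 * z + 1) / (1 - z) ≤ (y + 3) * v * (5 / 11) := by
    rw [show 1 - z = c ^ 2 by linarith, div_le_iff₀ hc2]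
    nlinarith [mul_le_mul_of_nonneg_left hv (show 0 ≤ y + 3 by linarith)]
  have h2 : 4 / 7 * y ≤ y * (1 - (0 : ℝ) ^ 2) / (2 - (1 + (0 : ℝ) ^ 2) * z) := by
    rw [le_div_iff₀ (by linarith)]
    nlinarith
  have hv1 : 1 ≤ v := by nlinarith
  nlinarith [mul_le_mul_of_nonneg_left h2 (show 0 ≤ v by linarith),
    mul_le_mul_of_nonneg_left hy (show 0 ≤ v by linarith)]

/-- A chord gives a multiple of `U` below `Z`. -/
theorem chord_rho {L lnv v e w K Z U ρ kt d : ℝ} (he : 0 < e) (hv : 1 ≤ v) (hveq : v = 1 + e * U)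
    (hlog : v - 1 ≤ v * lnv) (hew : e * w ≤ 1 / 1000) (hK1 : K ≤ 16 / 15) (hK0 : 0 < K)
    (hr : 0 ≤ ρ)
    (ht : v * (L + lnv - e * w) ≤ K * (e * Z) + d * kt)
    (h : 16 / 15 * ρ * (v - 1) ≤ v * (L - 1 / 1000) + (v - 1) - d * kt) : ρ * U ≤ Z := by
  have h1 := mul_le_mul_of_nonneg_left hew (show 0 ≤ v by linarith)
  have h2 := mul_le_mul_of_nonneg_right hK1 (mul_nonneg hr (show 0 ≤ v - 1 by linarith))
  rw [show v - 1 = e * U by linarith] at h h2 hlog
  refine le_of_mul_le_mul_left ?_ (mul_pos he hK0)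
  linarith

/-- The quadratic part along `Z ≥ rho U`. -/
theorem far_quad_ray {c k y qc Z U D ρ : ℝ} (hc : 0 ≤ c) (hy : 0 < y) (hk : k = c ^ 2 / y)
    (hD : D = k * Z) (hqc : qc ≤ 586 / 10000 * y) (hU : 0 ≤ U) (hZ : ρ * U ≤ Z)
    (hr : 2726 / 1000 ≤ ρ) :
    c ^ 3 * ((43 / 1000 * ρ - 1172 / 10000) * ρ) * U ^ 2 ≤
      c * (43 / 1000 * (y ^ 2 / c ^ 2)) * D ^ 2 - 2 * (c * qc) * (U * D) := by
  rcases hc.eq_or_lt with h | h
  · simp [← h]
  have hZ0 : 0 ≤ Z := le_trans (mul_nonneg (by linarith) hU) hZ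
  have e : c * (43 / 1000 * (y ^ 2 / c ^ 2)) * D ^ 2 - 2 * (c * qc) * (U * D) =
      c ^ 3 * (43 / 1000 * Z ^ 2) - 2 * (qc / y) * c ^ 3 * (U * Z) := by
    rw [hD, hk]; field_simp
  rw [e]
  have hq : qc / y ≤ 586 / 10000 := by rw [div_le_iff₀ hy]; linarith
  have h3 := pow_nonneg hc 3
  have h1 := mul_le_mul_of_nonneg_right hq (mul_nonneg h3 (mul_nonneg hU hZ0))
  have h2 : 0 ≤ c ^ 3 * ((Z - ρ * U) * (43 / 1000 * (Z + ρ * U) - 1172 / 10000 * U)) :=
    mul_nonneg h3 (mul_nonneg (by linarith) (by nlinarith [mul_le_mul_of_nonneg_right hr hU]))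
  linarith

/-- The quadratic part in general. -/
theorem far_quad_low {c k y qc Z U D : ℝ} (hc : 0 ≤ c) (hy : 0 < y) (hk : k = c ^ 2 / y)
    (hD : D = k * Z) (hqc : qc ≤ 586 / 10000 * y) (hqc0 : 0 ≤ qc) :
    -(8 / 100 * c ^ 3 * U ^ 2) ≤
      c * (43 / 1000 * (y ^ 2 / c ^ 2)) * D ^ 2 - 2 * (c * qc) * (U * D) := by
  rcases hc.eq_or_lt with h | h
  · simp [← h]
  have e : c * (43 / 1000 * (y ^ 2 / c ^ 2)) * D ^ 2 - 2 * (c * qc) * (U * D) =
      c ^ 3 * (43 / 1000 * Z ^ 2) - 2 * (qc / y) * c ^ 3 * (U * Z) := by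
    rw [hD, hk]; field_simp
  rw [e]
  obtain ⟨r, hr⟩ : ∃ r, qc / y = r := ⟨_, rfl⟩
  rw [hr]
  have hr1 : r ≤ 586 / 10000 := by rw [← hr, div_le_iff₀ hy]; linarith
  have hr0 : 0 ≤ r := hr ▸ div_nonneg hqc0 hy.le
  have h3 := pow_nonneg hc 3
  have h4 := mul_le_mul hr1 hr1 hr0 (by norm_num)
  nlinarith [mul_nonneg h3 (sq_nonneg (43 / 1000 * Z - r * U)),
    mul_le_mul_of_nonneg_left h4 (mul_nonneg h3 (sq_nonneg U))]

/-- The cell for nonpositive `D` and `U`. -/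
theorem far_neg_low {w M T U D Z q Q A : ℝ} (hw : 0 ≤ w) (hU : U ≤ 0) (hT : 0 ≤ T + M)
    (hZw : -w ≤ Z) (hA : 18 / 1000 * -U ≤ -(M * U) - A)
    (hqD : q * -D ≤ 586 / 10000 * (3 / 20)) (hQ : 0 ≤ Q)
    (hWT : T + M ≤ M * (20000 / 955) * (994 / 1000)) :
    0 ≤ w * (M * (20000 / 955) * (994 / 1000)) - M * U + (T + M) * Z - A + Q - 2 * q * (U * D) := by
  have h1 := mul_le_mul_of_nonneg_left hZw hT
  have h2 := mul_le_mul_of_nonneg_left hWT hw
  have h3 := mul_le_mul_of_nonneg_right hqD (neg_nonneg.2 hU)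
  linarith

/-- The cell for nonpositive `D` and nonnegative `U`. -/
theorem far_neg_high {w M T U D Z q Q A : ℝ} (hw : 0 ≤ w) (hU : 0 ≤ U) (hD : D ≤ 0) (hM : 0 ≤ M)
    (hT : 0 ≤ T + M) (hq : 0 ≤ q) (hUb : U ≤ w * (1002 / 1000)) (hZw : -w ≤ Z)
    (hA : A ≤ w * (19 / 100)) (hQ : 0 ≤ Q)
    (hWT : T + M + M * (1002 / 1000) + 19 / 100 ≤ M * (20000 / 955) * (994 / 1000)) :
    0 ≤ w * (M * (20000 / 955) * (994 / 1000)) - M * U + (T + M) * Z - A + Q - 2 * q * (U * D) := by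
  have h1 := mul_le_mul_of_nonneg_left hZw hT
  have h2 := mul_le_mul_of_nonneg_left hWT hw
  have h3 := mul_le_mul_of_nonneg_left hUb hM
  have h4 := mul_nonneg hq (mul_nonneg hU (neg_nonneg.2 hD))
  linarith

/-- The cell near zero along `Z ≥ 4 U`. -/
theorem far_near {w M T U Z z c v R : ℝ} (hW : 0 ≤ w * (M * (20000 / 955) * (994 / 1000)))
    (hM : 0 ≤ M) (hT : 0 ≤ T) (hU : 0 ≤ U) (hρ : 4 * U ≤ Z) (hc : 0 ≤ c) (hzc : z + c ^ 2 = 1)
    (hz : 0 ≤ z) (hz4 : z ≤ 1 / 4) (hv : 7 / 5 ≤ v)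
    (hR : c ^ 3 * ((43 / 1000 * 4 - 1172 / 10000) * 4) * U ^ 2 ≤ R) :
    0 ≤ w * (M * (20000 / 955) * (994 / 1000)) - M * U + (T + M) * Z - farA z c v * (U ^ 2 / v) +
      R := by
  have hc3 : (866 / 1000 : ℝ) ^ 3 ≤ c ^ 3 :=
    cube_ge hc (by norm_num) hzc (by norm_num; linarith)
  have hc1 : c ≤ 1 := (pow_le_one_iff_of_nonneg hc two_ne_zero).1 (by linarith)
  have hv0 : 0 < v := by linarith
  have hA : farA z c v ≤ 2192 / 10000 * c ^ 3 * v := by
    unfold farA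
    have h1 : (2 * v + 1) / (2 * (v + 2)) * (191 / 200) ≤
        686 / 1000 * (866 / 1000 : ℝ) ^ 3 - 145 / 1000 * (1 / 4) +
          2192 / 10000 * (866 / 1000 : ℝ) ^ 3 * v := by
      rw [div_mul_eq_mul_div, div_le_iff₀ (by linarith)]
      nlinarith [sq_nonneg (v - 9 / 5)]
    nlinarith [mul_le_mul_of_nonneg_right hc3 hv0.le, mul_le_mul hz4 hc1 hc
      (by norm_num : (0 : ℝ) ≤ 1 / 4)]
  have hA2 : farA z c v * (U ^ 2 / v) ≤ 2192 / 10000 * c ^ 3 * U ^ 2 := by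
    refine (mul_le_mul_of_nonneg_right hA (div_nonneg (sq_nonneg U) hv0.le)).trans (le_of_eq ?_)
    field_simp
  have h1 := mul_le_mul_of_nonneg_left hρ (add_nonneg hT hM)
  have h2 := mul_nonneg hT hU
  have h3 := mul_nonneg hM hU
  norm_num at hR
  linarith

/-- The cell away from zero along `Z ≥ 3 U`. -/
theorem far_away {w M T U Z z c v R e : ℝ} (hW : 0 ≤ w * (M * (20000 / 955) * (994 / 1000)))
    (hM : 0 ≤ M) (hT : 0 ≤ T) (hU : 0 ≤ U) (hρ : 3 * U ≤ Z) (hc : 0 ≤ c) (hzc : z + c ^ 2 = 1)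
    (hv : 1 < v) (he : 0 < e) (hveq : v = 1 + e * U)
    (hTM : 1011 / 1000 ≤ e * (3 * T + 2 * M)) (hR : 0 ≤ R) :
    0 ≤ w * (M * (20000 / 955) * (994 / 1000)) - M * U + (T + M) * Z - farA z c v * (U ^ 2 / v) +
      R := by
  have hv0 : 0 < v := by linarith
  have hA : farA z c v ≤ 1011 / 1000 := by
    unfold farA
    have h1 : (2 * v + 1) / (2 * (v + 2)) ≤ 1 := by rw [div_le_one (by linarith)]; linarith
    have hz : z = 1 - c ^ 2 := by linarith
    rw [hz]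
    nlinarith [pow_nonneg hc 3, mul_nonneg (sq_nonneg (c - 577 / 1000))
      (show (0 : ℝ) ≤ c + 1154 / 1000 by linarith)]
  have hU2 : U ^ 2 / v ≤ U / e := by
    rw [div_le_div_iff₀ hv0 he, hveq]
    nlinarith
  have h1 : 1011 / 1000 / e ≤ 3 * T + 2 * M := by rw [div_le_iff₀ he]; linarith
  have h5 := mul_le_mul_of_nonneg_right h1 hU
  have h6 := mul_le_mul_of_nonneg_right hA (div_nonneg (sq_nonneg U) hv0.le)
  have h7 := mul_le_mul_of_nonneg_left hU2 (by norm_num : (0 : ℝ) ≤ 1011 / 1000)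
  have h8 := mul_le_mul_of_nonneg_left hρ (add_nonneg hT hM)
  have e9 : 1011 / 1000 / e * U = 1011 / 1000 * (U / e) := by ring
  linarith

/-- The slopes over `K` in the bounded range. -/
theorem far_slopes {y z w M T e K : ℝ} (hy : 45 ≤ y) (hz : z ≤ 1) (hK0 : 0 < K)
    (hKy : K ≤ 1 + 3 / y) (hK1 : 1 ≤ K) (hye : e * y = z) (he : 0 ≤ e) (hw : 0 ≤ w)
    (hw1 : w ≤ 3 / 20) (hew : e * w ≤ 1 / 1000) (hM0 : 1694 / 100000 * y ^ 2 ≤ M)
    (hM1 : M ≤ 479 / 10000 * y ^ 2) (hT0 : 868 / 1000 * y ≤ T) (hT1 : T ≤ 146 / 100 * y) :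
    65 / 100 * z ≤ e * ((T + M) / K * (1 - e * w) - M) ∧ 140 / 100 * z ≤ e * ((T + M) / K) ∧
      (T + M) / K ≤ M * (20000 / 955) * (994 / 1000) := by
  have hy0 : 0 < y := by linarith
  have hM : 0 ≤ M := le_trans (by positivity) hM0
  have hT : 0 ≤ T := le_trans (by positivity) hT0
  have hyy : 45 * y ≤ y ^ 2 := by nlinarith
  have h3y : 3 / y ≤ 1 / 15 := by rw [div_le_iff₀ hy0]; linarith
  have hs1 : (T + M) * (1 - 3 / y) ≤ (T + M) / K := by
    rw [le_div_iff₀ hK0, mul_assoc]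
    refine mul_le_of_le_one_right (add_nonneg hT hM) ?_
    refine (mul_le_mul_of_nonneg_left hKy (by linarith)).trans ?_
    nlinarith [sq_nonneg (3 / y)]
  have h9 : 65 / 100 * y ≤ (T + M) / K * (1 - e * w) - M := by
    have h1 := mul_le_mul_of_nonneg_right hs1 (show 0 ≤ 1 - e * w by linarith)
    have h2 : 868 / 1000 * y * (14 / 15) * (999 / 1000) ≤ T * (1 - 3 / y) * (1 - e * w) :=
      mul_le_mul (mul_le_mul hT0 (by linarith) (by norm_num) hT) (by linarith) (by norm_num)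
        (mul_nonneg hT (by linarith))
    have h3 : M * (3 / y) ≤ 479 / 10000 * 3 * y := by
      rw [← mul_div_assoc, div_le_iff₀ hy0]
      linarith
    have h4 : M * (e * w) ≤ 479 / 10000 * (15 / 100) * y := by
      have h5 : M * (e * w) ≤ 479 / 10000 * y ^ 2 * (e * w) :=
        mul_le_mul_of_nonneg_right hM1 (mul_nonneg he hw)
      have h6 : z * w ≤ 15 / 100 := (mul_le_of_le_one_left hw hz).trans (by linarith)
      have h7 := mul_le_mul_of_nonneg_left h6 (show 0 ≤ 479 / 10000 * y by positivity)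
      rw [← hye] at h7
      linarith
    have h8 : 0 ≤ M * (3 / y) * (e * w) := by positivity
    linarith
  have h10 : 140 / 100 * y ≤ (T + M) / K := by
    have h2 : 14 / 15 * (T + M) ≤ (T + M) * (1 - 3 / y) := by
      nlinarith [mul_le_mul_of_nonneg_left h3y (add_nonneg hT hM)]
    linarith
  refine ⟨?_, ?_, (div_le_self (add_nonneg hT hM) hK1).trans (by linarith)⟩
  · rw [← hye]; linarith [mul_le_mul_of_nonneg_left h9 he]
  · rw [← hye]; linarith [mul_le_mul_of_nonneg_left h10 he]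

/-- The cell in the bounded range. -/
theorem far_mid {w M T U Z z c v R e G : ℝ} (hv : 1 < v) (he : 0 < e) (hveq : v = 1 + e * U)
    (hu : 65 / 100 * z ≤ e * (G * (1 - e * w) - M)) (hphi : 140 / 100 * z ≤ e * G)
    (hwt : w * G ≤ w * (M * (20000 / 955) * (994 / 1000)))
    (hlin : G * (v - 1 + (v - 1) ^ 2 / (v + 1)) - G * (e * w * v) ≤ e * ((T + M) * Z))
    (hfar : farA z c v * ((v - 1) / v) + 8 / 100 * (c ^ 3 * (v - 1)) ≤
      z * (65 / 100 + 140 / 100 * ((v - 1) / (v + 1))))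
    (hR : -(8 / 100 * c ^ 3 * U ^ 2) ≤ R) :
    0 ≤ w * (M * (20000 / 955) * (994 / 1000)) - M * U + (T + M) * Z - farA z c v * (U ^ 2 / v) +
      R := by
  have hU : 0 ≤ U := by
    by_contra hc
    nlinarith [mul_neg_of_pos_of_neg he (not_le.1 hc)]
  have hv1 : 0 ≤ (v - 1) / (v + 1) := div_nonneg (by linarith) (by linarith)
  have k1 := mul_le_mul_of_nonneg_right hu hU
  have k2 := mul_le_mul_of_nonneg_right hphi (mul_nonneg hU hv1)
  have k3 := mul_le_mul_of_nonneg_right hfar hU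
  have e1 : G * (v - 1 + (v - 1) ^ 2 / (v + 1)) - G * (e * w * v) =
      e * (G * (1 - e * w) * U + G * (U * ((v - 1) / (v + 1))) - G * w) := by
    rw [hveq]; field_simp; ring
  rw [e1] at hlin
  have k4 := le_of_mul_le_mul_left hlin he
  have e3 : (farA z c v * ((v - 1) / v) + 8 / 100 * (c ^ 3 * (v - 1))) * U =
      e * (farA z c v * (U ^ 2 / v) + 8 / 100 * c ^ 3 * U ^ 2) := by
    rw [hveq]; field_simp; ring
  rw [e3] at k3
  have k5 : e * (farA z c v * (U ^ 2 / v) + 8 / 100 * c ^ 3 * U ^ 2) ≤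
      e * ((G * (1 - e * w) - M) * U + G * (U * ((v - 1) / (v + 1)))) := by linarith
  have k6 := le_of_mul_le_mul_left k5 he
  linarith

/-- Nonpositive `D` bounds `v` by the value alone. -/
theorem hat_negTop (S : Hat p s w v U D) (hD : D ≤ 0) : v * (1 - 1 / ((p : ℝ) + 1) * w) ≤ 1 := by
  obtain ⟨e, he⟩ : ∃ e, 1 / ((p : ℝ) + 1) = e := ⟨_, rfl⟩
  have ht := S.tail
  have hDg := S.D_gt
  rw [he] at ht hDg ⊢
  have he0 : 0 < e := he ▸ by positivity
  have hv := S.v_pos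
  have hs := S.s_mem
  have hz : 0 < 1 - s ^ 2 := by nlinarith [hs.1, hs.2]
  obtain ⟨K, hK, hK0⟩ : ∃ K, ((((p : ℝ) + 3) * s ^ 2 + 1) / (1 - s ^ 2)) = K ∧ 0 ≤ K :=
    ⟨_, rfl, div_nonneg (by positivity) hz.le⟩
  have key : Real.log v ≤ e * w := by
    by_contra hlt
    push Not at hlt
    obtain ⟨G, hG, hGe⟩ : ∃ G, 0 < G ∧ v * (Real.log v - e * w) = G :=
      ⟨_, mul_pos hv (sub_pos.2 hlt), rfl⟩
    obtain ⟨η, h1, h2, h3⟩ : ∃ η, 0 < η ∧ η ≤ 1 + e * D ∧ η * K < G := by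
      refine ⟨min (1 + e * D) (G / (2 * (K + 1))), lt_min (by linarith) (by positivity),
        min_le_left _ _, ?_⟩
      refine lt_of_le_of_lt (mul_le_mul_of_nonneg_right (min_le_right _ _) hK0) ?_
      rw [div_mul_eq_mul_div, div_lt_iff₀ (by positivity)]
      nlinarith [mul_pos hG (show (0 : ℝ) < K + 2 by linarith)]
    have hc1 : 1 + e * D - η ≤ 1 := by linarith [mul_nonpos_of_nonneg_of_nonpos he0.le hD]
    have h4 := ht (1 + e * D - η) ⟨by linarith, hc1⟩ (by linarith)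
    have hL : 0 ≤ ((p : ℝ) + 1) * s ^ 2 * (1 - (1 + e * D - η) ^ 2) /
        (2 - (1 + (1 + e * D - η) ^ 2) * s ^ 2) := by
      have hc2 : (1 + e * D - η) ^ 2 ≤ 1 := pow_le_one₀ (by linarith) hc1
      exact div_nonneg (mul_nonneg (by positivity) (by linarith))
        (by nlinarith [mul_le_mul_of_nonneg_right hc2 (sq_nonneg s)])
    rw [hK, show e * D + (1 - (1 + e * D - η)) = η by ring] at h4
    nlinarith [mul_nonneg hv.le hL]
  have h1 : v ≤ Real.exp (e * w) := by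
    rw [← Real.log_le_iff_le_exp hv]; exact key
  rcases lt_or_ge (e * w) 1 with hlt | hlt
  · have h2 := h1.trans (Real.exp_bound_div_one_sub_of_interval (mul_nonneg he0.le S.w_nonneg) hlt)
    rwa [le_div_iff₀ (by linarith)] at h2
  · nlinarith

/-- The numbers of the cell beyond `y = 45`: `z` is the square of the abscissa, `c` its half
circle, `Z = y D / (1 - z)`. -/
structure FarData (y z c e w v U D Z M T q : ℝ) : Prop where
  hy : 45 ≤ y
  hz : 0 ≤ z
  hc : 0 < c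
  hzc : z + c ^ 2 = 1
  he : 0 < e
  hel : e ≤ 1 / 199
  hye : e * y = z
  hY2 : 199 * z ^ 2 ≤ y * z
  hw : 0 ≤ w
  hw1 : w ≤ 3 / 20
  hv : 0 < v
  hveq : v = 1 + e * U
  hZ : y / (1 - z) * D = Z
  hM0 : 1694 / 100000 * y ^ 2 ≤ M
  hM1 : M ≤ 479 / 10000 * y ^ 2
  hT0 : 868 / 1000 * y ≤ T
  hT1 : T ≤ 146 / 100 * y
  hq0 : 0 ≤ q
  hq1 : q ≤ 586 / 10000 * y

/-- The cell times the circle, as a target. -/
noncomputable def farVal (y z c w v U D Z M T q : ℝ) : ℝ :=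
  w * (M * (20000 / 955) * (994 / 1000)) - M * U + (T + M) * Z - farA z c v * (U ^ 2 / v) +
    c * (43 / 1000 * (y ^ 2 / (1 - z))) * D ^ 2 - 2 * (c * q) * (U * D)

variable {y z c e Z M T q : ℝ}

theorem FarData.c_le (F : FarData y z c e w v U D Z M T q) : c ≤ 1 :=
  (pow_le_one_iff_of_nonneg F.hc.le two_ne_zero).1 (by linarith [F.hzc, F.hz])

theorem FarData.y2 (F : FarData y z c e w v U D Z M T q) : 45 * y ≤ y ^ 2 := by
  nlinarith [F.hy]

theorem FarData.ew (F : FarData y z c e w v U D Z M T q) : e * w ≤ 1 / 1000 :=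
  (mul_le_mul F.hel F.hw1 F.hw (by norm_num)).trans (by norm_num)

theorem FarData.heM (F : FarData y z c e w v U D Z M T q) :
    169 / 10000 * (y * z) + e * (18 / 1000) ≤ e * M := by
  have he := F.he
  have h1 := mul_le_mul_of_nonneg_left F.hM0 he.le
  rw [show e * (1694 / 100000 * y ^ 2) = 1694 / 100000 * (y * (e * y)) by ring, F.hye] at h1
  have h3 : e * (18 / 1000) ≤ 4 / 100000 * (y * z) := by
    rw [← F.hye, show 4 / 100000 * (y * (e * y)) = e * (4 / 100000 * y ^ 2) by ring]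
    refine mul_le_mul_of_nonneg_left ?_ he.le
    linarith [F.y2, F.hy]
  linarith

/-- The target for nonpositive `D`. -/
theorem far_case_neg (F : FarData y z c e w v U D Z M T q) (hD : D ≤ 0)
    (hyD : -(y * D) ≤ w * (1 - z)) (hexp : v * (1 - e * w) ≤ 1)
    (hvm : v ≤ 1 → z ≤ 1 / 3 ∨ 1 / 4 ≤ v) : 0 ≤ farVal y z c w v U D Z M T q := by
  have hy := F.hy
  have hzlt : 0 < 1 - z := by
    have := pow_pos F.hc 2
    linarith [F.hzc]
  have hy0 : 0 < y := by linarith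
  have hM : 0 ≤ M := le_trans (by positivity) F.hM0
  have hT : 0 ≤ T := le_trans (by positivity) F.hT0
  have hy2 := F.y2
  have hZw : -w ≤ Z := by
    rw [← F.hZ, div_mul_eq_mul_div, le_div_iff₀ hzlt]
    linarith
  have hQ0 : 0 ≤ c * (43 / 1000 * (y ^ 2 / (1 - z))) * D ^ 2 := by
    have := F.hc
    positivity
  have hM0 := F.hM0
  have hT1 := F.hT1
  rcases le_or_gt v 1 with hv | hv
  · have hU : U ≤ 0 := by
      by_contra hc
      linarith [mul_pos F.he (not_le.1 hc), F.hveq]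
    have h1 := far_low_U (M := M) (L := e * (18 / 1000)) F.he F.hv hv F.hveq F.hz F.hc.le F.hzc
      (mul_le_mul_of_nonneg_right hy F.hz) F.hY2 (hvm hv) F.heM
      (mul_nonneg F.he.le (by norm_num))
    rw [mul_div_cancel_left₀ _ F.he.ne'] at h1
    refine far_neg_low F.hw hU (add_nonneg hT hM) hZw h1 ?_ hQ0 (by linarith)
    have h4 : y * -D ≤ 3 / 20 := by
      have := mul_le_mul F.hw1 (show 1 - z ≤ 1 by linarith [F.hz]) hzlt.le (by norm_num)
      linarith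
    calc c * q * -D ≤ 1 * (586 / 10000 * y) * -D :=
          mul_le_mul_of_nonneg_right (mul_le_mul F.c_le F.hq1 F.hq0 zero_le_one) (neg_nonneg.2 hD)
      _ = 586 / 10000 * (y * -D) := by ring
      _ ≤ 586 / 10000 * (3 / 20) := mul_le_mul_of_nonneg_left h4 (by norm_num)
  · have hU : 0 ≤ U := by
      by_contra hc
      linarith [mul_neg_of_pos_of_neg F.he (not_le.1 hc), F.hveq]
    have hew := F.ew
    have hvb : v ≤ 1002 / 1000 := by nlinarith
    have hUb : U ≤ w * (1002 / 1000) := by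
      refine le_of_mul_le_mul_left ?_ F.he
      nlinarith [mul_le_mul_of_nonneg_left hvb (mul_nonneg F.he.le F.hw), F.hveq]
    refine far_neg_high F.hw hU hD hM (add_nonneg hT hM) (mul_nonneg F.hc.le F.hq0) hUb hZw ?_
      hQ0 (by linarith)
    have hA : farA z c v ≤ 12 / 10 := by
      unfold farA
      have h1 : (2 * v + 1) / (2 * (v + 2)) ≤ 1 := by rw [div_le_one (by linarith)]; linarith
      nlinarith [pow_nonneg F.hc.le 3, mul_le_mul_of_nonneg_left F.c_le F.hz, F.hzc,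
        sq_nonneg c]
    refine (mul_le_mul_of_nonneg_right hA (div_nonneg (sq_nonneg U) F.hv.le)).trans ?_
    have h2 := (div_le_self (sq_nonneg U) hv.le).trans (pow_le_pow_left₀ hU hUb 2)
    nlinarith [mul_le_mul_of_nonneg_left F.hw1 F.hw]

/-- The target for positive `D` and `v ≤ 1`. -/
theorem far_case_low (F : FarData y z c e w v U D Z M T q) (hD : 0 < D) (hv : v ≤ 1)
    (hvm : z ≤ 1 / 3 ∨ 1 / 4 ≤ v) : 0 ≤ farVal y z c w v U D Z M T q := by
  have hy := F.hy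
  have hzlt : 0 < 1 - z := by
    have := pow_pos F.hc 2
    linarith [F.hzc]
  have hy0 : 0 < y := by linarith
  have hM : 0 ≤ M := le_trans (by positivity) F.hM0
  have hT : 0 ≤ T := le_trans (by positivity) F.hT0
  have hU : U ≤ 0 := by
    by_contra hc
    linarith [mul_pos F.he (not_le.1 hc), F.hveq]
  have h1 := far_low_U (M := M) (L := 0) F.he F.hv hv F.hveq F.hz F.hc.le F.hzc
    (mul_le_mul_of_nonneg_right hy F.hz) F.hY2 hvm
    (by linarith [F.heM, mul_nonneg F.he.le (show (0 : ℝ) ≤ 18 / 1000 by norm_num)]) le_rfl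
  rw [zero_div, zero_mul] at h1
  have hZ0 : 0 ≤ Z := F.hZ ▸ by positivity
  have hc := F.hc
  have hQ0 : 0 ≤ c * (43 / 1000 * (y ^ 2 / (1 - z))) * D ^ 2 := by positivity
  have hW0 : 0 ≤ w * (M * (20000 / 955) * (994 / 1000)) := mul_nonneg F.hw (by linarith)
  have h2 := mul_nonneg (mul_nonneg hc.le F.hq0) (mul_nonneg (neg_nonneg.2 hU) hD.le)
  have h3 := mul_nonneg (add_nonneg hT hM) hZ0
  rw [farVal]
  linarith

/-- The target for positive `D` and `v > 1`. -/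
theorem far_case_high (F : FarData y z c e w v U D Z M T q) (hv : 1 < v) (hD : 0 < D) {K : ℝ}
    (hK : (2 * z + 1) / y + 1 = K)
    (ht : ∀ d ∈ Icc (0 : ℝ) 1,
      v * (y * (1 - d ^ 2) / (2 - (1 + d ^ 2) * z) + Real.log v - e * w) ≤
        K * (e * Z) + (1 - d) * ((y + 2 * z + 1) / (1 - z)))
    (hlast : U + e * (U ^ 2 / (v + 1)) - w * v ≤ K * Z) :
    0 ≤ farVal y z c w v U D Z M T q := by
  have hy := F.hy
  have hzlt : 0 < 1 - z := by
    have := pow_pos F.hc 2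
    linarith [F.hzc]
  have hy0 : 0 < y := by linarith
  have hM : 0 ≤ M := le_trans (by positivity) F.hM0
  have hT : 0 ≤ T := le_trans (by positivity) F.hT0
  have hU : 0 ≤ U := by
    by_contra hc
    linarith [mul_neg_of_pos_of_neg F.he (not_le.1 hc), F.hveq]
  have hW0 : 0 ≤ w * (M * (20000 / 955) * (994 / 1000)) := mul_nonneg F.hw (by linarith)
  have hz := F.hz
  have hKl : 1 ≤ K := by
    rw [← hK]
    linarith [show (0 : ℝ) ≤ (2 * z + 1) / y by positivity]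
  have hK0 : 0 < K := by linarith
  have hKy : K ≤ 1 + 3 / y := by
    rw [← hK, add_comm]; gcongr; linarith [F.hzc, sq_nonneg c]
  have hK1 : K ≤ 16 / 15 := hKy.trans (by
    have : 3 / y ≤ 3 / 45 := by gcongr
    linarith)
  have hk : D = c ^ 2 / y * Z := by
    rw [← F.hZ, show c ^ 2 = 1 - z by linarith [F.hzc]]
    field_simp
  have hlog : v - 1 ≤ v * Real.log v := by
    have := mul_log_ge hv.le
    have h0 : 0 ≤ (v - 1) ^ 2 / (v + 1) := by positivity
    linarith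
  have chord : ∀ (d ρ : ℝ), d ∈ Icc (0 : ℝ) 1 → 0 ≤ ρ →
      16 / 15 * ρ * (v - 1) ≤ v * (y * (1 - d ^ 2) / (2 - (1 + d ^ 2) * z) - 1 / 1000) +
        (v - 1) - (1 - d) * ((y + 2 * z + 1) / (1 - z)) → ρ * U ≤ Z := fun d ρ hd hr h =>
    chord_rho (L := y * (1 - d ^ 2) / (2 - (1 + d ^ 2) * z)) (lnv := Real.log v) (w := w) (K := K)
      (kt := (y + 2 * z + 1) / (1 - z)) (d := 1 - d) F.he hv.le F.hveq hlog F.ew hK1 hK0 hr
      (ht d hd) h
  rw [farVal, ← show c ^ 2 = 1 - z by linarith [F.hzc], add_sub_assoc]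
  by_cases hreg : z ≤ 1 / 4 ∧ 7 / 5 ≤ v
  · have hρ : 4 * U ≤ Z := chord (3 / 4) 4 ⟨by norm_num, by norm_num⟩ (by norm_num) (by
      have := chord_near hy hz hreg.1 hreg.2
      linarith)
    exact far_near hW0 hM hT hU hρ F.hc.le F.hzc hz hreg.1 hreg.2
      (far_quad_ray F.hc.le hy0 rfl hk F.hq1 hU hρ (by norm_num))
  by_cases hreg2 : 1 / 4 ≤ z ∧ 11 / 5 ≤ c ^ 2 * v
  · have hρ : 3 * U ≤ Z := chord 0 3 ⟨le_rfl, zero_le_one⟩ (by norm_num) (by
      have := chord_far hy hreg2.1 F.hzc F.hc hreg2.2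
      linarith)
    refine far_away hW0 hM hT hU hρ F.hc.le F.hzc hv F.he F.hveq ?_ (le_trans ?_
      (far_quad_ray F.hc.le hy0 rfl hk F.hq1 hU hρ (by norm_num)))
    · have h2 := mul_le_mul_of_nonneg_left F.hT0 F.he.le
      have h3 := mul_le_mul_of_nonneg_left F.hM0 F.he.le
      have h4 : 45 * (1 / 4) ≤ y * (e * y) := by
        rw [F.hye]; exact mul_le_mul hy hreg2.1 (by norm_num) hy0.le
      rw [show e * (1694 / 100000 * y ^ 2) = 1694 / 100000 * (y * (e * y)) by ring] at h3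
      rw [show e * (868 / 1000 * y) = 868 / 1000 * (e * y) by ring, F.hye] at h2
      linarith [hreg2.1]
    · have := pow_nonneg F.hc.le 3
      norm_num
      positivity
  -- the bounded range
  have hreg3 : (z ≤ 1 / 4 ∧ v ≤ 7 / 5) ∨ (1 / 4 ≤ z ∧ c ^ 2 * v ≤ 11 / 5) := by
    rcases le_or_gt z (1 / 4) with h | h
    · exact Or.inl ⟨h, le_of_not_ge fun h' => hreg ⟨h, h'⟩⟩
    · exact Or.inr ⟨h.le, le_of_not_ge fun h' => hreg2 ⟨h.le, h'⟩⟩
  obtain ⟨hu, hphi, hwt⟩ := far_slopes hy (by linarith : z ≤ 1) hK0 hKy hKl F.hye F.he.le F.hw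
    F.hw1 F.ew F.hM0 F.hM1 F.hT0 F.hT1
  refine far_mid (G := (T + M) / K) hv F.he F.hveq hu hphi (mul_le_mul_of_nonneg_left hwt F.hw) ?_
    (far_above hz F.hc.le F.hzc hv.le hreg3) (far_quad_low F.hc.le hy0 rfl hk F.hq1 F.hq0)
  have h1 := mul_le_mul_of_nonneg_left hlast
    (mul_nonneg F.he.le (div_nonneg (add_nonneg hT hM) hK0.le))
  have e1 : e * ((T + M) / K) * (K * Z) = e * ((T + M) * Z) := by field_simp
  have e2 : e * ((T + M) / K) * (U + e * (U ^ 2 / (v + 1)) - w * v) =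
      (T + M) / K * (v - 1 + (v - 1) ^ 2 / (v + 1)) - (T + M) / K * (e * w * v) := by
    rw [show v - 1 = e * U by linarith [F.hveq]]
    ring
  rw [e1, e2] at h1
  exact h1

/-- Beyond `y = 45` the cell is nonnegative, except for small `v` and positive `D` away from
zero. -/
theorem cellT_far (hp : 198 ≤ p) (S : Hat p s w v U D) (hy : 45 ≤ ((p : ℝ) + 1) * s ^ 2)
    (hrate : s / (1 + s) ≤ v + s ^ 2 / (1 - s ^ 2) * (1 / ((p : ℝ) + 1) * D))
    (hex : D ≤ 0 ∨ s ^ 2 ≤ 1 / 3 ∨ 1 / 4 ≤ v) : 0 ≤ cellT p s w v U D := by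
  have hp' : (198 : ℝ) ≤ p := by exact_mod_cast hp
  have hs := S.s_mem
  have hz : 0 < 1 - s ^ 2 := by nlinarith [hs.1, hs.2]
  have hcp : 0 < arc s := arc_pos ⟨by linarith [hs.1], hs.2⟩
  have hc2 : arc s ^ 2 = 1 - s ^ 2 := Real.sq_sqrt hz.le
  obtain ⟨hM0, hM1, hT0, hT1⟩ := far_weights hp hs hy
  obtain ⟨-, hqc0, hqc1, -⟩ := far_quads hp hs hy
  have F : FarData (((p : ℝ) + 1) * s ^ 2) (s ^ 2) (arc s) (1 / ((p : ℝ) + 1)) w v U D
      (((p : ℝ) + 1) * s ^ 2 / (1 - s ^ 2) * D) (farM p s) (farT p s) (quadC p s) :=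
    ⟨hy, sq_nonneg s, hcp, by linarith, by positivity,
      one_div_le_one_div_of_le (by norm_num) (by linarith), by field_simp, by
        nlinarith [mul_nonneg (sq_nonneg (s ^ 2)) (show (0 : ℝ) ≤ (p : ℝ) - 198 by linarith)],
      S.w_nonneg, S.w_le, S.v_pos, S.v_eq, rfl, hM0, hM1, hT0, hT1, hqc0, hqc1⟩
  suffices h : 0 ≤ farVal (((p : ℝ) + 1) * s ^ 2) (s ^ 2) (arc s) w v U D
      (((p : ℝ) + 1) * s ^ 2 / (1 - s ^ 2) * D) (farM p s) (farT p s) (quadC p s) by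
    refine nonneg_of_mul_nonneg_right (le_trans h ?_) hcp
    rw [farVal]
    exact farCell_ge hp S hy
  rcases le_or_gt D 0 with hD | hD
  · refine far_case_neg F hD ?_ (hat_negTop S hD) fun _ => ?_
    · refine S.lo.trans (mul_le_mul_of_nonneg_left ?_ S.w_nonneg)
      refine mul_le_of_le_one_right hz.le ?_
      rw [div_le_one (by positivity)]
      linarith
    · rcases le_or_gt (s ^ 2) (1 / 3) with h | h
      · exact Or.inl h
      · right
        have h1 : s ^ 2 / (1 - s ^ 2) * (1 / ((p : ℝ) + 1) * D) ≤ 0 :=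
          mul_nonpos_of_nonneg_of_nonpos (div_nonneg (sq_nonneg s) hz.le)
            (mul_nonpos_of_nonneg_of_nonpos (one_div_nonneg.2 (by linarith)) hD)
        have h2 : 1 / 2 ≤ s := by nlinarith [hs.1]
        have h3 : 1 / 3 ≤ s / (1 + s) := by rw [le_div_iff₀ (by linarith)]; linarith
        linarith
  rcases le_or_gt v 1 with hv | hv
  · exact far_case_low F hD hv (hex.resolve_left (not_le.2 hD))
  have hs0 := hs.1.ne'
  have hm : ((p : ℝ) + 1) ≠ 0 := by positivity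
  have hz' := hz.ne'
  obtain ⟨K, hK⟩ : ∃ K, (2 * s ^ 2 + 1) / (((p : ℝ) + 1) * s ^ 2) + 1 = K := ⟨_, rfl⟩
  have hkt : (((p : ℝ) + 3) * s ^ 2 + 1) / (1 - s ^ 2) =
      (((p : ℝ) + 1) * s ^ 2 + 2 * s ^ 2 + 1) / (1 - s ^ 2) := by ring
  have hkt' : (((p : ℝ) + 1) * s ^ 2 + 2 * s ^ 2 + 1) / (1 - s ^ 2) * D =
      K * (((p : ℝ) + 1) * s ^ 2 / (1 - s ^ 2) * D) := by
    rw [← hK]; field_simp; ring
  refine far_case_high F hv hD hK (fun d hd => ?_) ?_
  · have h1 := S.tail d hd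
      (by linarith [hd.2, mul_pos (show (0 : ℝ) < 1 / ((p : ℝ) + 1) by positivity) hD])
    rw [hkt] at h1
    have e1 := congrArg (fun x => 1 / ((p : ℝ) + 1) * x) hkt'
    linarith
  · have h1 := tail_one S hD hv.le
    rw [hkt, hkt'] at h1
    exact h1

end Vale.Agent.P237.Petty.Cor.Tiny
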