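import Vale.Agent.P237.Petty.Cor.Tiny.FarBounds

/-!
# P237: the tiny cell for small `v` and positive `δ` away from zero

There the excess of the shadow is kept: it is at least the logarithm of `v` and at least minus
the circle term, and the slope in `δ` pays for it.
-/

namespace Vale.Agent.P237.Petty.Cor.Tiny

open Set

variable {p : ℕ}

/-- The room above `t` bounds `v` from below. -/
theorem rate_edge {top s t a r q : ℝ} (h : FlatState p top s t a r q) :
    s / (1 + s) ≤ 1 / r + s ^ 2 / (1 - s ^ 2) * ((t - s) / s) := by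
  have hs := h.state.s_mem
  have hr := h.state.rate_pos
  have hz : 0 < 1 - s ^ 2 := by nlinarith [hs.1, hs.2]
  have h0 := h.rate_le
  have ht := h.state.t_mem.2
  have h1 : 0 ≤ r * (1 - t) * s := by
    have : 0 < 1 - t := by linarith
    have := hs.1
    positivity
  have h2 : s * (r * (1 - t)) * ((p : ℝ) + 2) ≤ (1 - s ^ 2) * ((p : ℝ) + 2) := by linarith
  have h3 : s * (r * (1 - t)) ≤ 1 - s ^ 2 := le_of_mul_le_mul_right h2 (by positivity)
  have hr0 := hr.ne'
  have hs0 := hs.1.ne'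
  have hz' := hz.ne'
  have e : s / (1 + s) - s ^ 2 / (1 - s ^ 2) * ((t - s) / s) = s * (1 - t) / (1 - s ^ 2) := by
    have : 1 + s ≠ 0 := by linarith [hs.1]
    field_simp
    ring
  have h4 : s * (1 - t) / (1 - s ^ 2) ≤ 1 / r := by
    rw [div_le_div_iff₀ hz hr]
    linarith
  linarith

/-- The excess of the shadow is at least a shifted reciprocal. -/
theorem log_edge {v : ℝ} (hv : 0 < v) : -7 - 1 / 2500 / v ≤ Real.log v := by
  have h := Real.log_le_sub_one_of_pos (show 0 < 1 / 2500 / v by positivity)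
  rw [Real.log_div (by norm_num) hv.ne', one_div, Real.log_inv] at h
  have h8 : Real.log 2500 ≤ 8 := by
    rw [Real.log_le_iff_le_exp (by norm_num)]
    have e : Real.exp 1 ^ 8 = Real.exp 8 := by
      rw [← Real.exp_nat_mul]; norm_num
    rw [← e]
    refine le_trans ?_ (pow_le_pow_left₀ (by norm_num) Real.exp_one_gt_d9.le 8)
    norm_num
  linarith

/-- The slack near the pole and away from it: `g` is the slope in `δ`, `S` the excess of the
shadow, `lnv` the logarithm of `v`. -/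
theorem edge_core {m z c v u b nu M g S lnv : ℝ} (hm : 199 ≤ m) (hc : 0 < c) (hzc : z + c ^ 2 = 1)
    (_hz : 1 / 3 ≤ z) (hv : 0 < v) (hv1 : v ≤ 1 / 4) (hu : u = v - 1)
    (hb : 997 / 1000 ≤ b) (hb1 : b ≤ 1) (hnu : 101 / 1000 ≤ nu) (hM : 0 ≤ M)
    (hg : 66 / 100 * (115 / 1000) ≤ g) (hgz : 99 / 100 ≤ z → 995 / 1000 ≤ g)
    (hS1 : -(191 / 200 * b * m) ≤ S) (hS2 : 191 / 200 * b * lnv ≤ S)
    (hlog : -7 - 1 / 2500 / v ≤ lnv) :
    0 ≤ S - 191 / 200 * b * u - M * u + m * g + 34 / 5 * nu * c ^ 3 * (u ^ 2 / v) := by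
  have hu0 : u ≤ 0 := by linarith
  have hb0 : 0 ≤ b := by linarith
  have hub : 0 ≤ -(191 / 200 * b * u) := by
    have := mul_nonneg hb0 (neg_nonneg.2 hu0)
    linarith
  have hMu : 0 ≤ -(M * u) := by
    have := mul_nonneg hM (neg_nonneg.2 hu0)
    linarith
  rcases le_or_gt (99 / 100) z with h | h
  · have h1 := mul_le_mul_of_nonneg_left (hgz h) (show 0 ≤ m by linarith)
    have h2 := mul_le_mul_of_nonneg_right hb1 (show 0 ≤ m by linarith)
    have h3 : 0 ≤ 34 / 5 * nu * c ^ 3 * (u ^ 2 / v) := by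
      have : 0 ≤ nu := by linarith
      positivity
    linarith
  · have hc1 : 1 / 10 ≤ c :=
      (pow_le_pow_iff_left₀ (by norm_num) hc.le two_ne_zero).1 (by norm_num; linarith)
    have hc3 := pow_le_pow_left₀ (by norm_num) hc1 3
    have hu2 : 9 / 16 ≤ u ^ 2 := by nlinarith
    have hA := mul_le_mul (mul_le_mul hnu hc3 (by norm_num) (by linarith)) hu2 (by norm_num)
      (mul_nonneg (show 0 ≤ nu by linarith) (pow_nonneg hc.le 3))
    have hA' : 1 / 2500 * (191 / 200 * b) ≤ 34 / 5 * nu * c ^ 3 * u ^ 2 := by linarith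
    have h1 : 1 / 2500 * (191 / 200 * b) / v ≤ 34 / 5 * nu * c ^ 3 * (u ^ 2 / v) := by
      rw [← mul_div_assoc]
      gcongr
    have h2 := mul_le_mul_of_nonneg_left hlog (show 0 ≤ 191 / 200 * b by linarith)
    have h3 := mul_le_mul hm hg (by norm_num) (by linarith)
    have e : 191 / 200 * b * (1 / 2500 / v) = 1 / 2500 * (191 / 200 * b) / v := by ring
    linarith

/-- The gain of the slope in `δ` away from zero. -/
theorem edge_gain {z s v Z m G M T : ℝ} (hz : z = s ^ 2) (hs : 0 < s) (hs1 : s < 1)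
    (hz1 : 1 / 3 < z) (hm : 199 ≤ m) (hT : 868 / 1000 * (m * z) ≤ T)
    (hM : 1694 / 100000 * (m * z) ^ 2 ≤ M) (hv : v < 1 / 4) (hrate : s / (1 + s) ≤ v + Z)
    (hG : G = 1 / m * (T + M) * Z) :
    66 / 100 * (115 / 1000) ≤ G ∧ (99 / 100 ≤ z → 995 / 1000 ≤ G) := by
  have hm0 : 0 < m := by linarith
  have hs5 : 577 / 1000 ≤ s :=
    (pow_le_pow_iff_left₀ (by norm_num) hs.le two_ne_zero).1 (by norm_num; linarith)
  have hZ1 : 115 / 1000 ≤ Z := by
    have : 365 / 1000 ≤ s / (1 + s) := by rw [le_div_iff₀ (by linarith)]; linarith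
    linarith
  have hsum : ∀ z0, 0 ≤ z0 → z0 ≤ z →
      868 / 1000 * z0 + 1694 / 100000 * (199 * z0 ^ 2) ≤ 1 / m * (T + M) := fun z0 h0 h => by
    rw [show 1 / m * (T + M) = (T + M) / m by ring, le_div_iff₀ hm0]
    have h6 := mul_le_mul_of_nonneg_left (mul_le_mul hm (pow_le_pow_left₀ h0 h 2) (sq_nonneg z0)
      hm0.le) hm0.le
    have h7 := mul_le_mul_of_nonneg_left h hm0.le
    linarith
  have hS : 66 / 100 ≤ 1 / m * (T + M) :=
    le_trans (by norm_num) (hsum (1 / 3) (by norm_num) hz1.le)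
  refine ⟨hG ▸ mul_le_mul hS hZ1 (by norm_num) (le_trans (by norm_num) hS), fun h99 => ?_⟩
  have hS' : 416 / 100 ≤ 1 / m * (T + M) :=
    le_trans (by norm_num) (hsum (99 / 100) (by norm_num) h99)
  have hs9 : 99 / 100 ≤ s := by nlinarith
  have : 4974 / 10000 ≤ s / (1 + s) := by rw [le_div_iff₀ (by linarith)]; linarith
  refine le_trans (by norm_num)
    (hG ▸ mul_le_mul hS' (show 2474 / 10000 ≤ Z by linarith) (by norm_num)
      (le_trans (by norm_num) hS'))

/-- The linear part times the circle, where the switch is constant. -/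
theorem edge_lin (p : ℕ) (ell : ℝ) {s : ℝ} (hs : s ∈ Ioo (0 : ℝ) 1)
    (hy : 18 ≤ ((p : ℝ) + 1) * s ^ 2) (v δ : ℝ) :
    arc s * (potK p ell s * (v - 1) + linD p ell s * δ +
        34 / 5 * nuT p * (1 - s ^ 2) * ((v - 1) ^ 2 / v)) =
      -(191 / 200 * Ident.b0 p * (v - 1)) - 1 / ((p : ℝ) + 1) * farM p s * (v - 1) +
        ((p : ℝ) + 1) *
          (1 / ((p : ℝ) + 1) * (farT p s + farM p s) * (s ^ 2 / (1 - s ^ 2) * δ)) +
        34 / 5 * nuT p * arc s ^ 3 * ((v - 1) ^ 2 / v) := by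
  obtain ⟨h1, h2, h3, h4⟩ := switch_const hy
  have hc : 0 < arc s := arc_pos ⟨by linarith [hs.1], hs.2⟩
  have hc2 : arc s ^ 2 = 1 - s ^ 2 := Real.sq_sqrt (by nlinarith [hs.1, hs.2])
  rw [show arc s ^ 3 = arc s * arc s ^ 2 by ring, hc2]
  have hz : (1 - s ^ 2) ≠ 0 := by nlinarith [hs.1, hs.2]
  have hs0 := hs.1.ne'
  have hc0 := hc.ne'
  have hm : ((p : ℝ) + 1) ≠ 0 := by positivity
  rw [potK, linD, farT, farM, wHat, sHat, h1, h2, h3, h4]
  field_simp
  ring

/-- The cancelled cell with the excess of the shadow kept, for `δ ≥ 0 ≥ u`. -/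
theorem edge_le (p : ℕ) {ell top s t a r q : ℝ} (h : FlatState p top s t a r q) (hnu : 0 ≤ nuT p)
    (hB : 0 ≤ quadB p s) (hC : 0 ≤ quadC p s) (hd : 0 ≤ (t - s) / s) (hv : 1 / r ≤ 1) :
    ell * wS p (arc s) + gamT p * Ident.b0 p * (1 / a - 1 / arc s) +
        (potK p ell s * (1 / r - 1) + linD p ell s * ((t - s) / s) +
          34 / 5 * nuT p * (1 - s ^ 2) * ((1 / r - 1) ^ 2 / (1 / r))) ≤
      cancelExpr p (gamT p) (nuT p) ell (fun s t => s + 12 / 5 * (s - t))
        (fun _ _ => 1 + 12 / 5) (fun _ _ => -(12 / 5)) (quadPot (potK p ell) (potB p))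
        (quadPotS (potK p ell) (potK' p ell) (potB p) (potB' p))
        (quadPotT (potK p ell) (potB p)) s t a r := by
  have hs0 := h.state.s_mem.1.ne'
  have hc0 := h.state.arc_pos'.ne'
  have hr0 := h.state.rate_pos.ne'
  have hz : (1 - s ^ 2) ≠ 0 := by nlinarith [h.state.s_mem.1, h.state.s_mem.2]
  have hc2 : arc s ^ 2 = 1 - s ^ 2 :=
    Real.sq_sqrt (by nlinarith [h.state.s_mem.1, h.state.s_mem.2])
  obtain ⟨v, hv', hve⟩ : ∃ v, 0 < v ∧ 1 / r = v :=
    ⟨1 / r, by have := h.state.rate_pos; positivity, rfl⟩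
  obtain ⟨δ, hδ⟩ : ∃ δ, (t - s) / s = δ := ⟨_, rfl⟩
  have hd' : t - s = s * δ := by rw [← hδ]; field_simp
  have hb := (Ident.b0_pos p).ne'
  have hm : ((p : ℝ) + 1) ≠ 0 := by positivity
  have h4 : ((p : ℝ) + 4) ≠ 0 := by positivity
  have e3 : nuT p * testDef p (12 / 5) s t r + nullPart p (quadPot (potK p ell) (potB p))
      (quadPotS (potK p ell) (potK' p ell) (potB p) (potB' p))
      (quadPotT (potK p ell) (potB p)) s t r =
      potK p ell s * (v - 1) + (potK' p ell s - potRate p s * potK p ell s) * (t - s) +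
        34 / 5 * nuT p * (1 - s ^ 2) * ((v - 1) ^ 2 / v) +
        cancelDD p (nuT p) (12 / 5) (potB p) (potB' p) s v * (t - s) ^ 2 +
        cancelUD (nuT p) (12 / 5) (potB p) s v * ((v - 1) * (t - s)) := by
    rw [← hve]
    simp only [testDef, nullPart, quadPot, quadPotS, quadPotT, cancelDD, cancelUD, potRate]
    field_simp
    ring
  have eD : cancelD p (nuT p) (potK p ell) (potK' p ell) s * (s * δ) = linD p ell s * δ := by
    have e2 : sqCoef p + ((p : ℝ) + 4) * (nuT p - nuS p) = 191 / 200 * sqCoef p := by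
      rw [nuT, nuS, sqCoef]
      field_simp
      ring
    rw [← mul_assoc]
    congr 1
    rw [cancelD, e2, potK, potK', linD, slopeW, potRate, ← hc2, sqCoef]
    field_simp
    ring
  have eB : cancelDD p (nuT p) (12 / 5) (potB p) (potB' p) s v * (s * δ) ^ 2 =
      quadB p s * δ ^ 2 + 408 / 25 * nuT p * s ^ 2 / v * δ ^ 2 := by
    rw [cancelDD, potB, potB', potRate, quadB]
    field_simp
    ring
  have eC : cancelUD (nuT p) (12 / 5) (potB p) s v * ((v - 1) * (s * δ)) =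
      -2 * quadC p s * ((v - 1) * δ) - 238 / 25 * nuT p * s ^ 2 / v * ((v - 1) * δ) := by
    rw [cancelUD, potB, quadC]
    field_simp
    ring
  rw [hδ] at hd ⊢
  rw [hve] at hv ⊢
  have hp1 : 0 ≤ quadB p s * δ ^ 2 := mul_nonneg hB (sq_nonneg δ)
  have hp2 : 0 ≤ 408 / 25 * nuT p * s ^ 2 / v * δ ^ 2 := by positivity
  have hp3 : 0 ≤ quadC p s * ((1 - v) * δ) := mul_nonneg hC (mul_nonneg (by linarith) hd)
  have hp4 : 0 ≤ 238 / 25 * nuT p * s ^ 2 / v * ((1 - v) * δ) :=
    mul_nonneg (by positivity) (mul_nonneg (by linarith) hd)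
  simp only [cancelExpr, testGen_affine (12 / 5) s t hr0]
  rw [hd'] at e3 ⊢
  rw [cancelD] at eD
  rw [eB, eC] at e3
  linarith

/-- The bound of the cell for small `v` and positive `δ` away from zero. -/
theorem cancel_edge (hp : 198 ≤ p) {ell top s t a r q : ℝ} (hell : 0 ≤ ell)
    (h : FlatState p top s t a r q) (hd : 0 < (t - s) / s) (hz : 1 / 3 < s ^ 2)
    (hv : 1 / r < 1 / 4) :
    psiT p ell s ≤
      cancelExpr p (gamT p) (nuT p) ell (fun s t => s + 12 / 5 * (s - t))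
        (fun _ _ => 1 + 12 / 5) (fun _ _ => -(12 / 5)) (quadPot (potK p ell) (potB p))
        (quadPotS (potK p ell) (potK' p ell) (potB p) (potB' p))
        (quadPotT (potK p ell) (potB p)) s t a r := by
  have hp' : (198 : ℝ) ≤ p := by exact_mod_cast hp
  have hs := h.state.s_mem
  have hc := h.state.arc_pos'
  have hz1 : 0 < 1 - s ^ 2 := by nlinarith [hs.1, hs.2]
  have hc2 : arc s ^ 2 = 1 - s ^ 2 := Real.sq_sqrt hz1.le
  have hrpos := h.state.rate_pos
  have hy : 45 ≤ ((p : ℝ) + 1) * s ^ 2 := by nlinarith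
  obtain ⟨n1, -⟩ := nuT_box hp
  obtain ⟨-, hb1, hb, -⟩ := ratio_box hp
  obtain ⟨hM0, -, hT0, -⟩ := far_weights hp hs hy
  obtain ⟨hqB, hqC, -⟩ := far_quads hp hs hy
  obtain ⟨S, hSe⟩ : ∃ S, arc s * (gamT p * Ident.b0 p * (1 / a - 1 / arc s)) = S := ⟨_, rfl⟩
  have hgam : 0 ≤ gamT p * Ident.b0 p := by
    rw [gamT]
    have := Ident.b0_pos p
    positivity
  have hS1 : -(191 / 200 * Ident.b0 p * ((p : ℝ) + 1)) ≤ S := by
    have h1 : 0 ≤ arc s * (gamT p * Ident.b0 p) * (1 / a) := by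
      have := h.state.pos
      positivity
    have h2 : arc s * (gamT p * Ident.b0 p) * (1 / arc s) =
        191 / 200 * Ident.b0 p * ((p : ℝ) + 1) := by
      rw [gamT]
      field_simp [hc.ne']
    rw [← hSe]
    linarith
  have hS2 : 191 / 200 * Ident.b0 p * Real.log (1 / r) ≤ S := by
    rw [← hSe, one_div r, Real.log_inv]
    refine le_trans (le_of_eq ?_)
      (mul_le_mul_of_nonneg_left (mul_le_mul_of_nonneg_left h.inv_excess hgam) hc.le)
    have hm : ((p : ℝ) + 1) ≠ 0 := by positivity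
    have hc0 := hc.ne'
    rw [gamT]
    field_simp
  obtain ⟨hg1, hg2⟩ := edge_gain (Z := s ^ 2 / (1 - s ^ 2) * ((t - s) / s)) rfl hs.1 hs.2 hz
    (show 199 ≤ (p : ℝ) + 1 by linarith) hT0 hM0 hv (rate_edge h) rfl
  have hcore := edge_core (m := (p : ℝ) + 1) (z := s ^ 2) (M := 1 / ((p : ℝ) + 1) * farM p s)
    (nu := nuT p) (by linarith) hc (by linarith) hz.le (by positivity) hv.le rfl hb hb1 n1
    (mul_nonneg (by positivity) (le_trans (by positivity) hM0)) hg1 hg2 hS1 hS2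
    (log_edge (by positivity))
  refine le_trans ?_ (edge_le p h (by linarith) (le_trans (by positivity) hqB) hqC hd.le
    (by linarith))
  have hpos : 0 ≤ gamT p * Ident.b0 p * (1 / a - 1 / arc s) + (potK p ell s * (1 / r - 1) +
      linD p ell s * ((t - s) / s) +
      34 / 5 * nuT p * (1 - s ^ 2) * ((1 / r - 1) ^ 2 / (1 / r))) := by
    refine nonneg_of_mul_nonneg_right (le_of_le_of_eq hcore ?_) hc
    have e := edge_lin p ell hs (by linarith) (1 / r) ((t - s) / s)
    linear_combination -hSe - e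
  have h5 := mul_nonpos_of_nonneg_of_nonpos (sq_nonneg ell) (remT_nonpos hy)
  have h6 := mul_nonneg hell (wS_nonneg (p := p) (by omega) hc)
  rw [psiT]
  linarith

end Vale.Agent.P237.Petty.Cor.Tiny
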