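import Vale.Agent.P237.Petty.Cor.Tiny.Bulk
import Vale.Agent.P237.Petty.Cor.Tiny.Far
import Vale.Agent.P237.Petty.Cor.Tiny.FarEdge

/-!
# P237: the tiny cell from dimension 200 on
-/

namespace Vale.Agent.P237.Petty.Cor.Tiny

open MeasureTheory Set intervalIntegral
open Ident (half rate)
open Huge (moment)

variable {p : ℕ}

theorem continuous_phiT : Continuous phiT :=
  continuous_iff_continuousAt.2 fun y => (hasDerivAt_phiT y).continuousAt

theorem continuous_kapT : Continuous kapT :=
  continuous_iff_continuousAt.2 fun y => (hasDerivAt_kapT y).continuousAt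

theorem continuous_remT : Continuous remT := by
  unfold remT
  fun_prop

theorem continuous_arc_pow_potK (hp : 1 ≤ p) (ell : ℝ) :
    Continuous fun s => arc s ^ (p + 1) * potK p ell s := by
  have e : (fun s => arc s ^ (p + 1) * potK p ell s) = fun s =>
      -(191 / 200) * (Ident.b0 p * arc s ^ p +
        phiT (((p : ℝ) + 1) * s ^ 2) * (arc s ^ (p + 1) * wS p (arc s))) +
      8 * ell * kapT (((p : ℝ) + 1) * s ^ 2) * arc s ^ (p + 1) := by
    funext s
    rw [potK]
    rcases eq_or_ne (arc s) 0 with h | h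
    · simp [h, show p ≠ 0 by omega]
    · rw [pow_succ]; field_simp
  rw [e]
  have h1 := continuous_arc_pow_wS p
  have h2 := continuous_phiT
  have h3 := continuous_kapT
  have h4 := continuous_arc
  fun_prop

/-- The sign of the cancelled cell less the bound. -/
theorem psiT_le (hp : 198 ≤ p) {ell s t a r q : ℝ} (hell : ell ∈ Icc 0 (3 / 20 / ((p : ℝ) + 2)))
    (h : FlatState p ell s t a r q) :
    psiT p ell s ≤
      cancelExpr p (gamT p) (nuT p) ell (fun s t => s + 12 / 5 * (s - t))
        (fun _ _ => 1 + 12 / 5) (fun _ _ => -(12 / 5)) (quadPot (potK p ell) (potB p))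
        (quadPotS (potK p ell) (potK' p ell) (potB p) (potB' p))
        (quadPotT (potK p ell) (potB p)) s t a r := by
  have S := hat_of_flat hp hell h
  rcases le_or_gt (((p : ℝ) + 1) * s ^ 2) 45 with hy | hy
  · refine psiT_le_of_cellT hp h (band_bulk p s _ _ _ _ hp S ?_ ?_)
    · push_cast; positivity
    · push_cast; exact hy
  have hm : (0 : ℝ) < (p : ℝ) + 1 := by positivity
  have ed : 1 / ((p : ℝ) + 1) * (((p : ℝ) + 1) * ((t - s) / s)) = (t - s) / s := by field_simp
  have hrate : s / (1 + s) ≤ 1 / r +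
      s ^ 2 / (1 - s ^ 2) * (1 / ((p : ℝ) + 1) * (((p : ℝ) + 1) * ((t - s) / s))) := by
    rw [ed]; exact rate_edge h
  by_cases hex : ((p : ℝ) + 1) * ((t - s) / s) ≤ 0 ∨ s ^ 2 ≤ 1 / 3 ∨ 1 / 4 ≤ 1 / r
  · exact psiT_le_of_cellT hp h (cellT_far hp S hy.le hrate hex)
  · push Not at hex
    exact cancel_edge hp hell.1 h ((mul_pos_iff_of_pos_left hm).1 hex.1) hex.2.1 hex.2.2

/-- The remainder has a mean above a known negative number. -/
theorem integral_remT_ge (hp : 198 ≤ p) :
    -(294 / 10000) * half (p + 1) ≤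
      ∫ s in (0 : ℝ)..1, arc s ^ (p + 1) * remT (((p : ℝ) + 1) * s ^ 2) := by
  have hp' : (198 : ℝ) ≤ p := by exact_mod_cast hp
  have e : ∀ s : ℝ, remT (((p : ℝ) + 1) * s ^ 2) =
      ∑ j ∈ Finset.range 7, (phiCoef j : ℝ) * ((p : ℝ) + 1) ^ j * s ^ (2 * j) := by
    intro s
    simp only [remT, Finset.sum_range_succ, Finset.sum_range_zero]
    ring
  simp only [e]
  rw [integral_evenPoly]
  obtain ⟨k, hk, hpk⟩ : ∃ k : ℝ, 0 ≤ k ∧ (p : ℝ) = k + 198 := ⟨(p : ℝ) - 198, by linarith, by ring⟩
  have h1 := moment_eq (p + 1) 1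
  have h2 := moment_eq (p + 1) 2
  have h3 := moment_eq (p + 1) 3
  have h4 := moment_eq (p + 1) 4
  have h5 := moment_eq (p + 1) 5
  have h6 := moment_eq (p + 1) 6
  simp only [Finset.prod_range_succ, Finset.prod_range_zero] at h1 h2 h3 h4 h5 h6
  simp only [Finset.sum_range_succ, Finset.sum_range_zero, Huge.moment_zero]
  push_cast at h1 h2 h3 h4 h5 h6
  simp only [phiCoef]
  push_cast
  rw [hpk] at h1 h2 h3 h4 h5 h6 ⊢
  have hH := Ident.half_pos (p + 1)
  generalize half (p + 1) = H at *
  have d0 : 0 < k + 202 := by linarith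
  have d1 : 0 < k + 204 := by linarith
  have d2 : 0 < k + 206 := by linarith
  have d3 : 0 < k + 208 := by linarith
  have d4 : 0 < k + 210 := by linarith
  have d5 : 0 < k + 212 := by linarith
  have q1 : moment (p + 1) 1 = H / (k + 202) := by
    rw [eq_div_iff d0.ne']; linear_combination h1
  have q2 : moment (p + 1) 2 = 3 * H / ((k + 202) * (k + 204)) := by
    rw [eq_div_iff (by positivity)]; linear_combination h2
  have q3 : moment (p + 1) 3 = 15 * H / ((k + 202) * (k + 204) * (k + 206)) := by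
    rw [eq_div_iff (by positivity)]; linear_combination h3
  have q4 : moment (p + 1) 4 =
      105 * H / ((k + 202) * (k + 204) * (k + 206) * (k + 208)) := by
    rw [eq_div_iff (by positivity)]; linear_combination h4
  have q5 : moment (p + 1) 5 =
      945 * H / ((k + 202) * (k + 204) * (k + 206) * (k + 208) * (k + 210)) := by
    rw [eq_div_iff (by positivity)]; linear_combination h5
  have q6 : moment (p + 1) 6 =
      10395 * H / ((k + 202) * (k + 204) * (k + 206) * (k + 208) * (k + 210) * (k + 212)) := by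
    rw [eq_div_iff (by positivity)]; linear_combination h6
  rw [q1, q2, q3, q4, q5, q6]
  field_simp
  nlinarith [mul_nonneg hH.le hk, mul_nonneg hH.le (pow_nonneg hk 2),
    mul_nonneg hH.le (pow_nonneg hk 3), mul_nonneg hH.le (pow_nonneg hk 4),
    mul_nonneg hH.le (pow_nonneg hk 5), mul_nonneg hH.le (pow_nonneg hk 6)]

/-- The cell of values below `3 / 20` over the dimension, from `p = 198` on. -/
theorem corCell_tiny (hp : 198 ≤ p) : CorCell p 0 (3 / 20 / ((p : ℝ) + 2)) := fun ell hl => by
  have hp1 : 1 ≤ p := by omega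
  have hgam : 0 < gamT p := by
    rw [gamT]; positivity
  have hnu := nuT_nonneg hp
  have hr : Continuous fun s : ℝ => arc s ^ (p + 1) * remT (((p : ℝ) + 1) * s ^ 2) := by
    have := continuous_arc
    have := continuous_remT
    fun_prop
  have e : (fun s => arc s ^ (p + 1) * psiT p ell s) = fun s =>
      ell * (3 / 500) * (arc s ^ (p + 1) * wS p (arc s)) +
        ell ^ 2 * (arc s ^ (p + 1) * remT (((p : ℝ) + 1) * s ^ 2)) := by
    funext s
    rw [psiT]
    ring
  have hB : ∀ s ∈ Ioo (0 : ℝ) 1, arc s ^ (p + 1) * potB p s * s =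
      arc s ^ (p + 1) * (-(4 / 25) * (1 - s ^ 2) - 11 / 200 * ((p : ℝ) + 1) * s ^ 2) := by
    intro s hs
    have := hs.1.ne'
    rw [potB]
    field_simp
  refine ⟨gamT p, nuT p, _, ell, hgam, hnu, Lift.muMin_pos hp1, le_rfl,
    corBound_of_flat hnu le_rfl (flatField_of_cancel hp1 (axTest_affine (12 / 5))
      (nullField_quadPot (fun s hs => hasDerivAt_potK p ell hs)
        (fun s hs => hasDerivAt_potB p hs) (continuous_arc_pow_potK hp1 ell).continuousOn ?_ hB)
      (ψ := psiT p ell) ?_ ?_ fun s t a r q h => psiT_le hp hl h)⟩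
  · have := continuous_arc
    fun_prop
  · rw [e]
    have := continuous_arc_pow_wS p
    fun_prop
  · rw [e, intervalIntegral.integral_add
      (((continuous_arc_pow_wS p).intervalIntegrable 0 1).const_mul _)
      ((hr.intervalIntegrable 0 1).const_mul _),
      intervalIntegral.integral_const_mul, intervalIntegral.integral_const_mul, integral_wS hp1]
    have hI := integral_remT_ge hp
    obtain ⟨m1, -⟩ := muMin_bounds_tiny (p := p) hp
    have hmu : 7355 / 10000 ≤ Ident.muMin p := by
      have hp' : (198 : ℝ) ≤ p := by exact_mod_cast hp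
      have : 288 / 100 / ((p : ℝ) + 1) ≤ 288 / 100 / 199 := by gcongr; linarith
      linarith
    have hH := Ident.half_pos (p + 1)
    have h2 : (0 : ℝ) < (p : ℝ) + 2 := by positivity
    have k1 := mul_le_mul_of_nonneg_left hI (sq_nonneg ell)
    have k2 := mul_le_mul_of_nonneg_left hl.2 (mul_nonneg hl.1 hH.le)
    have k3 := mul_le_mul_of_nonneg_left hmu
      (div_nonneg (mul_nonneg hl.1 hH.le) h2.le)
    have e1 : ell * half (p + 1) * (3 / 20 / ((p : ℝ) + 2)) =
        3 / 20 * (ell * half (p + 1) / ((p : ℝ) + 2)) := by ring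
    have e2 : ell * (3 / 500) * (half (p + 1) * Ident.muMin p / ((p : ℝ) + 2)) =
        3 / 500 * (ell * half (p + 1) / ((p : ℝ) + 2) * Ident.muMin p) := by ring
    rw [e1] at k2
    rw [e2]
    have k4 : 0 ≤ ell * half (p + 1) / ((p : ℝ) + 2) :=
      div_nonneg (mul_nonneg hl.1 hH.le) h2.le
    linarith

end Vale.Agent.P237.Petty.Cor.Tiny
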