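import Vale.Agent.P237.Petty.Cor.Tiny.Facts

/-!
# P237: the mass of the circle below an abscissa, over the abscissa and the circle there

With `Y = (p + 1) s ^ 2 / (1 - s ^ 2)` the quotient is at most the truncated series of
`∑ Y ^ k / (2 k + 1)‼`, its last coefficient raised, as long as `Y ≤ 8`.
-/

namespace Vale.Agent.P237.Petty.Cor.Tiny

open MeasureTheory Set intervalIntegral
open Lift (circLow)

variable {p : ℕ}

/-- The series. -/
noncomputable def lowSer (Y : ℝ) : ℝ :=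
  1 + Y / 3 + Y ^ 2 / 15 + Y ^ 3 / 105 + Y ^ 4 / 945 + Y ^ 5 / 10395 + Y ^ 6 / 135135 +
    Y ^ 7 / 2027025 + Y ^ 8 / 34459425 + Y ^ 9 / 654729075 + Y ^ 10 / 8511477975

/-- Its derivative. -/
noncomputable def lowSer' (Y : ℝ) : ℝ :=
  1 / 3 + 2 * Y / 15 + 3 * Y ^ 2 / 105 + 4 * Y ^ 3 / 945 + 5 * Y ^ 4 / 10395 +
    6 * Y ^ 5 / 135135 + 7 * Y ^ 6 / 2027025 + 8 * Y ^ 7 / 34459425 + 9 * Y ^ 8 / 654729075 +
    10 * Y ^ 9 / 8511477975

theorem hasDerivAt_lowSer (Y : ℝ) : HasDerivAt lowSer (lowSer' Y) Y := by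
  refine ((((((((((hasDerivAt_id Y).div_const 3).const_add 1).add
    ((hasDerivAt_pow 2 Y).div_const 15)).add ((hasDerivAt_pow 3 Y).div_const 105)).add
    ((hasDerivAt_pow 4 Y).div_const 945)).add ((hasDerivAt_pow 5 Y).div_const 10395)).add
    ((hasDerivAt_pow 6 Y).div_const 135135)).add ((hasDerivAt_pow 7 Y).div_const 2027025)).add
    ((hasDerivAt_pow 8 Y).div_const 34459425)).add ((hasDerivAt_pow 9 Y).div_const 654729075)
      |>.add ((hasDerivAt_pow 10 Y).div_const 8511477975) |>.congr_deriv ?_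
  rw [lowSer']
  push_cast
  ring

theorem lowSer_pos {Y : ℝ} (hY : 0 ≤ Y) : 0 < lowSer Y ∧ 0 ≤ lowSer' Y := by
  unfold lowSer lowSer'
  exact ⟨by positivity, by positivity⟩

/-- The mass below `s`, over `s` and the circle at `s`. -/
theorem circLow_le_ser {s : ℝ} (hs : s ∈ Ioo (0 : ℝ) 1)
    (hY : ((p : ℝ) + 1) * s ^ 2 / (1 - s ^ 2) ≤ 8) :
    circLow p s ≤ lowSer (((p : ℝ) + 1) * s ^ 2 / (1 - s ^ 2)) * (s * arc s ^ (p + 1)) := by
  have hc : Continuous fun u => arc u ^ (p + 1) := continuous_arc.pow _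
  set F : ℝ → ℝ := fun x =>
    lowSer (((p : ℝ) + 1) * x ^ 2 / (1 - x ^ 2)) * (x * arc x ^ (p + 1)) with hFdef
  have hlt : ∀ x ∈ Icc 0 s, 0 < 1 - x ^ 2 := fun x hx => by nlinarith [hx.1, hx.2, hs.2]
  have hF : ContinuousOn F (Icc 0 s) := by
    have : Continuous lowSer := by unfold lowSer; fun_prop
    exact (this.comp_continuousOn (ContinuousOn.div (by fun_prop) (by fun_prop)
      fun x hx => (hlt x hx).ne')).mul (continuous_id.mul hc).continuousOn
  have h := integral_le_sub_of_hasDeriv_right_of_le (g := F)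
    (g' := fun x => lowSer' (((p : ℝ) + 1) * x ^ 2 / (1 - x ^ 2)) *
        (2 * ((p : ℝ) + 1) * x / (1 - x ^ 2) ^ 2) * (x * arc x ^ (p + 1)) +
      lowSer (((p : ℝ) + 1) * x ^ 2 / (1 - x ^ 2)) *
        (arc x ^ (p + 1) - ((p : ℝ) + 1) * x ^ 2 / (1 - x ^ 2) * arc x ^ (p + 1)))
    (φ := fun u => arc u ^ (p + 1)) hs.1.le hF (fun x hx => ?_) hc.integrableOn_Icc fun x hx => ?_
  · have e : F 0 = 0 := by simp [hFdef]
    rw [e, sub_zero] at h
    exact h
  · have hz := hlt x ⟨hx.1.le, hx.2.le⟩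
    have hx1 : x ∈ Icc (0 : ℝ) 1 := ⟨hx.1.le, by linarith [hx.2, hs.2]⟩
    have h2 := sq_arc hx1
    have hY' : HasDerivAt (fun x => ((p : ℝ) + 1) * x ^ 2 / (1 - x ^ 2))
        (2 * ((p : ℝ) + 1) * x / (1 - x ^ 2) ^ 2) x := by
      refine (((hasDerivAt_pow 2 x).const_mul ((p : ℝ) + 1)).div
        ((hasDerivAt_pow 2 x).const_sub 1) hz.ne').congr_deriv ?_
      push_cast
      field_simp
      ring
    refine ((((hasDerivAt_lowSer _).comp x hY').mul ((hasDerivAt_id x).mul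
      (hasDerivAt_arc_pow p (s := x) ⟨by linarith [hx.1], by linarith [hx.2, hs.2]⟩)))
        ).congr_deriv ?_ |>.hasDerivWithinAt
    simp only [Function.comp_apply, id, Pi.mul_apply]
    field_simp
    ring
  · have hz := hlt x ⟨hx.1.le, hx.2.le⟩
    have hYs : ((p : ℝ) + 1) * x ^ 2 / (1 - x ^ 2) ≤ 8 := by
      refine le_trans ?_ hY
      refine div_le_div₀ (by positivity) ?_ (by nlinarith [hs.1, hs.2]) ?_
      · nlinarith [mul_le_mul_of_nonneg_left (pow_le_pow_left₀ hx.1.le hx.2.le 2)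
          (show (0 : ℝ) ≤ (p : ℝ) + 1 by positivity)]
      · nlinarith [hx.1, hx.2]
    obtain ⟨Y, hY0, hYe⟩ : ∃ Y, 0 ≤ Y ∧ ((p : ℝ) + 1) * x ^ 2 / (1 - x ^ 2) = Y :=
      ⟨_, div_nonneg (by positivity) hz.le, rfl⟩
    rw [hYe] at hYs ⊢
    have hA : 0 ≤ arc x ^ (p + 1) := pow_nonneg (Real.sqrt_nonneg _) _
    obtain ⟨-, hS'⟩ := lowSer_pos hY0
    have h1 : 1 ≤ lowSer' Y * (2 * Y) + (lowSer Y - Y * lowSer Y) := by
      have e : lowSer' Y * (2 * Y) + (lowSer Y - Y * lowSer Y) - 1 =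
          Y ^ 10 * (8 - Y) / 8511477975 := by
        rw [lowSer, lowSer']; ring
      have : 0 ≤ Y ^ 10 * (8 - Y) / 8511477975 :=
        div_nonneg (mul_nonneg (by positivity) (by linarith)) (by norm_num)
      linarith
    have h2 : 2 * Y ≤ 2 * ((p : ℝ) + 1) * x / (1 - x ^ 2) ^ 2 * x := by
      rw [← hYe, show 2 * ((p : ℝ) + 1) * x / (1 - x ^ 2) ^ 2 * x =
        2 * (((p : ℝ) + 1) * x ^ 2 / (1 - x ^ 2)) * (1 / (1 - x ^ 2)) by field_simp]
      refine le_mul_of_one_le_right (mul_nonneg zero_le_two (hYe.symm ▸ hY0)) ?_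
      rw [le_div_iff₀ hz]
      nlinarith
    have h3 := mul_le_mul_of_nonneg_right
      ((mul_le_mul_of_nonneg_left h2 hS').trans' le_rfl) hA
    have h4 := mul_le_mul_of_nonneg_right h1 hA
    linarith

end Vale.Agent.P237.Petty.Cor.Tiny
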