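import Vale.Agent.P237.Petty.Cor.MillsUp
import Vale.Agent.P237.Petty.Cor.CutQuad

/-!
# P237: the states near the diagonal, in `u = 1 / r - 1` and `δ = (t - s) / s`

For small values the cut, the chord at the abscissa of the circle and the tail chord at it and
below it become inequalities with coefficients in `y = (p + 1) s ^ 2` and `z = s ^ 2`.
-/

namespace Vale.Agent.P237.Petty.Cor.Tiny

open MeasureTheory Set intervalIntegral
open Ident (half rate)
open Lift (circLow circHigh)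

variable {p : ℕ}

theorem sq_arc {s : ℝ} (hs : s ∈ Icc (0 : ℝ) 1) : arc s ^ 2 = 1 - s ^ 2 :=
  Real.sq_sqrt (by nlinarith [hs.1, hs.2])

/-- The cut, linear in `δ` up to the second order. -/
theorem cut_fact (hp : 1 ≤ p) {ell s t a r q v δ : ℝ} (h : FlatState p ell s t a r q)
    (h0 : 0 ≤ ell) (hv : 1 / r = v) (hδ : (t - s) / s = δ) :
    (v - 1) - (v - 1) ^ 2 / v ≤ ell + ((p : ℝ) + 1) * s ^ 2 / (1 - s ^ 2) * δ +
      |((p : ℝ) + 1) * s ^ 2 / (1 - s ^ 2) * δ| * (2 * ell / ((p : ℝ) + 1)) +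
      ((p : ℝ) + 1) * s ^ 2 / (1 - s ^ 2) * δ ^ 2 / 2 := by
  have hs := h.state.s_mem
  have hs0 := hs.1.ne'
  have hz : 0 < 1 - s ^ 2 := by nlinarith [hs.1, hs.2]
  have hm : (0 : ℝ) < (p : ℝ) + 1 := by positivity
  have hr := h.state.rate_pos
  have hc := h.cut_quad hp
  have e1 : potRate p s * (t - s) + ((p : ℝ) + 1) / (2 * (1 - s ^ 2)) * (t - s) ^ 2 =
      ((p : ℝ) + 1) * s ^ 2 / (1 - s ^ 2) * δ +
        ((p : ℝ) + 1) * s ^ 2 / (1 - s ^ 2) * δ ^ 2 / 2 := by
    rw [← hδ, potRate]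
    field_simp
  rw [e1] at hc
  set X := ((p : ℝ) + 1) * s ^ 2 / (1 - s ^ 2) * δ with hX
  set Q := ((p : ℝ) + 1) * s ^ 2 / (1 - s ^ 2) * δ ^ 2 / 2 with hQ
  have hQ0 : 0 ≤ Q := by rw [hQ]; positivity
  set x := 2 * ell / ((p : ℝ) + 1) with hx
  have hx0 : 0 ≤ x := by rw [hx]; positivity
  have hE : 1 ≤ Real.exp x := Real.one_le_exp hx0
  have he : Real.exp x * (1 - x) ≤ 1 := by
    have := mul_le_mul_of_nonneg_left (show 1 - x ≤ Real.exp (-x) by
      linarith [Real.add_one_le_exp (-x)]) (Real.exp_pos x).le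
    rwa [← Real.exp_add, add_neg_cancel, Real.exp_zero] at this
  have e2 : (v - 1) - (v - 1) ^ 2 / v = 1 - r := by
    rw [← hv]; field_simp; ring
  rw [e2]
  refine le_of_mul_le_mul_left ?_ (Real.exp_pos x)
  have h1 : ((p : ℝ) + 1) / 2 * (Real.exp x - 1) ≤ Real.exp x * ell := by
    have h2 : Real.exp x - 1 ≤ Real.exp x * x := by linarith
    refine (mul_le_mul_of_nonneg_left h2 (by positivity)).trans (le_of_eq ?_)
    rw [hx]; field_simp
  have h3 : X ≤ Real.exp x * (X + |X| * x) := by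
    rcases le_total 0 X with hX0 | hX0
    · have : 0 ≤ |X| * x := mul_nonneg (abs_nonneg _) hx0
      nlinarith
    · rw [abs_of_nonpos hX0]
      nlinarith [mul_le_mul_of_nonpos_left he hX0]
  have h4 : Q ≤ Real.exp x * Q := le_mul_of_one_le_left hQ0 hE
  linarith

/-- The tail chord at a base `u ≤ s` before `t`: `L` is any lower bound of the logarithm of the
circle at `u` over it at `s`. -/
theorem tail_fact {ell s t a r q v : ℝ} (h : FlatState p ell s t a r q) {u L : ℝ}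
    (hu : u ∈ Ico (0 : ℝ) t) (hv : 1 / r = v)
    (hL : L ≤ Real.log (arc u ^ (p + 1)) - Real.log (arc s ^ (p + 1))) :
    v * (L + Real.log v - ell) ≤
      (t - u) / s * (((((p : ℝ) + 3) * s ^ 2) + 1) / (1 - s ^ 2)) := by
  have hs := h.state.s_mem
  have hs' := hs.1
  have hz : 0 < 1 - s ^ 2 := by nlinarith [hs.1, hs.2]
  have hr := h.state.rate_pos
  have hcs := pow_pos h.state.arc_pos' (p + 1)
  have hvp : 0 < v := hv ▸ by positivity
  have ea : a ^ (p + 1) = arc s ^ (p + 1) / v := by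
    rw [← hv, h.state.rate_eq]
    field_simp
  have h1 := h.tailChord u hu
  rw [ea, Real.log_div hcs.ne' hvp.ne'] at h1
  have hd : 0 ≤ t - u := (sub_pos.2 hu.2).le
  rcases le_or_gt (L + Real.log v - ell) 0 with hn | hn
  · exact (mul_nonpos_of_nonneg_of_nonpos hvp.le hn).trans
      (mul_nonneg (div_nonneg hd hs.1.le) (div_nonneg (by positivity) hz.le))
  have hT := circHigh_ge_sq (p := p) (Ioo_subset_Icc_self hs)
  rw [show arc s ^ (p + 3) = arc s ^ (p + 1) * (1 - s ^ 2) by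
    rw [← sq_arc (Ioo_subset_Icc_self hs)]; ring] at hT
  have hden : 0 < ((p : ℝ) + 3) * s ^ 2 + 1 := by positivity
  have hT0 : 0 < arc s ^ (p + 1) * (1 - s ^ 2) * (s / (((p : ℝ) + 3) * s ^ 2 + 1)) :=
    mul_pos (mul_pos hcs hz) (div_pos hs.1 hden)
  have h2 := (mul_le_mul (show L + Real.log v - ell ≤ Real.log (arc u ^ (p + 1)) - ell -
    (Real.log (arc s ^ (p + 1)) - Real.log v) by linarith) hT hT0.le (by linarith)).trans h1
  refine le_of_mul_le_mul_left ?_ (div_pos hT0 hvp)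
  refine le_trans (le_of_eq ?_) (h2.trans (le_of_eq ?_))
  · field_simp
  · field_simp

/-- A lower bound of the logarithm of the circle at a fraction of `s` over it at `s`. -/
theorem log_ratio_ge {s c : ℝ} (hs : s ∈ Ioo (0 : ℝ) 1) (hc : c ∈ Icc (0 : ℝ) 1) :
    ((p : ℝ) + 1) * s ^ 2 * (1 - c ^ 2) / (2 - (1 + c ^ 2) * s ^ 2) ≤
      Real.log (arc (c * s) ^ (p + 1)) - Real.log (arc s ^ (p + 1)) := by
  have hz : 0 < 1 - s ^ 2 := by nlinarith [hs.1, hs.2]
  have hc1 : c ^ 2 ≤ 1 := pow_le_one₀ hc.1 hc.2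
  have hw : 0 < 1 - (c * s) ^ 2 := by nlinarith [mul_le_mul_of_nonneg_right hc1 (sq_nonneg s)]
  rw [Real.log_pow, Real.log_pow, arc, arc, Real.log_sqrt hw.le, Real.log_sqrt hz.le]
  have hx : 1 ≤ (1 - (c * s) ^ 2) / (1 - s ^ 2) := by
    rw [le_div_iff₀ hz]; nlinarith [mul_le_mul_of_nonneg_right hc1 (sq_nonneg s)]
  have h := pade_le_log (show 0 < (1 - (c * s) ^ 2) / (1 - s ^ 2) by linarith)
  rw [Real.log_div hw.ne' hz.ne'] at h
  set x := (1 - (c * s) ^ 2) / (1 - s ^ 2) with hx'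
  have h2 : 2 * ((x - 1) / (x + 1)) ≤ (x - 1) * (1 + 5 * x) / (x * (4 + 2 * x)) := by
    rw [← mul_div_assoc, div_le_div_iff₀ (by linarith) (by nlinarith)]
    nlinarith [mul_nonneg (sub_nonneg.2 hx) (sq_nonneg (x - 1))]
  have e : ((p : ℝ) + 1) * s ^ 2 * (1 - c ^ 2) / (2 - (1 + c ^ 2) * s ^ 2) =
      ((p : ℝ) + 1) / 2 * (2 * ((x - 1) / (x + 1))) := by
    have h3 : 0 < 2 - (1 + c ^ 2) * s ^ 2 := by nlinarith
    rw [hx']
    field_simp
    ring
  rw [e]
  push_cast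
  have := mul_le_mul_of_nonneg_left (h2.trans h)
    (show 0 ≤ ((p : ℝ) + 1) / 2 by positivity)
  linarith

/-- The chord at the abscissa of the circle: `δ` from above. -/
theorem box_hi {ell s t a r q v δ H : ℝ} (h : FlatState p ell s t a r q) (h0 : 0 ≤ ell)
    (hv : 1 / r = v) (hδ : (t - s) / s = δ) (hd : 0 < δ)
    (hH : circLow p s ≤ H * (s * arc s ^ (p + 1))) :
    δ ≤ ell * Real.exp (ell / 2) * H * √v := by
  have hs := h.state.s_mem
  have hs0 := hs.1
  have hr := h.state.rate_pos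
  have hcs := pow_pos h.state.arc_pos' (p + 1)
  have hvp : 0 < v := hv ▸ by positivity
  have ht : s < t := by
    have := (lt_div_iff₀ hs.1).1 (hδ ▸ hd); linarith
  have ea : a ^ (p + 1) = arc s ^ (p + 1) / v := by
    rw [← hv, h.state.rate_eq]
    field_simp
  have h1 := h.chord_geo (u := s) ⟨hs.1.le, ht⟩
  rw [ea, Real.log_div hcs.ne' hvp.ne', show (Real.log (arc s ^ (p + 1)) - ell -
    (Real.log (arc s ^ (p + 1)) - Real.log v)) / 2 = Real.log v / 2 + -(ell / 2) by ring,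
    Real.exp_add, Real.exp_half, Real.exp_log hvp, Real.exp_neg] at h1
  have h2 : circLow p s - Real.exp (-ell) * circLow p s ≤ ell * (H * (s * arc s ^ (p + 1))) := by
    rw [← one_sub_mul]
    exact mul_le_mul (by linarith [Real.add_one_le_exp (-ell)]) hH
      (intervalIntegral.integral_nonneg hs.1.le fun v _ => pow_nonneg (Real.sqrt_nonneg _) _) h0
  have h3 := h1.trans (show circLow p s - Real.exp (-ell) * circLow p s ≤ _ from h2)
  rw [← hδ, div_le_iff₀ hs.1]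
  have hsv : √v * √v = v := Real.mul_self_sqrt hvp.le
  refine le_of_mul_le_mul_left ?_ (mul_pos hcs (inv_pos.2 (mul_pos (Real.sqrt_pos.2 hvp)
    (Real.exp_pos (ell / 2)))))
  refine le_trans (le_of_eq ?_) (h3.trans (le_of_eq ?_))
  · field_simp
    linear_combination -(t - s) * hsv
  · field_simp

/-- The pinned box: `δ` from below. -/
theorem box_lo {ell s t a r q δ : ℝ} (h : FlatState p ell s t a r q) (h0 : 0 ≤ ell)
    (hell : ell ≤ 1 / ((p : ℝ) + 2)) (hδ : (t - s) / s = δ) :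
    -(((p : ℝ) + 1) * s ^ 2 * δ) ≤ ell * (1 - s ^ 2) *
      ((((p : ℝ) + 4) * s ^ 2 + 2) / (((p : ℝ) + 3) * s ^ 2 + 3)) := by
  have hs := h.state.s_mem
  have hs0 := hs.1
  have hcs := pow_pos h.state.arc_pos' (p + 1)
  have hz : 0 < 1 - s ^ 2 := by nlinarith [hs.1, hs.2]
  have hm : (0 : ℝ) < (p : ℝ) + 1 := by positivity
  have hd : 0 < ((p : ℝ) + 3) * s ^ 2 + 3 := by positivity
  have hk : (Real.exp ell - 1) * ((p : ℝ) + 1) ≤ ell * ((p : ℝ) + 3) := by
    have he : Real.exp ell * (1 - ell) ≤ 1 := by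
      have := mul_le_mul_of_nonneg_left (show 1 - ell ≤ Real.exp (-ell) by
        linarith [Real.add_one_le_exp (-ell)]) (Real.exp_pos ell).le
      rwa [← Real.exp_add, add_neg_cancel, Real.exp_zero] at this
    rw [le_div_iff₀ (by positivity)] at hell
    have hb : 0 < 1 - ell := by nlinarith
    refine le_of_mul_le_mul_left ?_ hb
    have h5 : (1 - ell) * (Real.exp ell - 1) ≤ ell := by linarith
    have h6 := mul_le_mul_of_nonneg_right h5 hm.le
    nlinarith
  have h1 := h.disp_ge h0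
  have h2 := circHigh_le (p := p) (s := s) ⟨hs.1, hs.2.le⟩
  rw [show arc s ^ (p + 3) = arc s ^ (p + 1) * (1 - s ^ 2) by
    rw [← sq_arc (Ioo_subset_Icc_self hs)]; ring] at h2
  have h3 := h1.trans (mul_le_mul_of_nonneg_left h2 (sub_nonneg.2 (Real.one_le_exp h0)))
  have ed : s - t = -(s * δ) := by rw [← hδ]; field_simp; ring
  rw [ed] at h3
  have h4 := mul_le_mul_of_nonneg_right h3 (show 0 ≤ ((p : ℝ) + 3) * s by positivity)
  have h7 := mul_le_mul_of_nonneg_right hk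
    (show 0 ≤ arc s ^ (p + 1) * (1 - s ^ 2) *
      ((((p : ℝ) + 4) * s ^ 2 + 2) / (((p : ℝ) + 3) * s ^ 2 + 3)) by positivity)
  refine le_of_mul_le_mul_left ?_ (mul_pos hcs (show (0 : ℝ) < (p : ℝ) + 3 by positivity))
  have e1 : (Real.exp ell - 1) * (arc s ^ (p + 1) * (1 - s ^ 2) *
      ((((p : ℝ) + 4) * s ^ 2 + 2) / (((p : ℝ) + 3) * s * (((p : ℝ) + 3) * s ^ 2 + 3)))) *
        (((p : ℝ) + 3) * s) =
      (Real.exp ell - 1) * (arc s ^ (p + 1) * (1 - s ^ 2) *
        ((((p : ℝ) + 4) * s ^ 2 + 2) / (((p : ℝ) + 3) * s ^ 2 + 3))) := by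
    field_simp
  rw [e1] at h4
  have h8 := mul_le_mul_of_nonneg_right h4 hm.le
  linarith

end Vale.Agent.P237.Petty.Cor.Tiny
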