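import Vale.Agent.P237.Petty.Cor.Tiny.SoundPlan
import Vale.Agent.P237.Petty.Cor.Tiny.Data.D01
import Vale.Agent.P237.Petty.Cor.Tiny.Data.D02
import Vale.Agent.P237.Petty.Cor.Tiny.Data.D03
import Vale.Agent.P237.Petty.Cor.Tiny.Data.D04
import Vale.Agent.P237.Petty.Cor.Tiny.Data.D05
import Vale.Agent.P237.Petty.Cor.Tiny.Data.D06
import Vale.Agent.P237.Petty.Cor.Tiny.Data.D07
import Vale.Agent.P237.Petty.Cor.Tiny.Data.D08
import Vale.Agent.P237.Petty.Cor.Tiny.Data.D09
import Vale.Agent.P237.Petty.Cor.Tiny.Data.D10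
import Vale.Agent.P237.Petty.Cor.Tiny.Data.D11
import Vale.Agent.P237.Petty.Cor.Tiny.Data.D12
import Vale.Agent.P237.Petty.Cor.Tiny.Data.D13
import Vale.Agent.P237.Petty.Cor.Tiny.Data.D14
import Vale.Agent.P237.Petty.Cor.Tiny.Data.D15
import Vale.Agent.P237.Petty.Cor.Tiny.Data.D16
import Vale.Agent.P237.Petty.Cor.Tiny.Data.D17
import Vale.Agent.P237.Petty.Cor.Tiny.Data.D18
import Vale.Agent.P237.Petty.Cor.Tiny.Data.D19
import Vale.Agent.P237.Petty.Cor.Tiny.Data.D20
import Vale.Agent.P237.Petty.Cor.Tiny.Data.D21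

/-!
# P237: the tiny cell up to `y = 45`
-/

namespace Vale.Agent.P237.Petty.Cor.Tiny

variable {a b c : ℚ}

/-- The cell is nonnegative for `y` in a range. -/
def Band (a b : ℚ) : Prop :=
  ∀ (p : ℕ) (s w v U D : ℝ), 198 ≤ p → Hat p s w v U D → (a : ℝ) ≤ ((p : ℝ) + 1) * s ^ 2 →
    ((p : ℝ) + 1) * s ^ 2 ≤ (b : ℝ) → 0 ≤ cellT p s w v U D

/-- A checked plan gives a range. -/
theorem band_of_check {P : Plan} (h : P.check ⟨⟨a, b⟩, ⟨0, 1 / 199⟩⟩ = true) : Band a b := by
  intro p s w v U D hp S h1 h2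
  refine Plan.sound hp P _ h ⟨⟨h1, h2⟩, ⟨?_, ?_⟩⟩ S
  · push_cast
    positivity
  · push_cast
    have : (198 : ℝ) ≤ p := by exact_mod_cast hp
    exact one_div_le_one_div_of_le (by norm_num) (by linarith)

theorem Band.trans (h1 : Band a b) (h2 : Band b c) : Band a c := fun p s w v U D hp S ha hc =>
  (le_total (((p : ℝ) + 1) * s ^ 2) (b : ℝ)).elim (fun h => h1 p s w v U D hp S ha h)
    fun h => h2 p s w v U D hp S h hc

theorem band_bulk : Band 0 45 :=
  (band_of_check Data.plan17_ok) |>.trans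
    (band_of_check Data.plan18_ok) |>.trans
    (band_of_check Data.plan19_ok) |>.trans
    (band_of_check Data.plan20_ok) |>.trans
    (band_of_check Data.plan21_ok) |>.trans
    (band_of_check Data.plan22_ok) |>.trans
    (band_of_check Data.plan23_ok) |>.trans
    (band_of_check Data.plan24_ok) |>.trans
    (band_of_check Data.plan25_ok) |>.trans
    (band_of_check Data.plan26_ok) |>.trans
    (band_of_check Data.plan27_ok) |>.trans
    (band_of_check Data.plan1_ok) |>.trans
    (band_of_check Data.plan2_ok) |>.trans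
    (band_of_check Data.plan3_ok) |>.trans
    (band_of_check Data.plan4_ok) |>.trans
    (band_of_check Data.plan5_ok) |>.trans
    (band_of_check Data.plan6_ok) |>.trans
    (band_of_check Data.plan7_ok) |>.trans
    (band_of_check Data.plan8_ok) |>.trans
    (band_of_check Data.plan9_ok) |>.trans
    (band_of_check Data.plan10_ok) |>.trans
    (band_of_check Data.plan11_ok) |>.trans
    (band_of_check Data.plan12_ok) |>.trans
    (band_of_check Data.plan28_ok) |>.trans
    (band_of_check Data.plan29_ok) |>.trans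
    (band_of_check Data.plan30_ok) |>.trans
    (band_of_check Data.plan31_ok) |>.trans
    (band_of_check Data.plan32_ok) |>.trans
    (band_of_check Data.plan33_ok) |>.trans
    (band_of_check Data.plan15_ok) |>.trans
    (band_of_check Data.plan13_ok) |>.trans
    (band_of_check Data.plan14_ok) |>.trans
    (band_of_check Data.plan16_ok) |>.trans
    (band_of_check Data.plan34_ok) |>.trans
    (band_of_check Data.plan35_ok)

end Vale.Agent.P237.Petty.Cor.Tiny
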