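import Mathlib.Analysis.SpecialFunctions.Log.Basic
import Mathlib.Tactic.Linarith

/-!
# P237: the scalar inequalities behind the leaves of the tiny cell
-/

namespace Vale.Agent.P237.Petty.Cor.Tiny

/-- A symmetric form in three variables from its leading minors. -/
theorem form_nonneg {a b c d x f w u v : ℝ} (hd : 0 < d) (hm : 0 < d * f - x ^ 2)
    (hdet : 0 ≤ a * (d * f - x ^ 2) - (f * b ^ 2 - 2 * x * b * c + d * c ^ 2)) :
    0 ≤ a * w ^ 2 + 2 * b * (w * u) + 2 * c * (w * v) + d * u ^ 2 + 2 * x * (u * v) +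
      f * v ^ 2 := by
  refine (mul_nonneg_iff_of_pos_left (mul_pos hd hm)).1 ?_
  refine le_of_le_of_eq (add_nonneg (add_nonneg
    (mul_nonneg hm.le (sq_nonneg (d * u + x * v + b * w)))
    (sq_nonneg ((d * f - x ^ 2) * v + (d * c - x * b) * w)))
    (mul_nonneg (mul_nonneg hd.le hdet) (sq_nonneg w))) ?_
  ring

/-- A product of two variables with a coefficient near a middle value. -/
theorem near_mul_ge {x m r a b : ℝ} (h : |x - m| ≤ r) :
    2 * m * (a * b) - r * (a ^ 2 + b ^ 2) ≤ 2 * x * (a * b) := by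
  obtain ⟨h1, h2⟩ := abs_le.1 h
  rcases le_total 0 (a * b) with hab | hab
  · nlinarith [mul_nonneg (show 0 ≤ x - m + r by linarith) hab,
      mul_nonneg (show 0 ≤ r by linarith) (sq_nonneg (a - b))]
  · nlinarith [mul_nonneg_of_nonpos_of_nonpos (show x - m - r ≤ 0 by linarith) hab,
      mul_nonneg (show 0 ≤ r by linarith) (sq_nonneg (a + b))]

/-- The quadratic coefficient in `u` on `v ≤ V`. -/
theorem quad_low {a AV A k l v V : ℝ} (hv : 0 < v) (hV : v ≤ V) (hA : AV ≤ A)
    (hk : k ≤ AV) (hl : 0 ≤ l) (ha : a = (AV - k) / V + l / (V + 1)) :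
    a ≤ (A - k) / v + l / (v + 1) := by
  rw [ha]
  exact add_le_add (div_le_div₀ (by linarith) (by linarith) hv hV)
    (div_le_div_of_nonneg_left hl (by linarith) (by linarith))

/-- `v log v` from below, with twice the reciprocal of `v + 1`. -/
theorem mul_log_ge {v : ℝ} (hv : 1 ≤ v) :
    (v - 1) + (v - 1) ^ 2 / (v + 1) ≤ v * Real.log v := by
  have h : 2 * (v - 1) / (v + 1) ≤ Real.log v := by
    have h2 := Real.le_log_one_add_of_nonneg (sub_nonneg.2 hv)
    rwa [show v - 1 + 2 = v + 1 by ring, show (1 : ℝ) + (v - 1) = v by ring] at h2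
  refine le_trans (le_of_eq ?_) (mul_le_mul_of_nonneg_left h (show 0 ≤ v by linarith))
  have : v + 1 ≠ 0 := by linarith
  field_simp
  ring

end Vale.Agent.P237.Petty.Cor.Tiny
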