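import Vale.Agent.P237.Petty.Cor.Bridge
import Vale.Agent.P237.Petty.Tail.Basic

/-!
# P237: the cell for values below a constant over the dimension

The multipliers are stationary up to the factor `191 / 200`: with `G = 191 / 200` the potential
`-G (b0 / arc s + phi wS)` cancels the first order where the switch `phi` is one, and an even
polynomial times `ell` shapes the second order. In `δ = (t - s) / s` all coefficients are functions
of `y = (p + 1) s ^ 2` and `z = s ^ 2`.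
-/

namespace Vale.Agent.P237.Petty.Cor.Tiny

open Set
open Ident (half rate)
open Tail (sqp sqp' hasDerivAt_sqp)

variable {p : ℕ}

/-- The multiplier of the shadow. -/
noncomputable def gamT (p : ℕ) : ℝ := 191 / 200 * ((p : ℝ) + 1)

/-- The multiplier of the Fisher excess. -/
noncomputable def nuT (p : ℕ) : ℝ :=
  191 / 200 * (sqCoef p / ((p : ℝ) + 4)) - Ident.muMin p / 2

/-- The switch: one up to `y = 3 / 2`, one twentieth from `y = 18` on. -/
noncomputable def phiT (y : ℝ) : ℝ :=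
  1 / 20 + 19 / 20 * sqp (1 - (y - 3 / 2) / (33 / 2) * sqp ((y - 3 / 2) / (33 / 2)))

/-- Its derivative. -/
noncomputable def phiT' (y : ℝ) : ℝ :=
  19 / 20 * (sqp' (1 - (y - 3 / 2) / (33 / 2) * sqp ((y - 3 / 2) / (33 / 2))) *
    -((sqp ((y - 3 / 2) / (33 / 2)) + (y - 3 / 2) / (33 / 2) * sqp' ((y - 3 / 2) / (33 / 2))) /
      (33 / 2)))

/-- The part of the potential proportional to the value. -/
noncomputable def kapT (y : ℝ) : ℝ :=
  (9 / 100 - 9 / 100 * y + 13 / 200 * y ^ 2) * sqp (1 - y / 16)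

/-- Its derivative. -/
noncomputable def kapT' (y : ℝ) : ℝ :=
  (-(9 / 100) + 13 / 100 * y) * sqp (1 - y / 16) -
    (9 / 100 - 9 / 100 * y + 13 / 200 * y ^ 2) * sqp' (1 - y / 16) / 16

theorem hasDerivAt_phiT (y : ℝ) : HasDerivAt phiT (phiT' y) y := by
  have h0 : HasDerivAt (fun x : ℝ => (x - 3 / 2) / (33 / 2)) (1 / (33 / 2)) y := by
    simpa using ((hasDerivAt_id y).sub_const (3 / 2)).div_const (33 / 2)
  refine ((((hasDerivAt_sqp _).comp y
    ((h0.mul ((hasDerivAt_sqp _).comp y h0)).const_sub 1)).const_mul (19 / 20)).const_add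
      (1 / 20)).congr_deriv ?_
  simp only [phiT', Function.comp_apply, Pi.mul_apply]
  ring

theorem hasDerivAt_kapT (y : ℝ) : HasDerivAt kapT (kapT' y) y := by
  have h0 : HasDerivAt (fun x : ℝ => 1 - x / 16) (-(1 / 16)) y := by
    simpa using ((hasDerivAt_id y).div_const 16).const_sub 1
  refine (((((hasDerivAt_id y).const_mul (9 / 100)).const_sub (9 / 100)).add
    ((hasDerivAt_pow 2 y).const_mul (13 / 200))).mul ((hasDerivAt_sqp _).comp y h0)).congr_deriv ?_
  simp only [kapT', Function.comp_apply, Pi.add_apply, id]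
  push_cast
  ring

/-- The derivative of the weight in the abscissa, times the abscissa. -/
noncomputable def slopeW (p : ℕ) (s : ℝ) : ℝ :=
  sqCoef p * (2 * s ^ 2) * (Ident.b0 p ^ 3 / arc s ^ 3 - 1)

/-- The linear coefficient of the potential. -/
noncomputable def potK (p : ℕ) (ell s : ℝ) : ℝ :=
  -(191 / 200) * (Ident.b0 p / arc s + phiT (((p : ℝ) + 1) * s ^ 2) * wS p (arc s)) +
    8 * ell * kapT (((p : ℝ) + 1) * s ^ 2)

/-- Its derivative. -/
noncomputable def potK' (p : ℕ) (ell s : ℝ) : ℝ :=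
  -(191 / 200) * (Ident.b0 p * s / arc s ^ 3 +
      (phiT' (((p : ℝ) + 1) * s ^ 2) * (((p : ℝ) + 1) * (2 * s)) * wS p (arc s) +
        phiT (((p : ℝ) + 1) * s ^ 2) * (slopeW p s / s))) +
    8 * ell * (kapT' (((p : ℝ) + 1) * s ^ 2) * (((p : ℝ) + 1) * (2 * s)))

/-- The quadratic coefficient of the potential. -/
noncomputable def potB (p : ℕ) (s : ℝ) : ℝ :=
  -(4 / 25) * (1 - s ^ 2) / s - 11 / 200 * ((p : ℝ) + 1) * s

/-- Its derivative. -/
noncomputable def potB' (p : ℕ) (s : ℝ) : ℝ :=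
  4 / 25 * (1 + 1 / s ^ 2) - 11 / 200 * ((p : ℝ) + 1)

theorem hasDerivAt_potK (p : ℕ) (ell : ℝ) {s : ℝ} (hs : s ∈ Ioo (0 : ℝ) 1) :
    HasDerivAt (potK p ell) (potK' p ell s) s := by
  have hc : 0 < arc s := arc_pos ⟨by linarith [hs.1], hs.2⟩
  have hc2 : arc s ^ 2 = 1 - s ^ 2 := Real.sq_sqrt (by nlinarith [hs.1, hs.2])
  have harc : HasDerivAt arc (-s / arc s) s := by
    have h := ((hasDerivAt_pow 2 s).const_sub 1).sqrt (by nlinarith [hs.1, hs.2])
    refine h.congr_deriv ?_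
    rw [show √(1 - s ^ 2) = arc s from rfl]
    field_simp
    push_cast
    ring
  have hy : HasDerivAt (fun x : ℝ => ((p : ℝ) + 1) * x ^ 2) (((p : ℝ) + 1) * (2 * s)) s := by
    refine ((hasDerivAt_pow 2 s).const_mul ((p : ℝ) + 1)).congr_deriv ?_
    push_cast
    ring
  have hW : HasDerivAt (fun x => wS p (arc x)) (slopeW p s / s) s := by
    refine (((((harc.sub_const (Ident.b0 p)).pow 2).const_mul (sqCoef p)).mul
      (harc.add_const (2 * Ident.b0 p))).div harc hc.ne').congr_deriv ?_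
    simp only [Pi.mul_apply, Pi.pow_apply]
    have hs0 := hs.1.ne'
    rw [slopeW]
    field_simp
    push_cast
    ring
  refine (((((hasDerivAt_const s (Ident.b0 p)).div harc hc.ne').add
    (((hasDerivAt_phiT _).comp s hy).mul hW)).const_mul (-(191 / 200 : ℝ))).add
      (((hasDerivAt_kapT _).comp s hy).const_mul (8 * ell))).congr_deriv ?_
  have hs0 := hs.1.ne'
  simp only [potK', Function.comp_apply]
  field_simp
  ring

theorem hasDerivAt_potB (p : ℕ) {s : ℝ} (hs : s ∈ Ioo (0 : ℝ) 1) :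
    HasDerivAt (potB p) (potB' p s) s := by
  have h0 := hs.1.ne'
  refine (((((hasDerivAt_pow 2 s).const_sub 1).const_mul (-(4 / 25 : ℝ))).div (hasDerivAt_id s)
    h0).sub ((hasDerivAt_id s).const_mul (11 / 200 * ((p : ℝ) + 1)))).congr_deriv ?_
  simp only [potB', id]
  field_simp
  push_cast
  ring

theorem nuT_nonneg (hp : 198 ≤ p) : 0 ≤ nuT p := by
  have h : (198 : ℝ) ≤ p := by exact_mod_cast hp
  have h1 := (nuS_bounds (p := p) (by omega)).1
  have h2 := (b0_sq_bounds p).1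
  have hb := Ident.b0_pos p
  have e : nuT p = nuS p - 9 / 200 * (sqCoef p / ((p : ℝ) + 4)) := by
    rw [nuT, nuS, sqCoef]
    field_simp
    ring
  have h3 : sqCoef p / ((p : ℝ) + 4) ≤ 1 / 2 := by
    rw [div_le_iff₀ (by positivity)] at h2
    rw [sqCoef, div_div, div_le_iff₀ (by positivity)]
    nlinarith [mul_le_mul_of_nonneg_left h2 (show (0 : ℝ) ≤ p by positivity)]
  have h4 : 2 / ((p : ℝ) + 1) ≤ 2 / 199 := by gcongr; linarith
  rw [e]
  linarith

/-- The coefficient of `δ`. -/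
noncomputable def linD (p : ℕ) (ell s : ℝ) : ℝ :=
  191 / 200 * ((1 - phiT (((p : ℝ) + 1) * s ^ 2)) * slopeW p s -
      2 * (((p : ℝ) + 1) * s ^ 2) * phiT' (((p : ℝ) + 1) * s ^ 2) * wS p (arc s) +
      phiT (((p : ℝ) + 1) * s ^ 2) * wS p (arc s) * (((p : ℝ) + 1) * s ^ 2 / (1 - s ^ 2))) +
    8 * ell * (2 * (((p : ℝ) + 1) * s ^ 2) * kapT' (((p : ℝ) + 1) * s ^ 2) -
      kapT (((p : ℝ) + 1) * s ^ 2) * (((p : ℝ) + 1) * s ^ 2 / (1 - s ^ 2)))

/-- The coefficient of `u`. -/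
noncomputable def linU (p : ℕ) (ell s : ℝ) : ℝ :=
  -(191 / 200) * (phiT (((p : ℝ) + 1) * s ^ 2) * wS p (arc s)) +
    8 * ell * kapT (((p : ℝ) + 1) * s ^ 2)

/-- The coefficient of `u ^ 2 / v`, the part of `δ` over `v` absorbed. -/
noncomputable def quadA (p : ℕ) (s v : ℝ) : ℝ :=
  34 / 5 * nuT p * (1 - s ^ 2) - 833 / 600 * nuT p * s ^ 2 -
    191 / 200 * (Ident.b0 p / arc s) * ((2 * v + 1) / (2 * (v + 2)))

/-- The coefficient of `δ ^ 2`. -/
noncomputable def quadB (p : ℕ) (s : ℝ) : ℝ :=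
  4 / 25 * (1 + s ^ 2) - 11 / 200 * (((p : ℝ) + 1) * s ^ 2) + 4 / 25 * (((p : ℝ) + 1) * s ^ 2) +
    11 / 200 * (((p : ℝ) + 1) * s ^ 2) ^ 2 / (1 - s ^ 2) -
    144 / 25 * nuT p * (((p : ℝ) + 4) * s ^ 2)

/-- Half the coefficient of `u δ`, negated. -/
noncomputable def quadC (p : ℕ) (s : ℝ) : ℝ :=
  4 / 25 * (1 - s ^ 2) + 11 / 200 * (((p : ℝ) + 1) * s ^ 2)

/-- The cancelled cell is at least a quadratic in `u` and `δ` with coefficients in `v`. -/
theorem base_le (hp : 198 ≤ p) {ell top s t a r q : ℝ} (h : FlatState p top s t a r q) :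
    ell * wS p (arc s) + linU p ell s * (1 / r - 1) + linD p ell s * ((t - s) / s) +
        quadA p s (1 / r) * ((1 / r - 1) ^ 2 / (1 / r)) + quadB p s * ((t - s) / s) ^ 2 -
        2 * quadC p s * ((1 / r - 1) * ((t - s) / s)) ≤
      cancelExpr p (gamT p) (nuT p) ell (fun s t => s + 12 / 5 * (s - t))
        (fun _ _ => 1 + 12 / 5) (fun _ _ => -(12 / 5)) (quadPot (potK p ell) (potB p))
        (quadPotS (potK p ell) (potK' p ell) (potB p) (potB' p))
        (quadPotT (potK p ell) (potB p)) s t a r := by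
  refine le_trans ?_ (cancelExpr_quad_ge (by rw [gamT]; positivity) (potK p ell) (potK' p ell)
    (potB p) (potB' p) h)
  have hs := h.state.s_mem.1
  have hs1 := h.state.s_mem.2
  have hc := h.state.arc_pos'
  have hnu := nuT_nonneg hp
  have hc0 : 1 - s ^ 2 ≠ 0 := by nlinarith
  have hc2 : arc s ^ 2 = 1 - s ^ 2 := Real.sq_sqrt (by nlinarith)
  have hb := (Ident.b0_pos p).ne'
  have hm : ((p : ℝ) + 1) ≠ 0 := by positivity
  have h4 : ((p : ℝ) + 4) ≠ 0 := by positivity
  obtain ⟨v, hv, hve⟩ : ∃ v, 0 < v ∧ 1 / r = v :=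
    ⟨1 / r, by have := h.state.rate_pos; positivity, rfl⟩
  obtain ⟨δ, hδ⟩ : ∃ δ, (t - s) / s = δ := ⟨_, rfl⟩
  have hd : t - s = s * δ := by rw [← hδ]; field_simp
  rw [hve, hδ, hd]
  have eU : cancelU p (gamT p) (potK p ell) s = linU p ell s := by
    rw [cancelU, potK, linU, gamT]
    field_simp
    ring
  have e2 : sqCoef p + ((p : ℝ) + 4) * (nuT p - nuS p) = 191 / 200 * sqCoef p := by
    rw [nuT, nuS, sqCoef]
    field_simp
    ring
  have eD : cancelD p (nuT p) (potK p ell) (potK' p ell) s * (s * δ) = linD p ell s * δ := by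
    rw [← mul_assoc]
    congr 1
    rw [cancelD, e2, potK, potK', linD, slopeW, potRate, ← hc2, sqCoef]
    field_simp
    ring
  have eA : cancelUU p (gamT p) (nuT p) (12 / 5) s v = quadA p s v + 833 / 600 * nuT p * s ^ 2 := by
    rw [cancelUU, quadA, gamT]
    field_simp
    ring
  have eB : cancelDD p (nuT p) (12 / 5) (potB p) (potB' p) s v * (s * δ) ^ 2 =
      quadB p s * δ ^ 2 + 408 / 25 * nuT p * s ^ 2 / v * δ ^ 2 := by
    rw [cancelDD, potB, potB', potRate, quadB]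
    field_simp
    ring
  have eC : cancelUD (nuT p) (12 / 5) (potB p) s v * ((v - 1) * (s * δ)) =
      -2 * quadC p s * ((v - 1) * δ) - 238 / 25 * nuT p * s ^ 2 / v * ((v - 1) * δ) := by
    rw [cancelUD, potB, quadC]
    field_simp
    ring
  rw [eU, eD, eA, eB, eC]
  have hsq : 0 ≤ nuT p * s ^ 2 / v * (408 / 25 * (δ - 7 / 24 * (v - 1)) ^ 2) := by positivity
  have e5 : nuT p * s ^ 2 / v * (408 / 25 * (δ - 7 / 24 * (v - 1)) ^ 2) =
      833 / 600 * nuT p * s ^ 2 * ((v - 1) ^ 2 / v) + 408 / 25 * nuT p * s ^ 2 / v * δ ^ 2 -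
        238 / 25 * nuT p * s ^ 2 / v * ((v - 1) * δ) := by
    field_simp
    ring
  linarith

end Vale.Agent.P237.Petty.Cor.Tiny
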