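import Vale.Agent.P237.Petty.Cor.Tiny.Iv
import Vale.Agent.P237.Petty.Cor.Tiny.Setup
import Vale.Agent.P237.Petty.Cor.Top.Bounds

/-!
# P237: enclosures of the coefficients of the tiny cell on a box in `y` and `e = 1 / (p + 1)`

The weight and its slope are divided by `e`. With the value `ell = e w`, `u = e U` and `δ = e D`
every term of the cell is then of the second order in `(w, U, D)`.
-/

namespace Vale.Agent.P237.Petty.Cor.Tiny

open Set
open Tail (sqp sqp')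

variable {p : ℕ}

/-- A box in `y = (p + 1) s ^ 2` and `e = 1 / (p + 1)`. -/
structure Box where
  y : Iv
  e : Iv

namespace Box

variable (b : Box)

/-- `s ^ 2`. -/
def z : Iv := b.y.mul b.e

/-- `1 - s ^ 2`. -/
def c2 : Iv := (Iv.pt 1).sub b.z

/-- The square root of `1 - s ^ 2`. -/
def cc : Iv := ⟨1 - b.z.hi / 2 - b.z.hi ^ 2 / 2, 1 - b.z.lo / 2 - b.z.lo ^ 2 / 8⟩

/-- The ratio of the half circles. -/
def bb : Iv := ⟨1 - b.e.hi / 2, 1 - 1 / 2 * b.e.lo * (1 - 2 * b.e.hi)⟩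

/-- Its reciprocal square. -/
def ib2 : Iv := ⟨1 + b.e.lo * (1 - b.e.hi), 1 + b.e.hi⟩

/-- `(p + 1) (1 - b0 ^ 2)`. -/
def beta : Iv := ⟨1 / (1 + 2 * b.e.hi), 2 / (2 + 3 * b.e.lo)⟩

/-- The weight over `e`. -/
def wh : Iv :=
  ((((((Iv.pt 1).sub b.e).mul b.ib2).scale (1 / 2)).mul (b.beta.sub b.y).sq).mul
    (b.cc.add (b.bb.scale 2))).mul (b.cc.inv.mul (b.cc.add b.bb).inv.sq)

/-- The slope of the weight over `e`. -/
def sh : Iv :=
  ((((((Iv.pt 1).sub b.e).mul b.ib2).mul b.y).mul (b.y.sub b.beta)).mul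
    ((b.bb.sq.add (b.bb.mul b.cc)).add b.cc.sq)).mul
      ((b.cc.add b.bb).inv.mul (b.cc.inv.mul b.cc.sq.inv))

/-- The place in the switch. -/
def sg : Iv := ⟨max 0 (min 1 ((b.y.lo - 3 / 2) / (33 / 2))), max 0 (min 1 ((b.y.hi - 3 / 2) / (33 / 2)))⟩

/-- One minus the cube of the place. -/
def sc : Iv := (Iv.pt 1).sub (b.sg.mul b.sg.sq)

/-- The switch. -/
def phi : Iv := (Iv.pt (1 / 20)).add (b.sc.sq.scale (19 / 20))

/-- Its derivative. -/
def dphi : Iv := (b.sg.sq.mul b.sc).scale (-(19 / 55))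

/-- The cutoff of the second multiplier. -/
def qq : Iv := ⟨max 0 (1 - b.y.hi / 16), max 0 (1 - b.y.lo / 16)⟩

/-- Its quadratic factor. -/
def pk : Iv := ((b.y.sub (Iv.pt (9 / 13))).sq.scale (13 / 200)).add (Iv.pt (153 / 2600))

/-- The second multiplier. -/
def kap : Iv := b.pk.mul b.qq.sq

/-- Its derivative. -/
def dkap : Iv :=
  (((b.y.scale (13 / 100)).sub (Iv.pt (9 / 100))).mul b.qq.sq).sub ((b.pk.mul b.qq).scale (1 / 8))

/-- The multiplier of the Fisher excess. -/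
def nu : Iv :=
  ((((Iv.pt 1).sub b.e).mul ((Iv.pt 1).add (b.e.scale 3)).inv).mul b.ib2).scale (191 / 400)
    |>.sub ((⟨3 / 4 - 288 / 100 * b.e.hi, 3 / 4 - 258 / 100 * b.e.lo⟩ : Iv).scale (1 / 2))

/-- The coefficient of `u ^ 2 / v`. -/
def qa (v : ℚ) : Iv :=
  (((b.nu.mul b.c2).scale (34 / 5)).sub ((b.nu.mul b.z).scale (833 / 600))).sub
    ((b.bb.mul b.cc.inv).scale (191 / 200 * ((2 * v + 1) / (2 * (v + 2)))))

/-- The coefficient of `δ ^ 2`. -/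
def qb : Iv :=
  ((((b.z.scale (4 / 25)).add (Iv.pt (4 / 25))).add (b.y.scale (21 / 200))).add
    ((b.y.sq.mul b.c2.inv).scale (11 / 200))).sub
      ((b.nu.mul (((Iv.pt 1).add (b.e.scale 3)).mul b.y)).scale (144 / 25))

/-- Half the coefficient of `u δ`, negated. -/
def qc : Iv := (b.c2.scale (4 / 25)).add (b.y.scale (11 / 200))

/-- `y / (1 - s ^ 2)`. -/
def yc : Iv := b.y.mul b.c2.inv

/-- The pinned box. -/
def rlo : Iv :=
  b.c2.sub (b.c2.sq.mul ((b.y.add (b.z.scale 2)).add (Iv.pt 3)).inv)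

/-- The coefficient of the tail chord. -/
def kt : Iv := ((b.y.add (b.z.scale 2)).add (Iv.pt 1)).mul b.c2.inv

/-- The box lies where the enclosures hold. -/
def ok : Bool :=
  decide (0 ≤ b.y.lo) && decide (0 ≤ b.e.lo) && decide (b.e.hi ≤ 1 / 199) &&
    decide (0 < b.c2.lo) && decide (0 < b.cc.lo) && decide (0 ≤ b.z.lo) && decide (b.z.hi ≤ 1 / 2)

/-- The point of a state lies in the box. -/
def Mem (b : Box) (p : ℕ) (s : ℝ) : Prop :=
  b.y.Has (((p : ℝ) + 1) * s ^ 2) ∧ b.e.Has (1 / ((p : ℝ) + 1))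

end Box

/-- The weight over `e`. -/
noncomputable def wHat (p : ℕ) (s : ℝ) : ℝ := ((p : ℝ) + 1) * wS p (arc s)

/-- The slope of the weight over `e`. -/
noncomputable def sHat (p : ℕ) (s : ℝ) : ℝ := ((p : ℝ) + 1) * slopeW p s

/-- Everything needed at a point of a box. -/
structure Box.Encl (b : Box) (p : ℕ) (s : ℝ) : Prop where
  y : b.y.Has (((p : ℝ) + 1) * s ^ 2)
  e : b.e.Has (1 / ((p : ℝ) + 1))
  z : b.z.Has (s ^ 2)
  c2 : b.c2.Has (1 - s ^ 2)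
  c2pos : 0 < b.c2.lo
  wh : b.wh.Has (wHat p s)
  sh : b.sh.Has (sHat p s)
  phi : b.phi.Has (phiT (((p : ℝ) + 1) * s ^ 2))
  dphi : b.dphi.Has (phiT' (((p : ℝ) + 1) * s ^ 2))
  kap : b.kap.Has (kapT (((p : ℝ) + 1) * s ^ 2))
  dkap : b.dkap.Has (kapT' (((p : ℝ) + 1) * s ^ 2))
  qa : ∀ v : ℚ, (b.qa v).Has (quadA p s v)
  qb : b.qb.Has (quadB p s)
  qc : b.qc.Has (quadC p s)
  yc : b.yc.Has (((p : ℝ) + 1) * s ^ 2 / (1 - s ^ 2))
  rlo : b.rlo.Has ((1 - s ^ 2) *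
    ((((p : ℝ) + 4) * s ^ 2 + 2) / (((p : ℝ) + 3) * s ^ 2 + 3)))
  kt : b.kt.Has ((((p : ℝ) + 3) * s ^ 2 + 1) / (1 - s ^ 2))

theorem Box.ok_iff {b : Box} (hb : b.ok = true) :
    0 ≤ b.y.lo ∧ 0 ≤ b.e.lo ∧ b.e.hi ≤ 1 / 199 ∧ 0 < b.c2.lo ∧ 0 < b.cc.lo ∧ 0 ≤ b.z.lo ∧
      b.z.hi ≤ 1 / 2 := by
  simpa only [Box.ok, Bool.and_eq_true, decide_eq_true_eq, and_assoc] using hb

theorem Box.has_z {b : Box} {s : ℝ} (h : b.Mem p s) :
    b.z.Has (s ^ 2) ∧ b.c2.Has (1 - s ^ 2) := by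
  have hz : b.z.Has (s ^ 2) := by
    have := h.1.mul h.2
    rwa [show ((p : ℝ) + 1) * s ^ 2 * (1 / ((p : ℝ) + 1)) = s ^ 2 by field_simp] at this
  refine ⟨hz, ?_⟩
  have := (Iv.has_pt 1).sub hz
  rw [Rat.cast_one] at this
  exact this

theorem Box.has_cc {b : Box} {s : ℝ} (hs : s ∈ Ioo (0 : ℝ) 1) (h : b.z.Has (s ^ 2))
    (h0 : 0 ≤ b.z.lo) (h1 : b.z.hi ≤ 1 / 2) : b.cc.Has (arc s) := by
  have hcpos : 0 < arc s := arc_pos ⟨by linarith [hs.1], hs.2⟩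
  have hcsq : arc s ^ 2 = 1 - s ^ 2 := Real.sq_sqrt (by nlinarith [hs.1, hs.2])
  have hz0' : (0 : ℝ) ≤ b.z.lo := by exact_mod_cast h0
  have hz1' : (b.z.hi : ℝ) ≤ 1 / 2 := by simpa using (Rat.cast_le (K := ℝ)).2 h1
  obtain ⟨a1, a2⟩ := h
  obtain ⟨u, hu⟩ : ∃ u : ℝ, (b.z.lo : ℝ) = u := ⟨_, rfl⟩
  obtain ⟨v, hv⟩ : ∃ v : ℝ, (b.z.hi : ℝ) = v := ⟨_, rfl⟩
  simp only [Iv.Has, Box.cc]
  push_cast
  rw [hu] at a1 hz0' ⊢
  rw [hv] at a2 hz1' ⊢
  have hv0 : 0 ≤ v := by linarith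
  constructor
  · refine (pow_le_pow_iff_left₀ (by nlinarith) hcpos.le two_ne_zero).1 ?_
    rw [hcsq]
    nlinarith [mul_nonneg (mul_nonneg hv0 hv0) (sub_nonneg.2 hz1'), pow_nonneg hv0 3]
  · refine (pow_le_pow_iff_left₀ hcpos.le (by nlinarith) two_ne_zero).1 ?_
    rw [hcsq]
    nlinarith [pow_nonneg hz0' 3, pow_nonneg hz0' 4]

theorem Box.has_bb {b : Box} (he0 : 0 ≤ b.e.lo) (he1 : b.e.hi ≤ 1 / 199)
    (h : b.e.Has (1 / ((p : ℝ) + 1))) :
    b.bb.Has (Ident.b0 p) ∧ b.ib2.Has (1 / Ident.b0 p ^ 2) ∧ 0 < b.bb.lo := by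
  obtain ⟨b1, b2, b3, b4⟩ := Top.b0_bounds p
  have he1' : (b.e.hi : ℝ) ≤ 1 / 199 := by simpa using (Rat.cast_le (K := ℝ)).2 he1
  have he0' : (0 : ℝ) ≤ b.e.lo := by exact_mod_cast he0
  obtain ⟨e, he⟩ : ∃ e, 1 / ((p : ℝ) + 1) = e := ⟨_, rfl⟩
  rw [he] at b1 b2 b3 b4 h
  obtain ⟨h1, h2⟩ := h
  obtain ⟨u, hu⟩ : ∃ u : ℝ, (b.e.lo : ℝ) = u := ⟨_, rfl⟩
  obtain ⟨v, hv⟩ : ∃ v : ℝ, (b.e.hi : ℝ) = v := ⟨_, rfl⟩
  simp only [Iv.Has, Box.bb, Box.ib2]
  push_cast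
  rw [hu] at h1 he0' ⊢
  rw [hv] at h2 he1' ⊢
  refine ⟨⟨by linarith, b2.trans ?_⟩, ⟨le_trans ?_ b3, b4.trans (by linarith)⟩, by linarith⟩
  · linarith [mul_le_mul h1 (show 1 - 2 * v ≤ 1 - 2 * e by linarith) (by linarith) (by linarith)]
  · linarith [mul_le_mul h1 (show 1 - v ≤ 1 - e by linarith) (by linarith) (by linarith)]

theorem Box.has_beta {b : Box} (he0 : 0 ≤ b.e.lo) (h : b.e.Has (1 / ((p : ℝ) + 1))) :
    b.beta.Has (((p : ℝ) + 1) * (1 - Ident.b0 p ^ 2)) := by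
  obtain ⟨h1, h2⟩ := b0_sq_bounds p
  have he0' : (0 : ℝ) ≤ b.e.lo := by exact_mod_cast he0
  obtain ⟨e, he⟩ : ∃ e, 1 / ((p : ℝ) + 1) = e := ⟨_, rfl⟩
  have hem : ((p : ℝ) + 1) * e = 1 := by rw [← he]; field_simp
  rw [he] at h
  obtain ⟨g1, g2⟩ := h
  obtain ⟨u, hu⟩ : ∃ u : ℝ, (b.e.lo : ℝ) = u := ⟨_, rfl⟩
  obtain ⟨v, hv⟩ : ∃ v : ℝ, (b.e.hi : ℝ) = v := ⟨_, rfl⟩
  rw [hu] at g1 he0'
  rw [hv] at g2
  rw [div_le_iff₀ (by positivity)] at h1
  rw [le_div_iff₀ (by positivity)] at h2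
  have g1' := mul_le_mul_of_nonneg_left g1 (show 0 ≤ (p : ℝ) + 1 by positivity)
  have g2' := mul_le_mul_of_nonneg_left g2 (show 0 ≤ (p : ℝ) + 1 by positivity)
  rw [hem] at g1' g2'
  have hb2 : Ident.b0 p ^ 2 ≤ 1 := pow_le_one₀ (Ident.b0_pos p).le (b0_le_one p)
  simp only [Iv.Has, Box.beta]
  push_cast
  rw [hu, hv]
  constructor
  · rw [div_le_iff₀ (by linarith)]
    nlinarith [mul_le_mul_of_nonneg_left g2' (sub_nonneg.2 hb2)]
  · rw [le_div_iff₀ (by linarith)]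
    nlinarith [mul_le_mul_of_nonneg_left g1' (sub_nonneg.2 hb2)]

theorem Box.has_phi {b : Box} {y : ℝ} (h : b.y.Has y) :
    b.phi.Has (phiT y) ∧ b.dphi.Has (phiT' y) := by
  obtain ⟨x, hx⟩ : ∃ x, (y - 3 / 2) / (33 / 2) = x := ⟨_, rfl⟩
  obtain ⟨g, hg⟩ : ∃ g, max 0 (min 1 x) = g := ⟨_, rfl⟩
  have hG : b.sg.Has g := by
    obtain ⟨a1, a2⟩ := h
    simp only [Iv.Has, Box.sg]
    push_cast
    rw [← hg, ← hx]
    constructor <;> gcongr
  have hsc : b.sc.Has (1 - g * g ^ 2) := by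
    have := (Iv.has_pt 1).sub (hG.mul hG.sq)
    rw [Rat.cast_one] at this
    exact this
  have ephi : phiT y = 1 / 20 + 19 / 20 * (1 - g * g ^ 2) ^ 2 := by
    rw [phiT, hx, ← hg]
    rcases le_total x 0 with h0 | h0
    · rw [min_eq_right (by linarith), max_eq_left h0, Tail.sqp_of_nonpos h0, mul_zero, sub_zero,
        Tail.sqp_of_nonneg zero_le_one]
      ring
    rw [Tail.sqp_of_nonneg h0]
    rcases le_total x 1 with h1 | h1
    · rw [min_eq_right h1, max_eq_right h0, Tail.sqp_of_nonneg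
        (sub_nonneg.2 (mul_le_one₀ h1 (sq_nonneg x) (pow_le_one₀ h0 h1)))]
    · rw [min_eq_left h1, max_eq_right zero_le_one, Tail.sqp_of_nonpos (by nlinarith)]
      ring
  have edphi : phiT' y = -(19 / 55) * (g ^ 2 * (1 - g * g ^ 2)) := by
    rw [phiT', hx, ← hg]
    simp only [sqp, sqp']
    rcases le_total x 0 with h0 | h0
    · rw [min_eq_right (by linarith), max_eq_left h0, max_eq_right h0]
      ring
    rw [max_eq_left h0]
    rcases le_total x 1 with h1 | h1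
    · rw [min_eq_right h1, max_eq_right h0, max_eq_left
        (sub_nonneg.2 (mul_le_one₀ h1 (sq_nonneg x) (pow_le_one₀ h0 h1)))]
      ring
    · rw [min_eq_left h1, max_eq_right zero_le_one, max_eq_right (by nlinarith)]
      ring
  constructor
  · rw [ephi]
    have := (Iv.has_pt (1 / 20)).add (hsc.sq.scale (19 / 20))
    push_cast at this
    exact this
  · rw [edphi]
    have := (hG.sq.mul hsc).scale (-(19 / 55))
    push_cast at this
    exact this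

theorem Box.has_kap {b : Box} {y : ℝ} (h : b.y.Has y) :
    b.kap.Has (kapT y) ∧ b.dkap.Has (kapT' y) := by
  have hq : b.qq.Has (max 0 (1 - y / 16)) := by
    obtain ⟨a1, a2⟩ := h
    simp only [Iv.Has, Box.qq]
    push_cast
    constructor <;> gcongr
  have hpk : b.pk.Has (9 / 100 - 9 / 100 * y + 13 / 200 * y ^ 2) := by
    have := ((h.sub (Iv.has_pt (9 / 13))).sq.scale (13 / 200)).add (Iv.has_pt (153 / 2600))
    push_cast at this
    refine Iv.Has.of_eq this ?_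
    ring
  constructor
  · rw [kapT, sqp, max_comm]
    exact hpk.mul hq.sq
  · have := (((h.scale (13 / 100)).sub (Iv.has_pt (9 / 100))).mul hq.sq).sub
      ((hpk.mul hq).scale (1 / 8))
    rw [kapT', sqp, sqp', max_comm]
    push_cast at this
    refine Iv.Has.of_eq this ?_
    ring

set_option maxRecDepth 4000 in
/-- The mean of the weight to the first order. -/
theorem muMin_bounds_tiny (hp : 198 ≤ p) :
    3 / 4 - 288 / 100 / ((p : ℝ) + 1) ≤ Ident.muMin p ∧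
      Ident.muMin p ≤ 3 / 4 - 258 / 100 / ((p : ℝ) + 1) := by
  obtain ⟨j, rfl⟩ : ∃ j, p = j + 1 := ⟨p - 1, by omega⟩
  have hj : (197 : ℝ) ≤ j := by
    have : 197 ≤ j := by omega
    exact_mod_cast this
  have hb := Ident.b0_pos (j + 1)
  have h1 := (b0_sq_bounds (j + 1)).1
  have h2 := LargeN.ratSq_succ_le j
  rw [Centre.ratSq_eq, LargeN.low, div_div_eq_mul_div, div_pow, div_mul_eq_mul_div, div_div,
    le_div_iff₀ (by positivity)] at h2
  rw [div_le_iff₀ (by positivity)] at h1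
  push_cast at h1 h2 ⊢
  set B := Ident.b0 (j + 1) ^ 2 with hB
  have hB0 : 0 < B := by positivity
  have e : Ident.muMin (j + 1) =
      ((j : ℝ) + 3) * ((j : ℝ) + 1) * (((j : ℝ) + 5) * (1 - B) - 1) / (2 * ((j : ℝ) + 5) * B) := by
    rw [Ident.muMin, hB]
    push_cast
    field_simp
    ring
  obtain ⟨k, hk, hjk⟩ : ∃ k : ℝ, 0 ≤ k ∧ (j : ℝ) = k + 197 := ⟨(j : ℝ) - 197, by linarith, by ring⟩
  rw [e]
  clear_value B
  rw [hjk] at h1 h2 ⊢
  constructor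
  · rw [le_div_iff₀ (by positivity), sub_mul, div_mul_eq_mul_div _ (k + 197 + 1 + 1),
      sub_le_iff_le_add, ← sub_le_iff_le_add', le_div_iff₀ (by positivity)]
    nlinarith [mul_le_mul_of_nonneg_left h2 hk, mul_le_mul_of_nonneg_left h2 (mul_nonneg hk hk),
      mul_le_mul_of_nonneg_left h2 (mul_nonneg (mul_nonneg hk hk) hk)]
  · rw [div_le_iff₀ (by positivity), sub_mul, div_mul_eq_mul_div _ (k + 197 + 1 + 1),
      le_sub_iff_add_le, ← le_sub_iff_add_le', div_le_iff₀ (by positivity)]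
    nlinarith [mul_le_mul_of_nonneg_left h1 hk, mul_le_mul_of_nonneg_left h1 (mul_nonneg hk hk),
      mul_le_mul_of_nonneg_left h1 (mul_nonneg (mul_nonneg hk hk) hk)]

theorem Box.has_nu {b : Box} (hp : 198 ≤ p) (he0 : 0 ≤ b.e.lo)
    (h : b.e.Has (1 / ((p : ℝ) + 1))) (hib : b.ib2.Has (1 / Ident.b0 p ^ 2)) :
    b.nu.Has (nuT p) := by
  have h1e := (Iv.has_pt 1).sub h
  have h13 := (Iv.has_pt 1).add (h.scale 3)
  have h13l : 0 < ((Iv.pt 1).add (b.e.scale 3)).lo := by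
    simp only [Iv.add, Iv.pt, Iv.scale]
    norm_num
    linarith
  obtain ⟨m1, m2⟩ := muMin_bounds_tiny (p := p) hp
  have hb := Ident.b0_pos p
  have hm' : (⟨3 / 4 - 288 / 100 * b.e.hi, 3 / 4 - 258 / 100 * b.e.lo⟩ : Iv).Has
      (Ident.muMin p) := by
    obtain ⟨g1, g2⟩ := h
    simp only [Iv.Has]
    push_cast
    constructor
    · linarith [mul_one_div (288 / 100 : ℝ) ((p : ℝ) + 1)]
    · linarith [mul_one_div (258 / 100 : ℝ) ((p : ℝ) + 1)]
  have := (((h1e.mul (h13.inv h13l)).mul hib).scale (191 / 400)).sub (hm'.scale (1 / 2))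
  push_cast at this
  refine Iv.Has.of_eq this ?_
  rw [nuT, sqCoef]
  field_simp
  ring

theorem Box.has_weights {b : Box} {s : ℝ} (hs : s ∈ Ioo (0 : ℝ) 1) (hm : b.Mem p s)
    (hc : b.cc.Has (arc s)) (hcl : 0 < b.cc.lo) (hbb : b.bb.Has (Ident.b0 p))
    (hbl : 0 < b.bb.lo) (hib : b.ib2.Has (1 / Ident.b0 p ^ 2))
    (hbeta : b.beta.Has (((p : ℝ) + 1) * (1 - Ident.b0 p ^ 2))) :
    b.wh.Has (wHat p s) ∧ b.sh.Has (sHat p s) := by
  obtain ⟨hY, hE⟩ := hm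
  have hb0 := Ident.b0_pos p
  have hcpos : 0 < arc s := arc_pos ⟨by linarith [hs.1], hs.2⟩
  have hcsq : arc s ^ 2 = 1 - s ^ 2 := Real.sq_sqrt (by nlinarith [hs.1, hs.2])
  have hcb : 0 < (b.cc.add b.bb).lo := by simp only [Iv.add]; linarith
  have hcs : 0 < b.cc.sq.lo := by
    simp only [Iv.sq, if_pos hcl.le]; positivity
  have hcb' : 0 < arc s + Ident.b0 p := by linarith
  have h1e := (Iv.has_pt 1).sub hE
  constructor
  · have := ((((h1e.mul hib).scale (1 / 2)).mul (hbeta.sub hY).sq).mul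
      (hc.add (hbb.scale 2))).mul ((hc.inv hcl).mul ((hc.add hbb).inv hcb).sq)
    push_cast at this
    refine Iv.Has.of_eq this ?_
    rw [wHat, wS, sqCoef,
      show ((p : ℝ) + 1) * (1 - Ident.b0 p ^ 2) - ((p : ℝ) + 1) * s ^ 2 =
        ((p : ℝ) + 1) * ((arc s - Ident.b0 p) * (arc s + Ident.b0 p)) by
          linear_combination -((p : ℝ) + 1) * hcsq]
    field_simp
    ring
  · have := ((((h1e.mul hib).mul hY).mul (hY.sub hbeta)).mul
      ((hbb.sq.add (hbb.mul hc)).add hc.sq)).mul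
        (((hc.add hbb).inv hcb).mul ((hc.inv hcl).mul (hc.sq.inv hcs)))
    push_cast at this
    refine Iv.Has.of_eq this ?_
    rw [sHat, slopeW, sqCoef,
      show ((p : ℝ) + 1) * s ^ 2 - ((p : ℝ) + 1) * (1 - Ident.b0 p ^ 2) =
        ((p : ℝ) + 1) * ((Ident.b0 p - arc s) * (Ident.b0 p + arc s)) by
          linear_combination ((p : ℝ) + 1) * hcsq]
    field_simp
    ring

theorem Box.encl {b : Box} (hb : b.ok = true) (hp : 198 ≤ p) {s : ℝ} (hs : s ∈ Ioo (0 : ℝ) 1)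
    (h : b.Mem p s) : b.Encl p s := by
  obtain ⟨hy0, he0, he1, hc20, hc0, hz0, hz1⟩ := Box.ok_iff hb
  obtain ⟨hz, hc2⟩ := Box.has_z h
  have hc := Box.has_cc hs hz hz0 hz1
  obtain ⟨hbb, hib, hbl⟩ := Box.has_bb he0 he1 h.2
  obtain ⟨hW, hS⟩ := Box.has_weights hs h hc hc0 hbb hbl hib (Box.has_beta he0 h.2)
  obtain ⟨hphi, hdphi⟩ := Box.has_phi h.1
  obtain ⟨hkap, hdkap⟩ := Box.has_kap h.1
  have hnu := Box.has_nu hp he0 h.2 hib
  have hY := h.1
  have hcl : 0 < b.cc.lo := hc0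
  refine ⟨hY, h.2, hz, hc2, hc20, hW, hS, hphi, hdphi, hkap, hdkap, fun v => ?_, ?_, ?_, ?_,
    ?_, ?_⟩
  · have := (((hnu.mul hc2).scale (34 / 5)).sub ((hnu.mul hz).scale (833 / 600))).sub
      ((hbb.mul (hc.inv hcl)).scale (191 / 200 * ((2 * v + 1) / (2 * (v + 2)))))
    push_cast at this
    refine Iv.Has.of_eq this ?_
    rw [quadA]
    ring
  · have := ((((hz.scale (4 / 25)).add (Iv.has_pt (4 / 25))).add (hY.scale (21 / 200))).add
      ((hY.sq.mul (hc2.inv hc20)).scale (11 / 200))).sub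
        ((hnu.mul (((Iv.has_pt 1).add (h.2.scale 3)).mul hY)).scale (144 / 25))
    push_cast at this
    refine Iv.Has.of_eq this ?_
    rw [quadB]
    field_simp
    ring
  · have := (hc2.scale (4 / 25)).add (hY.scale (11 / 200))
    push_cast at this
    refine Iv.Has.of_eq this ?_
    rw [quadC]
  · have := hY.mul (hc2.inv hc20)
    rwa [mul_one_div] at this
  · have := hc2.sub (hc2.sq.mul
      (((hY.add (hz.scale 2)).add (Iv.has_pt 3)).inv (by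
        simp only [Iv.add, Iv.pt, Iv.scale]; norm_num; linarith)))
    push_cast at this
    refine Iv.Has.of_eq this ?_
    field_simp
    ring
  · have := ((hY.add (hz.scale 2)).add (Iv.has_pt 1)).mul (hc2.inv hc20)
    push_cast at this
    refine Iv.Has.of_eq this ?_
    field_simp
    ring

end Vale.Agent.P237.Petty.Cor.Tiny
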