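import Mathlib.Tactic.FieldSimp
import Mathlib.Tactic.GCongr
import Mathlib.Tactic.Linarith
import Mathlib.Tactic.Positivity
import Mathlib.Tactic.Ring
import Mathlib.Data.Real.Basic

/-!
# P237: the scalar inequalities of the tiny cell beyond `y = 45`

`c` is the half circle at the abscissa, `z = 1 - c ^ 2`, and `a` bounds `-c` times the coefficient
of `u ^ 2 / v`.
-/

namespace Vale.Agent.P237.Petty.Cor.Tiny

/-- The upper bound of `-c` times the coefficient of `u ^ 2 / v`. -/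
noncomputable def farA (z c v : ℝ) : ℝ :=
  191 / 200 * ((2 * v + 1) / (2 * (v + 2))) - 686 / 1000 * c ^ 3 + 145 / 1000 * (z * c)

/-- The half circle cubed from below. -/
theorem cube_ge {z c c0 : ℝ} (hc : 0 ≤ c) (hc0 : 0 ≤ c0) (hzc : z + c ^ 2 = 1)
    (h : z ≤ 1 - c0 ^ 2) : c0 ^ 3 ≤ c ^ 3 := by
  refine pow_le_pow_left₀ hc0 ?_ 3
  exact (pow_le_pow_iff_left₀ hc0 hc two_ne_zero).1 (by linarith)

/-- Near zero the coefficient is nonnegative. -/
theorem farA_small {z c v : ℝ} (hz : 0 ≤ z) (hc : 0 ≤ c) (hzc : z + c ^ 2 = 1) (hz1 : z ≤ 1 / 3)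
    (hv : 0 < v) (hv1 : v ≤ 1 / 4) : farA z c v ≤ 0 := by
  have hs : (2 * v + 1) / (2 * (v + 2)) ≤ 1 / 3 := by
    rw [div_le_iff₀ (by linarith)]; linarith
  have h3 := cube_ge (c0 := 816 / 1000) hc (by norm_num) hzc (by norm_num; linarith)
  have hc1 : c ≤ 1 := (pow_le_one_iff_of_nonneg hc two_ne_zero).1 (by linarith)
  unfold farA
  nlinarith [mul_le_mul hz1 hc1 hc (by norm_num : (0 : ℝ) ≤ 1 / 3)]

/-- A piece of the cover below one. -/
theorem below_piece {v z c za C3 ZC Y : ℝ} (hv : 1 / 4 ≤ v) (hv1 : v ≤ 1) (hC : C3 ≤ c ^ 3)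
    (hZ : z * c ≤ ZC) (hY : za ≤ Y)
    (h : 191 / 200 * (2 * v + 1) * (1 - v) + (145 / 1000 * ZC - 686 / 1000 * C3) *
      (2 * (v + 2)) * (1 - v) ≤ za * (169 / 10000) * (2 * (v + 2)) * v) :
    (1 - v) * farA z c v ≤ 169 / 10000 * Y * v := by
  unfold farA
  have h2 : 0 < 2 * (v + 2) := by linarith
  have e : 191 / 200 * ((2 * v + 1) / (2 * (v + 2))) * (2 * (v + 2)) = 191 / 200 * (2 * v + 1) := by
    field_simp
  refine le_of_mul_le_mul_right ?_ h2
  nlinarith [mul_le_mul_of_nonneg_right (mul_le_mul_of_nonneg_left hC (show (0 : ℝ) ≤ 686 / 1000 by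
      norm_num)) (mul_nonneg (sub_nonneg.2 hv1) h2.le),
    mul_le_mul_of_nonneg_right (mul_le_mul_of_nonneg_left hZ (show (0 : ℝ) ≤ 145 / 1000 by
      norm_num)) (mul_nonneg (sub_nonneg.2 hv1) h2.le),
    mul_le_mul_of_nonneg_right hY (mul_nonneg (by linarith : (0 : ℝ) ≤ v) h2.le)]

/-- Below one the linear slack covers the coefficient. -/
theorem far_below {z c v Y : ℝ} (hz : 0 ≤ z) (hc : 0 ≤ c) (hzc : z + c ^ 2 = 1)
    (hY1 : 45 * z ≤ Y) (hY2 : 199 * z ^ 2 ≤ Y) (hv : 1 / 4 ≤ v) (hv1 : v ≤ 1) :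
    (1 - v) * farA z c v ≤ 169 / 10000 * Y * v := by
  have hc1 : c ≤ 1 := (pow_le_one_iff_of_nonneg hc two_ne_zero).1 (by linarith)
  have hzc0 : z * c ≤ z := mul_le_of_le_one_right hz hc1
  have hzc1 : z * c ≤ 386 / 1000 := by
    nlinarith [mul_nonneg (sq_nonneg (c - 577 / 1000)) (show (0 : ℝ) ≤ c + 1154 / 1000 by linarith)]
  rcases le_or_gt z (3 / 20) with h | h
  · refine below_piece (za := 0) (ZC := 3 / 20) hv hv1
      (cube_ge (c0 := 921 / 1000) hc (by norm_num) hzc (by norm_num; linarith)) (by linarith)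
      (by linarith) ?_
    nlinarith [mul_nonneg (sub_nonneg.2 hv) (sub_nonneg.2 hv1), sq_nonneg (v - 365 / 1000)]
  rcases le_or_gt z (7 / 20) with h' | h'
  · refine below_piece (za := 27 / 4) (ZC := 7 / 20) hv hv1
      (cube_ge (c0 := 806 / 1000) hc (by norm_num) hzc (by norm_num; linarith)) (by linarith)
      (by linarith) ?_
    nlinarith [mul_nonneg (sub_nonneg.2 hv) (sub_nonneg.2 hv1), sq_nonneg (v - 365 / 1000)]
  rcases le_or_gt z (9 / 20) with h'' | h''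
  · refine below_piece (za := 24) hv hv1
      (cube_ge (c0 := 741 / 1000) hc (by norm_num) hzc (by norm_num; linarith)) hzc1
      (by nlinarith) ?_
    nlinarith [mul_nonneg (sub_nonneg.2 hv) (sub_nonneg.2 hv1)]
  rcases le_or_gt z (3 / 5) with h''' | h'''
  · refine below_piece (za := 40) hv hv1
      (cube_ge (c0 := 632 / 1000) hc (by norm_num) hzc (by norm_num; linarith)) hzc1
      (by nlinarith) ?_
    nlinarith [mul_nonneg (sub_nonneg.2 hv) (sub_nonneg.2 hv1)]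
  refine below_piece (za := 71) (C3 := 0) hv hv1 (pow_nonneg hc 3) hzc1 (by nlinarith) ?_
  nlinarith [mul_nonneg (sub_nonneg.2 hv) (sub_nonneg.2 hv1)]

/-- A piece of the cover above one. -/
theorem above_piece {v z c za K0 : ℝ} (hv : 1 ≤ v) (hz : za ≤ z)
    (hK : -(686 / 1000) * c ^ 3 + 145 / 1000 * (z * c) + 8 / 100 * (c ^ 3 * v) ≤ K0)
    (h : (191 / 200 * (2 * v + 1) + K0 * (2 * (v + 2))) * (v - 1) * (v + 1) ≤
      za * (65 / 100 * (v + 1) + 140 / 100 * (v - 1)) * (2 * (v + 2)) * v) :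
    farA z c v * ((v - 1) / v) + 8 / 100 * (c ^ 3 * (v - 1)) ≤
      z * (65 / 100 + 140 / 100 * ((v - 1) / (v + 1))) := by
  have hv0 : 0 < v := by linarith
  have h2 : 0 < 2 * (v + 2) * v * (v + 1) := by positivity
  refine le_of_mul_le_mul_right ?_ h2
  have e : (farA z c v * ((v - 1) / v) + 8 / 100 * (c ^ 3 * (v - 1))) *
      (2 * (v + 2) * v * (v + 1)) = (191 / 200 * (2 * v + 1) +
        (-(686 / 1000) * c ^ 3 + 145 / 1000 * (z * c) + 8 / 100 * (c ^ 3 * v)) * (2 * (v + 2))) *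
          (v - 1) * (v + 1) := by
    unfold farA
    field_simp
    ring
  have e2 : z * (65 / 100 + 140 / 100 * ((v - 1) / (v + 1))) * (2 * (v + 2) * v * (v + 1)) =
      z * (65 / 100 * (v + 1) + 140 / 100 * (v - 1)) * (2 * (v + 2)) * v := by
    field_simp
  rw [e, e2]
  refine le_trans ?_ (h.trans ?_)
  · gcongr
  · gcongr

/-- Above one, in the bounded range, the linear slack covers the squares. -/
theorem far_above {z c v : ℝ} (hz : 0 ≤ z) (hc : 0 ≤ c) (hzc : z + c ^ 2 = 1) (hv : 1 ≤ v)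
    (h : (z ≤ 1 / 4 ∧ v ≤ 7 / 5) ∨ (1 / 4 ≤ z ∧ c ^ 2 * v ≤ 11 / 5)) :
    farA z c v * ((v - 1) / v) + 8 / 100 * (c ^ 3 * (v - 1)) ≤
      z * (65 / 100 + 140 / 100 * ((v - 1) / (v + 1))) := by
  have hc1 : c ≤ 1 := (pow_le_one_iff_of_nonneg hc two_ne_zero).1 (by linarith)
  have hzc1 : z * c ≤ 386 / 1000 := by
    nlinarith [mul_nonneg (sq_nonneg (c - 577 / 1000)) (show (0 : ℝ) ≤ c + 1154 / 1000 by linarith)]
  rcases h with ⟨hz4, hv2⟩ | ⟨hz4, hcv⟩
  · have hv0 : 0 < v := by linarith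
    have hq : (v - 1) / v ≤ 2 / 7 := by rw [div_le_iff₀ hv0]; linarith
    have hq0 : 0 ≤ (v - 1) / v := div_nonneg (by linarith) hv0.le
    have hs : (2 * v + 1) / (2 * (v + 2)) ≤ 19 / 34 := by
      rw [div_le_iff₀ (by linarith)]; linarith
    have hc3 : 1 - 3 / 2 * z ≤ c ^ 3 := by nlinarith [sq_nonneg (c - 1), mul_nonneg hc hc]
    have hb : farA z c v + 8 / 100 * (c ^ 3 * v) ≤ 1006 / 1000 * z := by
      unfold farA
      nlinarith [mul_le_mul_of_nonneg_left hv2 (pow_nonneg hc 3), mul_le_of_le_one_right hz hc1]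
    have e : farA z c v * ((v - 1) / v) + 8 / 100 * (c ^ 3 * (v - 1)) =
        (farA z c v + 8 / 100 * (c ^ 3 * v)) * ((v - 1) / v) := by
      field_simp
    rw [e]
    have h0 : 0 ≤ (v - 1) / (v + 1) := div_nonneg (by linarith) (by linarith)
    nlinarith [mul_le_mul_of_nonneg_right hb hq0, mul_le_mul_of_nonneg_left hq hz,
      mul_nonneg hz h0]
  have hcv' : c ^ 3 * v ≤ 11 / 5 * c := by nlinarith [mul_le_mul_of_nonneg_left hcv hc]
  rcases le_or_gt z (8 / 25) with h1 | h1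
  · refine above_piece (za := 1 / 4) (K0 := -(19 / 100)) hv hz4 ?_ ?_
    · have := cube_ge (c0 := 824 / 1000) hc (by norm_num) hzc (by norm_num; linarith)
      nlinarith [mul_le_mul_of_nonneg_left (show c ≤ 867 / 1000 by nlinarith) hz]
    · have : v ≤ 325 / 100 := by nlinarith
      nlinarith [mul_nonneg (sub_nonneg.2 hv) (sub_nonneg.2 this)]
  rcases le_or_gt z (21 / 50) with h2 | h2
  · refine above_piece (za := 8 / 25) (K0 := -(11 / 100)) hv h1.le ?_ ?_
    · have := cube_ge (c0 := 761 / 1000) hc (by norm_num) hzc (by norm_num; linarith)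
      nlinarith [mul_le_mul_of_nonneg_left (show c ≤ 825 / 1000 by nlinarith) hz]
    · have : v ≤ 380 / 100 := by nlinarith
      nlinarith [mul_nonneg (sub_nonneg.2 hv) (sub_nonneg.2 this)]
  rcases le_or_gt z (3 / 5) with h3 | h3
  · refine above_piece (za := 21 / 50) (K0 := 2 / 100) hv h2.le ?_ ?_
    · have := cube_ge (c0 := 632 / 1000) hc (by norm_num) hzc (by norm_num; linarith)
      nlinarith [mul_le_mul_of_nonneg_left (show c ≤ 762 / 1000 by nlinarith) hz]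
    · have : v ≤ 11 / 2 := by nlinarith
      nlinarith [mul_nonneg (sub_nonneg.2 hv) (sub_nonneg.2 this)]
  refine above_piece (za := 3 / 5) (K0 := 9 / 100) hv h3.le ?_ ?_
  · nlinarith [sq_nonneg (c - 38 / 100), mul_nonneg hc (sq_nonneg (c - 38 / 100))]
  · nlinarith [mul_nonneg (sub_nonneg.2 hv) (sub_nonneg.2 hv), mul_nonneg (mul_nonneg
      (sub_nonneg.2 hv) (sub_nonneg.2 hv)) (show (0 : ℝ) ≤ v by linarith)]

end Vale.Agent.P237.Petty.Cor.Tiny
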