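import Vale.Agent.P237.Petty.Cor.Tiny.State
import Vale.Agent.P237.Petty.Cor.Tiny.FarIneq

/-!
# P237: the coefficients of the tiny cell beyond `y = 45`
-/

namespace Vale.Agent.P237.Petty.Cor.Tiny

open Set
open Tail (sqp sqp')

variable {p : ℕ} {s : ℝ}

/-- The switch and the second multiplier are constant beyond `y = 18`. -/
theorem switch_const {y : ℝ} (hy : 18 ≤ y) :
    phiT y = 1 / 20 ∧ phiT' y = 0 ∧ kapT y = 0 ∧ kapT' y = 0 := by
  have h1 : 1 ≤ (y - 3 / 2) / (33 / 2) := by rw [le_div_iff₀ (by norm_num)]; linarith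
  have h2 : 1 - y / 16 ≤ 0 := by linarith
  have h3 : 1 - (y - 3 / 2) / (33 / 2) * sqp ((y - 3 / 2) / (33 / 2)) ≤ 0 := by
    rw [Tail.sqp_of_nonneg (by linarith)]
    nlinarith
  refine ⟨?_, ?_, ?_, ?_⟩
  · simp [phiT, Tail.sqp_of_nonpos h3]
  · simp [phiT', Tail.sqp'_of_nonpos h3]
  · simp [kapT, Tail.sqp_of_nonpos h2]
  · simp [kapT', Tail.sqp_of_nonpos h2, Tail.sqp'_of_nonpos h2]

/-- The remainder is nonpositive beyond `y = 45`. -/
theorem remT_nonpos {y : ℝ} (hy : 45 ≤ y) : remT y ≤ 0 := by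
  obtain ⟨t, ht, rfl⟩ : ∃ t, 0 ≤ t ∧ y = 45 + t := ⟨y - 45, by linarith, by ring⟩
  simp only [remT, phiCoef]
  push_cast
  nlinarith [pow_nonneg ht 2, pow_nonneg ht 3, pow_nonneg ht 4, pow_nonneg ht 5, pow_nonneg ht 6]

/-- The ratio of half circles beside one. -/
theorem ratio_box (hp : 198 ≤ p) :
    99 / 100 ≤ Ident.b0 p ∧ Ident.b0 p ≤ 1 ∧ 997 / 1000 ≤ Ident.b0 p ∧
      99 / 100 ≤ ((p : ℝ) + 1) * (1 - Ident.b0 p ^ 2) ∧
      ((p : ℝ) + 1) * (1 - Ident.b0 p ^ 2) ≤ 1 ∧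
      99 / 100 ≤ (1 - 1 / ((p : ℝ) + 1)) / Ident.b0 p ^ 2 ∧
      (1 - 1 / ((p : ℝ) + 1)) / Ident.b0 p ^ 2 ≤ 1 := by
  have hp' : (198 : ℝ) ≤ p := by exact_mod_cast hp
  obtain ⟨h1, h2⟩ := b0_sq_bounds p
  have hb0 := Ident.b0_pos p
  have hb1 := b0_le_one p
  rw [div_le_iff₀ (by positivity)] at h1
  rw [le_div_iff₀ (by positivity)] at h2
  have h997 : 997 / 1000 ≤ Ident.b0 p := by
    refine (pow_le_pow_iff_left₀ (by norm_num) hb0.le two_ne_zero).1 ?_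
    nlinarith
  have e : 1 - 1 / ((p : ℝ) + 1) = (p : ℝ) / ((p : ℝ) + 1) := by field_simp; ring
  refine ⟨by linarith, hb1, h997, by nlinarith, by nlinarith, ?_, ?_⟩
  · rw [e, le_div_iff₀ (by positivity), le_div_iff₀ (by positivity)]
    nlinarith
  · rw [e, div_div, div_le_one (by positivity)]
    nlinarith

/-- The multiplier of the Fisher excess is near one tenth. -/
theorem nuT_box (hp : 198 ≤ p) : 101 / 1000 ≤ nuT p ∧ nuT p ≤ 1035 / 10000 := by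
  have hp' : (198 : ℝ) ≤ p := by exact_mod_cast hp
  obtain ⟨m1, m2⟩ := muMin_bounds_tiny (p := p) hp
  obtain ⟨h1, h2⟩ := b0_sq_bounds p
  have hb0 := Ident.b0_pos p
  have e : sqCoef p / ((p : ℝ) + 4) = (p : ℝ) / (2 * ((p : ℝ) + 4) * Ident.b0 p ^ 2) := by
    rw [sqCoef]
    field_simp
  obtain ⟨k, hk, hpk⟩ : ∃ k : ℝ, 0 ≤ k ∧ (p : ℝ) = k + 198 := ⟨(p : ℝ) - 198, by linarith, by ring⟩
  have hlo : (p : ℝ) * ((p : ℝ) + 3) / (2 * ((p : ℝ) + 4) * ((p : ℝ) + 2)) ≤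
      sqCoef p / ((p : ℝ) + 4) := by
    rw [e, div_le_div_iff₀ (by positivity) (by positivity)]
    rw [le_div_iff₀ (by positivity)] at h2
    nlinarith [mul_le_mul_of_nonneg_left h2 (show 0 ≤ 2 * (p : ℝ) * ((p : ℝ) + 4) by positivity)]
  have hhi : sqCoef p / ((p : ℝ) + 4) ≤
      (p : ℝ) * (2 * (p : ℝ) + 5) / (2 * ((p : ℝ) + 4) * (2 * (p : ℝ) + 3)) := by
    rw [e, div_le_div_iff₀ (by positivity) (by positivity)]
    rw [div_le_iff₀ (by positivity)] at h1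
    nlinarith [mul_le_mul_of_nonneg_left h1 (show 0 ≤ 2 * (p : ℝ) * ((p : ℝ) + 4) by positivity)]
  constructor
  · rw [nuT]
    have : 101 / 1000 + (3 / 4 - 258 / 100 / ((p : ℝ) + 1)) / 2 ≤
        191 / 200 * ((p : ℝ) * ((p : ℝ) + 3) / (2 * ((p : ℝ) + 4) * ((p : ℝ) + 2))) := by
      rw [hpk]
      field_simp
      nlinarith [mul_nonneg hk hk, mul_nonneg (mul_nonneg hk hk) hk]
    linarith
  · rw [nuT]
    have : 191 / 200 * ((p : ℝ) * (2 * (p : ℝ) + 5) / (2 * ((p : ℝ) + 4) * (2 * (p : ℝ) + 3))) ≤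
        1035 / 10000 + (3 / 4 - 288 / 100 / ((p : ℝ) + 1)) / 2 := by
      rw [hpk]
      field_simp
      nlinarith [mul_nonneg hk hk, mul_nonneg (mul_nonneg hk hk) hk]
    linarith

/-- The slope against the weight, times the circle and over `X`. -/
noncomputable def farT (p : ℕ) (s : ℝ) : ℝ :=
  36290 / 40000 * (arc s * (sHat p s * ((1 - s ^ 2) / (((p : ℝ) + 1) * s ^ 2))))

/-- The weight under the switch, times the circle. -/
noncomputable def farM (p : ℕ) (s : ℝ) : ℝ := 191 / 4000 * (arc s * wHat p s)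

/-- The factor of the weight between two half circles. -/
theorem weight_factor {c b : ℝ} (hc : 0 ≤ c) (hc1 : c ≤ 1) (hb : 997 / 1000 ≤ b) (hb1 : b ≤ 1) :
    3 / 4 * (c + b) ^ 2 ≤ c + 2 * b ∧ c + 2 * b ≤ 20061 / 10000 * (c + b) ^ 2 ∧
      99 / 100 * (c + b) ≤ b ^ 2 + b * c + c ^ 2 ∧ b ^ 2 + b * c + c ^ 2 ≤ 8 / 5 * (c + b) := by
  refine ⟨?_, ?_, ?_, ?_⟩
  · nlinarith [mul_le_mul_of_nonneg_left hc1 hc, mul_le_mul_of_nonneg_left hb1 hc,
      mul_le_mul_of_nonneg_left hb1 (show 0 ≤ b by linarith)]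
  · nlinarith [mul_le_mul hb hb (by norm_num) (by linarith : 0 ≤ b),
      mul_le_mul_of_nonneg_left hb hc, mul_nonneg hc hc]
  · nlinarith [mul_le_mul_of_nonneg_left hb hc, mul_nonneg hc hc,
      mul_le_mul_of_nonneg_left hb (show 0 ≤ b by linarith)]
  · nlinarith [mul_le_mul_of_nonneg_left hc1 hc, mul_le_mul_of_nonneg_left hb1 hc,
      mul_le_mul_of_nonneg_left hb1 (show 0 ≤ b by linarith)]

/-- The weight and its slope from both sides. -/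
theorem far_weights (hp : 198 ≤ p) (hs : s ∈ Ioo (0 : ℝ) 1)
    (hy : 45 ≤ ((p : ℝ) + 1) * s ^ 2) :
    1694 / 100000 * (((p : ℝ) + 1) * s ^ 2) ^ 2 ≤ farM p s ∧
      farM p s ≤ 479 / 10000 * (((p : ℝ) + 1) * s ^ 2) ^ 2 ∧
      868 / 1000 * (((p : ℝ) + 1) * s ^ 2) ≤ farT p s ∧
      farT p s ≤ 146 / 100 * (((p : ℝ) + 1) * s ^ 2) := by
  obtain ⟨-, hb1, hb, hβ0, hβ1, hk0, hk1⟩ := ratio_box hp
  have hcp : 0 < arc s := arc_pos ⟨by linarith [hs.1], hs.2⟩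
  have hc2 : arc s ^ 2 = 1 - s ^ 2 := Real.sq_sqrt (by nlinarith [hs.1, hs.2])
  have hc1 : arc s ≤ 1 := Real.sqrt_le_one.2 (by nlinarith [hs.1])
  have hb0 := Ident.b0_pos p
  obtain ⟨w1, w2, w3, w4⟩ := weight_factor hcp.le hc1 hb hb1
  obtain ⟨y, hye⟩ : ∃ y, ((p : ℝ) + 1) * s ^ 2 = y := ⟨_, rfl⟩
  obtain ⟨β, hβe⟩ : ∃ β, ((p : ℝ) + 1) * (1 - Ident.b0 p ^ 2) = β := ⟨_, rfl⟩
  obtain ⟨K, hKe⟩ : ∃ K, (1 - 1 / ((p : ℝ) + 1)) / Ident.b0 p ^ 2 = K := ⟨_, rfl⟩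
  rw [hye] at hy ⊢
  rw [hβe] at hβ0 hβ1
  rw [hKe] at hk0 hk1
  have hs0 := hs.1.ne'
  have hm : ((p : ℝ) + 1) ≠ 0 := by positivity
  have eM : farM p s = 191 / 8000 * (K * (β - y) ^ 2 *
      ((arc s + 2 * Ident.b0 p) / (arc s + Ident.b0 p) ^ 2)) := by
    rw [farM, wHat, wS, sqCoef, ← hKe, ← hβe, ← hye,
      show ((p : ℝ) + 1) * (1 - Ident.b0 p ^ 2) - ((p : ℝ) + 1) * s ^ 2 =
        ((p : ℝ) + 1) * ((arc s - Ident.b0 p) * (arc s + Ident.b0 p)) by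
          linear_combination -((p : ℝ) + 1) * hc2]
    field_simp
    ring
  have eT : farT p s = 36290 / 40000 * (K * (y - β) *
      ((Ident.b0 p ^ 2 + Ident.b0 p * arc s + arc s ^ 2) / (arc s + Ident.b0 p))) := by
    rw [farT, sHat, slopeW, sqCoef, ← hKe, ← hβe, ← hye,
      show ((p : ℝ) + 1) * s ^ 2 - ((p : ℝ) + 1) * (1 - Ident.b0 p ^ 2) =
        ((p : ℝ) + 1) * ((Ident.b0 p - arc s) * (Ident.b0 p + arc s)) by
          linear_combination ((p : ℝ) + 1) * hc2, ← hc2]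
    field_simp
    ring
  have hcb : 0 < arc s + Ident.b0 p := by linarith
  have g1 : 3 / 4 ≤ (arc s + 2 * Ident.b0 p) / (arc s + Ident.b0 p) ^ 2 := by
    rw [le_div_iff₀ (by positivity)]; exact w1
  have g2 : (arc s + 2 * Ident.b0 p) / (arc s + Ident.b0 p) ^ 2 ≤ 20061 / 10000 := by
    rw [div_le_iff₀ (by positivity)]; exact w2
  have g3 : 99 / 100 ≤
      (Ident.b0 p ^ 2 + Ident.b0 p * arc s + arc s ^ 2) / (arc s + Ident.b0 p) := by
    rw [le_div_iff₀ hcb]; exact w3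
  have g4 : (Ident.b0 p ^ 2 + Ident.b0 p * arc s + arc s ^ 2) / (arc s + Ident.b0 p) ≤ 8 / 5 := by
    rw [div_le_iff₀ hcb]; exact w4
  have hsq1 : (44 / 45 * y) ^ 2 ≤ (β - y) ^ 2 := by
    rw [← neg_sub y β, neg_sq]
    exact pow_le_pow_left₀ (by linarith) (by linarith) 2
  have hsq2 : (β - y) ^ 2 ≤ y ^ 2 := by
    rw [← neg_sub y β, neg_sq]
    exact pow_le_pow_left₀ (by linarith) (by linarith) 2
  rw [eM, eT]
  refine ⟨?_, ?_, ?_, ?_⟩
  · have := mul_le_mul (mul_le_mul hk0 hsq1 (sq_nonneg _) (by linarith)) g1 (by norm_num)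
      (mul_nonneg (by linarith) (sq_nonneg _))
    linarith
  · have := mul_le_mul (mul_le_mul hk1 hsq2 (sq_nonneg _) zero_le_one) g2 (le_trans (by norm_num) g1)
      (mul_nonneg zero_le_one (sq_nonneg y))
    linarith
  · have := mul_le_mul (mul_le_mul hk0 (show 44 / 45 * y ≤ y - β by linarith) (by linarith)
      (by linarith)) g3 (by norm_num) (mul_nonneg (by linarith) (by linarith))
    linarith
  · have := mul_le_mul (mul_le_mul hk1 (show y - β ≤ y by linarith) (by linarith) zero_le_one) g4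
      (le_trans (by norm_num) g3) (mul_nonneg zero_le_one (show (0 : ℝ) ≤ y by linarith))
    linarith

/-- The quadratic coefficients. -/
theorem far_quads (hp : 198 ≤ p) (hs : s ∈ Ioo (0 : ℝ) 1)
    (hy : 45 ≤ ((p : ℝ) + 1) * s ^ 2) :
    43 / 1000 * ((((p : ℝ) + 1) * s ^ 2) ^ 2 / (1 - s ^ 2)) ≤ quadB p s ∧
      0 ≤ quadC p s ∧ quadC p s ≤ 586 / 10000 * (((p : ℝ) + 1) * s ^ 2) ∧
      ∀ v : ℝ, 0 < v → -farA (s ^ 2) (arc s) v ≤ arc s * quadA p s v := by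
  obtain ⟨-, hb1, -⟩ := ratio_box hp
  obtain ⟨n1, n2⟩ := nuT_box hp
  have hp' : (198 : ℝ) ≤ p := by exact_mod_cast hp
  have hz : 0 < 1 - s ^ 2 := by nlinarith [hs.1, hs.2]
  have hcp : 0 < arc s := arc_pos ⟨by linarith [hs.1], hs.2⟩
  have hc2 : arc s ^ 2 = 1 - s ^ 2 := Real.sq_sqrt hz.le
  obtain ⟨y, hye⟩ : ∃ y, ((p : ℝ) + 1) * s ^ 2 = y := ⟨_, rfl⟩
  have h4 : ((p : ℝ) + 4) * s ^ 2 ≤ 10151 / 10000 * y := by
    rw [← hye]; nlinarith [sq_nonneg s]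
  rw [hye] at hy ⊢
  refine ⟨?_, ?_, ?_, fun v hv => ?_⟩
  · have h5 : y ^ 2 ≤ y ^ 2 / (1 - s ^ 2) :=
      le_div_self (sq_nonneg y) hz (by nlinarith [sq_nonneg s])
    have h6 := mul_le_mul n2 h4 (by positivity) (by norm_num)
    simp only [quadB, hye]
    nlinarith [sq_nonneg s, mul_le_mul_of_nonneg_left hy (show (0 : ℝ) ≤ y by linarith),
      show 11 / 200 * y ^ 2 / (1 - s ^ 2) = 11 / 200 * (y ^ 2 / (1 - s ^ 2)) by ring]
  · simp only [quadC, hye]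
    nlinarith
  · simp only [quadC, hye]
    nlinarith [sq_nonneg s]
  · have hz0 : 0 ≤ s ^ 2 * arc s := by positivity
    have h3 := pow_nonneg hcp.le 3
    have h7 := mul_le_mul_of_nonneg_left n2 hz0
    have h8 := mul_le_mul_of_nonneg_left n1 (pow_nonneg hcp.le 3)
    have h9 := mul_le_mul_of_nonneg_left hb1
      (div_nonneg (show (0 : ℝ) ≤ 2 * v + 1 by linarith) (show (0 : ℝ) ≤ 2 * (v + 2) by linarith))
    have e1 : arc s * quadA p s v = 34 / 5 * nuT p * arc s ^ 3 -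
        833 / 600 * nuT p * (s ^ 2 * arc s) -
        191 / 200 * ((2 * v + 1) / (2 * (v + 2)) * Ident.b0 p) := by
      rw [quadA, show arc s ^ 3 = arc s * arc s ^ 2 by ring, hc2]
      field_simp
    rw [e1, farA]
    linarith

end Vale.Agent.P237.Petty.Cor.Tiny
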