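import Mathlib.Data.Real.Basic
import Mathlib.Data.Rat.Cast.Order
import Mathlib.Tactic.Linarith
import Mathlib.Tactic.Positivity
import Mathlib.Tactic.Ring

/-!
# P237: intervals with rational ends

The leaves of the cell for tiny values are decided by evaluating enclosures with rational ends.
-/

namespace Vale.Agent.P237.Petty.Cor.Tiny

/-- An interval with rational ends. -/
structure Iv where
  lo : ℚ
  hi : ℚ

namespace Iv

/-- A real number in an interval. -/
def Has (I : Iv) (x : ℝ) : Prop := (I.lo : ℝ) ≤ x ∧ x ≤ (I.hi : ℝ)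

/-- A single point. -/
def pt (q : ℚ) : Iv := ⟨q, q⟩

/-- The sum. -/
def add (I J : Iv) : Iv := ⟨I.lo + J.lo, I.hi + J.hi⟩

/-- The negation. -/
def neg (I : Iv) : Iv := ⟨-I.hi, -I.lo⟩

/-- The difference. -/
def sub (I J : Iv) : Iv := ⟨I.lo - J.hi, I.hi - J.lo⟩

/-- The product with a number. -/
def scale (q : ℚ) (I : Iv) : Iv := if 0 ≤ q then ⟨q * I.lo, q * I.hi⟩ else ⟨q * I.hi, q * I.lo⟩

/-- The product. -/
def mul (I J : Iv) : Iv :=
  if 0 ≤ I.lo ∧ 0 ≤ J.lo then ⟨I.lo * J.lo, I.hi * J.hi⟩ else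
  ⟨min (min (I.lo * J.lo) (I.lo * J.hi)) (min (I.hi * J.lo) (I.hi * J.hi)),
    max (max (I.lo * J.lo) (I.lo * J.hi)) (max (I.hi * J.lo) (I.hi * J.hi))⟩

/-- The square. -/
def sq (I : Iv) : Iv :=
  if 0 ≤ I.lo then ⟨I.lo * I.lo, I.hi * I.hi⟩
  else if I.hi ≤ 0 then ⟨I.hi * I.hi, I.lo * I.lo⟩
  else ⟨0, max (I.lo * I.lo) (I.hi * I.hi)⟩

/-- The reciprocal of a positive interval. -/
def inv (I : Iv) : Iv := ⟨1 / I.hi, 1 / I.lo⟩

/-- The middle. -/
def mid (I : Iv) : ℚ := (I.lo + I.hi) / 2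

/-- The radius. -/
def rad (I : Iv) : ℚ := (I.hi - I.lo) / 2

variable {I J : Iv} {x z : ℝ}

theorem Has.of_eq (h : I.Has x) (e : x = z) : I.Has z := e ▸ h

theorem has_pt (q : ℚ) : (pt q).Has q := ⟨le_refl _, le_refl _⟩

theorem Has.add (h : I.Has x) (k : J.Has z) : (I.add J).Has (x + z) := by
  obtain ⟨a, b⟩ := h; obtain ⟨c, d⟩ := k
  simp only [Has, Iv.add, Rat.cast_add]
  exact ⟨by linarith, by linarith⟩

theorem Has.neg (h : I.Has x) : I.neg.Has (-x) := by
  obtain ⟨a, b⟩ := h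
  simp only [Has, Iv.neg, Rat.cast_neg]
  exact ⟨by linarith, by linarith⟩

theorem Has.sub (h : I.Has x) (k : J.Has z) : (I.sub J).Has (x - z) := by
  obtain ⟨a, b⟩ := h; obtain ⟨c, d⟩ := k
  simp only [Has, Iv.sub, Rat.cast_sub]
  exact ⟨by linarith, by linarith⟩

theorem Has.scale (q : ℚ) (h : I.Has x) : (I.scale q).Has ((q : ℝ) * x) := by
  obtain ⟨a, b⟩ := h
  rw [Iv.scale]
  split <;> rename_i hq
  · have : (0 : ℝ) ≤ q := by exact_mod_cast hq
    simp only [Has, Rat.cast_mul]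
    exact ⟨mul_le_mul_of_nonneg_left a this, mul_le_mul_of_nonneg_left b this⟩
  · have : (q : ℝ) ≤ 0 := by exact_mod_cast (not_le.1 hq).le
    simp only [Has, Rat.cast_mul]
    exact ⟨mul_le_mul_of_nonpos_left b this, mul_le_mul_of_nonpos_left a this⟩

/-- A product is between the products of the ends. -/
theorem mul_between {a b c d : ℝ} (h : a ≤ x ∧ x ≤ b) (k : c ≤ z ∧ z ≤ d) :
    min (min (a * c) (a * d)) (min (b * c) (b * d)) ≤ x * z ∧
      x * z ≤ max (max (a * c) (a * d)) (max (b * c) (b * d)) := by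
  obtain ⟨h1, h2⟩ := h; obtain ⟨k1, k2⟩ := k
  constructor
  · rcases le_total 0 z with hz | hz
    · rcases le_total 0 a with ha | ha
      · exact (min_le_left _ _).trans ((min_le_left _ _).trans (by nlinarith))
      · exact (min_le_left _ _).trans ((min_le_right _ _).trans (by nlinarith))
    · rcases le_total 0 b with hb | hb
      · exact (min_le_right _ _).trans ((min_le_left _ _).trans (by nlinarith))
      · exact (min_le_right _ _).trans ((min_le_right _ _).trans (by nlinarith))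
  · rcases le_total 0 z with hz | hz
    · rcases le_total 0 b with hb | hb
      · refine le_trans ?_ ((le_max_right _ _).trans (le_max_right _ _))
        nlinarith
      · refine le_trans ?_ ((le_max_left _ _).trans (le_max_right _ _))
        nlinarith
    · rcases le_total 0 a with ha | ha
      · refine le_trans ?_ ((le_max_right _ _).trans (le_max_left _ _))
        nlinarith
      · refine le_trans ?_ ((le_max_left _ _).trans (le_max_left _ _))
        nlinarith

theorem Has.mul (h : I.Has x) (k : J.Has z) : (I.mul J).Has (x * z) := by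
  rw [Iv.mul]
  split
  · rename_i h0
    obtain ⟨h1, h2⟩ := h0
    obtain ⟨a, b⟩ := h
    obtain ⟨c, d⟩ := k
    have h1' : (0 : ℝ) ≤ I.lo := by exact_mod_cast h1
    have h2' : (0 : ℝ) ≤ J.lo := by exact_mod_cast h2
    simp only [Has, Rat.cast_mul]
    exact ⟨mul_le_mul a c h2' (h1'.trans a), mul_le_mul b d (h2'.trans c) (h1'.trans (a.trans b))⟩
  · simp only [Has, Rat.cast_min, Rat.cast_max, Rat.cast_mul]
    exact mul_between h k

theorem Has.sq (h : I.Has x) : I.sq.Has (x ^ 2) := by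
  obtain ⟨a, b⟩ := h
  rw [Iv.sq]
  split
  · rename_i h0
    have : (0 : ℝ) ≤ I.lo := by exact_mod_cast h0
    simp only [Has, Rat.cast_mul]
    exact ⟨by nlinarith, by nlinarith⟩
  split
  · rename_i h0
    have : (I.hi : ℝ) ≤ 0 := by exact_mod_cast h0
    simp only [Has, Rat.cast_mul]
    exact ⟨by nlinarith, by nlinarith⟩
  · simp only [Has, Rat.cast_mul, Rat.cast_max, Rat.cast_zero]
    refine ⟨sq_nonneg x, ?_⟩
    rcases le_total 0 x with hx | hx
    · exact le_trans (by nlinarith) (le_max_right _ _)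
    · exact le_trans (by nlinarith) (le_max_left _ _)

theorem Has.inv (h : I.Has x) (h0 : 0 < I.lo) : I.inv.Has (1 / x) := by
  obtain ⟨a, b⟩ := h
  have h1 : (0 : ℝ) < I.lo := by exact_mod_cast h0
  simp only [Has, Iv.inv, Rat.cast_div, Rat.cast_one]
  exact ⟨one_div_le_one_div_of_le (h1.trans_le a) b, one_div_le_one_div_of_le h1 a⟩

theorem Has.lo_le (h : I.Has x) {q : ℚ} (hq : q ≤ I.lo) : (q : ℝ) ≤ x :=
  le_trans (by exact_mod_cast hq) h.1

theorem Has.le_hi (h : I.Has x) {q : ℚ} (hq : I.hi ≤ q) : x ≤ (q : ℝ) :=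
  h.2.trans (by exact_mod_cast hq)

theorem Has.nonneg (h : I.Has x) (h0 : 0 ≤ I.lo) : 0 ≤ x := le_trans (by exact_mod_cast h0) h.1

theorem Has.abs_sub_mid (h : I.Has x) : |x - (I.mid : ℝ)| ≤ (I.rad : ℝ) := by
  obtain ⟨a, b⟩ := h
  simp only [mid, rad, Rat.cast_div, Rat.cast_add, Rat.cast_sub, Rat.cast_ofNat]
  rw [abs_le]
  exact ⟨by linarith, by linarith⟩

end Iv

end Vale.Agent.P237.Petty.Cor.Tiny
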