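import Vale.Agent.P237.Petty.Cor.Tiny.SoundBase

/-!
# P237: a checked plan makes the tiny cell nonnegative
-/

namespace Vale.Agent.P237.Petty.Cor.Tiny

open Set

variable {p : ℕ} {b : Box} {s w v U D : ℝ}

/-- The coefficient of `U ^ 2 / v` falls in `v`. -/
theorem quadA_anti (hs : s ∈ Ioo (0 : ℝ) 1) {v V : ℝ} (hv : -2 < v) (hV : v ≤ V) :
    quadA p s V ≤ quadA p s v := by
  have hc := arc_pos (u := s) ⟨by linarith [hs.1], hs.2⟩
  have hk : 0 ≤ 191 / 200 * (Ident.b0 p / arc s) :=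
    mul_nonneg (by norm_num) (div_nonneg (Ident.b0_pos p).le hc.le)
  have hq : (2 * v + 1) / (2 * (v + 2)) ≤ (2 * V + 1) / (2 * (V + 2)) := by
    rw [div_le_div_iff₀ (by linarith) (by linarith)]
    linarith
  simp only [quadA]
  linarith [mul_le_mul_of_nonneg_left hq hk]

/-- The limit of the coefficient of `U ^ 2 / v`. -/
theorem quadA_ge_top (hs : s ∈ Ioo (0 : ℝ) 1) {v : ℝ} (hv : 0 < v) :
    2 * quadA p s 1 - quadA p s (-(1 / 2)) ≤ quadA p s v := by
  have hc := arc_pos (u := s) ⟨by linarith [hs.1], hs.2⟩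
  have hk : 0 ≤ 191 / 200 * (Ident.b0 p / arc s) :=
    mul_nonneg (by norm_num) (div_nonneg (Ident.b0_pos p).le hc.le)
  have hq : (2 * v + 1) / (2 * (v + 2)) ≤ 1 := by
    rw [div_le_one (by linarith)]
    linarith
  simp only [quadA]
  norm_num
  linarith [mul_le_mul_of_nonneg_left hq hk]

/-- The enclosure of the weight under the switch. -/
theorem Box.Encl.mu0 (E : b.Encl p s) :
    b.mu0.Has (191 / 200 * (phiT (((p : ℝ) + 1) * s ^ 2) * wHat p s)) := by
  have := (E.phi.mul E.wh).scale (191 / 200)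
  push_cast at this
  exact this

/-- The enclosure of the range of `w`. -/
theorem Hat.has_w (S : Hat p s w v U D) : Box.ww.Has w := by
  simp only [Box.ww, Iv.Has]
  push_cast
  exact ⟨S.w_nonneg, S.w_le⟩

/-- The enclosure of the remainder. -/
theorem Box.Encl.rem (E : b.Encl p s) : b.rem.Has (remT (((p : ℝ) + 1) * s ^ 2)) := by
  obtain ⟨t, ht⟩ : ∃ t, ((p : ℝ) + 1) * s ^ 2 - (b.y.lo : ℝ) = t := ⟨_, rfl⟩
  have hT : (⟨0, b.y.hi - b.y.lo⟩ : Iv).Has t := by
    obtain ⟨h1, h2⟩ := E.y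
    simp only [Iv.Has]
    push_cast
    exact ⟨by linarith, by linarith⟩
  obtain ⟨c, hc⟩ : ∃ c, Box.remShift b.y.lo = c := ⟨_, rfl⟩
  have h := (Iv.has_pt (c 0)).add (hT.mul ((Iv.has_pt (c 1)).add (hT.mul ((Iv.has_pt (c 2)).add
    (hT.mul ((Iv.has_pt (c 3)).add (hT.mul ((Iv.has_pt (c 4)).add (hT.mul ((Iv.has_pt (c 5)).add
      (hT.scale (c 6))))))))))))
  simp only [Box.rem, hc]
  refine h.of_eq ?_
  rw [← hc, ← ht]
  simp only [Box.remShift, remT, phiCoef]
  push_cast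
  ring

/-- The enclosure of the constant of the linear slack. -/
theorem Box.Encl.x0 (E : b.Encl p s) : b.x0.Has (wHat p s * (994 / 1000) -
    191 / 200 * (phiT (((p : ℝ) + 1) * s ^ 2) * wHat p s)) := by
  have := E.wh.mul ((Iv.has_pt (994 / 1000)).sub (E.phi.scale (191 / 200)))
  push_cast at this
  refine this.of_eq ?_
  ring

/-- The enclosure of the slope of the linear slack. -/
theorem Box.Encl.x2 (E : b.Encl p s) :
    b.x2.Has (191 / 200 * ((1 - phiT (((p : ℝ) + 1) * s ^ 2)) * sHat p s -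
      2 * (((p : ℝ) + 1) * s ^ 2) * phiT' (((p : ℝ) + 1) * s ^ 2) * wHat p s)) := by
  have := ((((Iv.has_pt 1).sub E.phi).mul E.sh).sub
    (((E.y.mul E.dphi).mul E.wh).scale 2)).scale (191 / 200)
  push_cast at this
  refine this.of_eq ?_
  ring

/-- The enclosure of the slope beside `w`. -/
theorem Box.Encl.dw (E : b.Encl p s) (th : ℚ) :
    (b.dw th).Has (2 * (((p : ℝ) + 1) * s ^ 2) * kapT' (((p : ℝ) + 1) * s ^ 2) -
      (kapT (((p : ℝ) + 1) * s ^ 2) - th) * (((p : ℝ) + 1) * s ^ 2 / (1 - s ^ 2))) := by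
  have := ((E.y.mul E.dkap).scale 2).sub ((E.kap.sub (Iv.has_pt th)).mul E.yc)
  push_cast at this
  refine this.of_eq ?_
  ring

/-- The linear coefficient of `D` for the signs. -/
theorem lD_has (E : b.Encl p s) (S : Hat p s w v U D) :
    ((b.x2.add (b.mu0.mul b.yc)).add
      ((Box.ww.mul (((b.y.mul b.dkap).scale 2).sub (b.kap.mul b.yc))).scale 8)).Has
        (linDh p s w) := by
  have := (E.x2.add (E.mu0.mul E.yc)).add
    ((S.has_w.mul (((E.y.mul E.dkap).scale 2).sub (E.kap.mul E.yc))).scale 8)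
  push_cast at this
  refine this.of_eq ?_
  rw [linDh]
  ring

/-- The negative of the coefficient of `U`. -/
theorem lU_has (E : b.Encl p s) (S : Hat p s w v U D) :
    (b.mu0.sub ((Box.ww.mul b.kap).scale 8)).Has (-linUh p s w) := by
  have := E.mu0.sub ((S.has_w.mul E.kap).scale 8)
  push_cast at this
  refine this.of_eq ?_
  rw [linUh]
  ring

/-- A tested form gives a nonnegative cell. -/
theorem Box.mat_sound {m : Mat} {full : Bool} {H : ℚ} (hok : b.ok = true)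
    (hh : b.matOK m full H = true) (E : b.Encl p s) (S : Hat p s w v U D) (hV : v ≤ (m.V : ℝ))
    (hD : D ≤ (H : ℝ) * w) (hlow : full = false → 0 ≤ D)
    (htail : m.lam = 1 ∨ (0 < D ∧ 1 ≤ v)) : 0 ≤ cellT p s w v U D := by
  obtain ⟨hy0, he0, -, hc20, -, -, -⟩ := Box.ok_iff hok
  simp only [Box.matOK, Bool.and_eq_true, Bool.or_eq_true, decide_eq_true_eq] at hh
  obtain ⟨⟨⟨⟨⟨⟨⟨⟨⟨⟨⟨⟨hl0, hl1⟩, heta⟩, hV1⟩, hH⟩, hmu⟩, hnum⟩, hA⟩, hA0⟩, hpos⟩, hC⟩, hC0⟩,
    hpsd⟩ := hh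
  have hs := S.s_mem
  have hz : 0 < 1 - s ^ 2 := by nlinarith [hs.1, hs.2]
  obtain ⟨R, hR⟩ : ∃ R : ℝ, (if full then (1 - s ^ 2) *
      ((((p : ℝ) + 4) * s ^ 2 + 2) / (((p : ℝ) + 3) * s ^ 2 + 3)) else 0) = R := ⟨_, rfl⟩
  have hRbox : (if full then b.rlo else Iv.pt 0).Has R := by
    rw [← hR]
    cases full
    · simpa using Iv.has_pt 0
    · simpa using E.rlo
  have hR0 : 0 ≤ R := by
    rw [← hR]
    split
    · exact mul_nonneg hz.le (div_nonneg (by positivity) (by positivity))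
    · exact le_rfl
  have hlo : -(((p : ℝ) + 1) * s ^ 2 * D) ≤ w * R := by
    rw [← hR]
    cases full
    · simp only [Bool.false_eq_true, if_false, mul_zero, neg_nonpos]
      exact mul_nonneg (by positivity) (hlow rfl)
    · simpa using S.lo
  have hpos' : 0 < ((p : ℝ) + 1) * s ^ 2 ∨ 0 < R := by
    rcases hpos with h | h
    · left
      have : (0 : ℝ) < b.y.lo := by exact_mod_cast h
      linarith [E.y.1]
    · right
      refine lt_of_lt_of_le ?_ hRbox.1
      exact_mod_cast h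
  obtain ⟨e, he⟩ : ∃ e, 1 / ((p : ℝ) + 1) = e := ⟨_, rfl⟩
  have hE := E.e
  have hcut := S.cut
  have hveq := S.v_eq
  rw [he] at hE hcut hveq
  obtain ⟨μ, hμe⟩ : ∃ μ, 191 / 200 * (phiT (((p : ℝ) + 1) * s ^ 2) * wHat p s) -
      8 * (m.th : ℝ) * w = μ := ⟨_, rfl⟩
  have hmuB : (b.mu m.th).Has μ := by
    have := E.mu0.sub (S.has_w.scale (8 * m.th))
    push_cast at this
    rw [hμe] at this
    exact this
  have hμ0 : 0 ≤ μ := hmuB.nonneg hmu
  have hmeB := hmuB.mul hE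
  have hl0' : (0 : ℝ) ≤ m.lam := by exact_mod_cast hl0
  have hl1' : (m.lam : ℝ) ≤ 1 := by exact_mod_cast hl1
  have heta' : (0 : ℝ) ≤ m.eta := by exact_mod_cast heta
  have hV1' : (1 : ℝ) ≤ m.V := by exact_mod_cast hV1
  have hH' : (0 : ℝ) ≤ H := by exact_mod_cast hH
  have he' : 0 ≤ e := he ▸ by positivity
  have hnumB := (E.qa m.V).sub (hmeB.scale m.lam)
  have hnum' := hnumB.nonneg hnum
  have hs2 := E.x2.sub ((hmuB.mul (E.kt.sub E.yc)).scale (1 - m.lam))
  push_cast at hs2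
  have hA1 := (E.x0.add (hs2.scale H)).lo_le hA
  push_cast at hA1
  have hA0' : (0 : ℝ) ≤ m.x0 + H * m.x2 := by exact_mod_cast hA0
  have hC0' := ((E.y.scale m.x0).sub (hRbox.scale m.x2)).nonneg hC0
  have hW : wHat p s * (994 / 1000) = (wHat p s * (994 / 1000) -
      191 / 200 * (phiT (((p : ℝ) + 1) * s ^ 2) * wHat p s)) + (μ + 8 * m.th * w) := by
    rw [← hμe]; ring
  have htail' : (m.lam : ℝ) = 1 ∨ U + e * (U ^ 2 / (v + 1)) - w * v ≤
      (((p : ℝ) + 3) * s ^ 2 + 1) / (1 - s ^ 2) * D := by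
    rcases htail with h | ⟨h1, h2⟩
    · left; exact_mod_cast h
    · right; rw [← he]; exact tail_one S h1 h2
  have hR2 : 0 ≤ ((p : ℝ) + 1) * s ^ 2 * ((wHat p s * (994 / 1000) -
      191 / 200 * (phiT (((p : ℝ) + 1) * s ^ 2) * wHat p s)) - m.x0) -
      R * ((191 / 200 * ((1 - phiT (((p : ℝ) + 1) * s ^ 2)) * sHat p s -
        2 * (((p : ℝ) + 1) * s ^ 2) * phiT' (((p : ℝ) + 1) * s ^ 2) * wHat p s) -
          μ * ((((p : ℝ) + 3) * s ^ 2 + 1) / (1 - s ^ 2) -
            ((p : ℝ) + 1) * s ^ 2 / (1 - s ^ 2)) * (1 - m.lam)) - m.x2) := by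
    cases full
    · simp only [Bool.false_eq_true, if_false, decide_eq_true_eq] at hC
      have h := ((E.y.mul (E.x0.sub (Iv.has_pt m.x0))).sub
        (hRbox.mul (hs2.sub (Iv.has_pt m.x2)))).nonneg hC
      refine le_of_le_of_eq h ?_
      ring
    · simp only [if_true, Bool.and_eq_true, decide_eq_true_eq] at hC
      obtain ⟨hlam, hC⟩ := hC
      have hcor := (E.wh.mul (E.y.mul ((Iv.has_pt (994 / 1000 - 191 / 200)).add
        (E.rlo.mul (E.dphi.scale (191 / 100)))))).add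
          ((((Iv.has_pt 1).sub E.phi).mul ((E.y.mul E.wh).sub (E.rlo.mul E.sh))).scale (191 / 200))
      have h := (hcor.sub ((E.y.scale m.x0).sub (E.rlo.scale m.x2))).nonneg hC
      push_cast at h
      simp only [if_true] at hR
      rw [← hR, hlam, Rat.cast_one, sub_self, mul_zero, sub_zero]
      refine le_of_le_of_eq h ?_
      ring
  have hd := quad_low (A := quadA p s v) (AV := quadA p s m.V) (k := (m.lam : ℝ) * (μ * e))
    (l := (1 - (m.lam : ℝ)) * (μ * e)) S.v_pos hV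
    (quadA_anti hs (by linarith [S.v_pos]) hV) (by linarith) (by
      have := mul_nonneg hμ0 he'
      exact mul_nonneg (sub_nonneg.2 hl1') this) rfl
  have hform := psdIv_sound hpsd
    ((((Iv.has_pt (8 * m.th + 20 / 3 * m.x0)).sub
      ((hE.sq.mul (hmuB.mul (hRbox.mul (E.c2.inv hc20)))).scale (4 * m.lam))).sub
        (hRbox.scale (m.eta * H))).sub E.rem)
    (((E.kap.sub (Iv.has_pt m.th)).scale 4).sub (hmeB.scale ((1 - m.lam) / 2)))
    ((((((E.dw m.th).scale 4).add (Iv.has_pt (10 / 3 * m.x2))).sub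
      ((hE.sq.mul (hmuB.mul E.yc)).scale m.lam))).add
        ((hRbox.sub (E.y.scale H)).scale (m.eta / 2)))
    ((hnumB.scale (1 / m.V)).add (hmeB.scale ((1 - m.lam) / (m.V + 1))))
    E.qc.neg
    ((E.qb.sub ((hmeB.mul E.yc).scale (m.lam / 2))).add (E.y.scale m.eta)) w U D
  push_cast at hform
  rw [show cellT p s w v U D = w * (wHat p s * (994 / 1000)) -
      w ^ 2 * remT (((p : ℝ) + 1) * s ^ 2) +
      (-μ + 8 * w * (kapT (((p : ℝ) + 1) * s ^ 2) - m.th)) * U +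
      (191 / 200 * ((1 - phiT (((p : ℝ) + 1) * s ^ 2)) * sHat p s -
          2 * (((p : ℝ) + 1) * s ^ 2) * phiT' (((p : ℝ) + 1) * s ^ 2) * wHat p s) +
        μ * (((p : ℝ) + 1) * s ^ 2 / (1 - s ^ 2)) +
        8 * w * (2 * (((p : ℝ) + 1) * s ^ 2) * kapT' (((p : ℝ) + 1) * s ^ 2) -
          (kapT (((p : ℝ) + 1) * s ^ 2) - m.th) * (((p : ℝ) + 1) * s ^ 2 / (1 - s ^ 2)))) * D +
      quadA p s v * (U ^ 2 / v) + quadB p s * D ^ 2 - 2 * quadC p s * (U * D) by
    rw [cellT, linUh, linDh, ← hμe]; ring]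
  refine mat_core (e := e) (R := R) (H := (H : ℝ)) (x0' := (m.x0 : ℝ)) (x2' := (m.x2 : ℝ))
    (lam := (m.lam : ℝ)) (eta := (m.eta : ℝ)) (th := (m.th : ℝ))
    S.w_nonneg S.w_le hveq (by positivity) rfl hz hR0 hpos' hD hlo hμ0 hl0' hl1' heta'
    hcut htail' (hA1.trans (le_of_eq (by ring))) hR2 hA0' (hC0'.trans (le_of_eq (by ring))) rfl rfl rfl
    (d := (quadA p s m.V - m.lam * (μ * e)) / m.V + (1 - m.lam) * (μ * e) / (m.V + 1))
    ((mul_le_mul_of_nonneg_right hd (sq_nonneg U)).trans (le_of_eq (by ring))) rfl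
    (le_of_le_of_eq hform (by ring)) hW

/-- The sign of `v ≤ 1` below the switch. -/
theorem low_U {A a1 ah L e U v : ℝ} (he : 0 < e) (hv : 0 < v) (hv1 : v ≤ 1)
    (hveq : v = 1 + e * U) (hah : 0 ≤ ah) (hA : a1 ≤ A) (hA2 : v ≤ 1 / 2 → ah ≤ A)
    (hL : 0 ≤ L) (hLa : 0 ≤ L * e + min 0 a1) : 0 ≤ -(L * U) + A * (U ^ 2 / v) := by
  have hU : U ≤ 0 := by nlinarith
  rcases le_or_gt v (1 / 2) with h | h
  · have := mul_nonneg (hah.trans (hA2 h)) (div_nonneg (sq_nonneg U) hv.le)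
    nlinarith
  · have hm : min 0 a1 ≤ A := (min_le_right _ _).trans hA
    have h1 : U ^ 2 / v ≤ -U / e := by
      rw [div_le_div_iff₀ hv he]
      nlinarith
    have h2 := mul_le_mul_of_nonneg_right hm (div_nonneg (sq_nonneg U) hv.le)
    have h3 := mul_le_mul_of_nonpos_left h1 (min_le_left 0 a1)
    have h4 : 0 ≤ -U / e * (L * e + min 0 a1) := mul_nonneg (div_nonneg (by linarith) he.le) hLa
    have h5 : -U / e * (L * e) = -(L * U) := by field_simp
    nlinarith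

/-- Below one for positive `D`. -/
theorem Box.low_sound {h : ℚ} (hp : 198 ≤ p) (hok : b.ok = true) (hh : b.lowOK h = true)
    (E : b.Encl p s) (S : Hat p s w v U D) (hD : 0 < D) (hv : v ≤ 1) :
    0 ≤ cellT p s w v U D := by
  simp only [Box.lowOK, Bool.and_eq_true, Bool.or_eq_true, decide_eq_true_eq] at hh
  obtain ⟨⟨⟨⟨⟨hrem, hD'⟩, hqc⟩, hah⟩, hL⟩, hLa⟩ := hh
  have hs := S.s_mem
  have hw0 := S.w_nonneg
  obtain ⟨e, he⟩ : ∃ e, 1 / ((p : ℝ) + 1) = e := ⟨_, rfl⟩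
  have hE := E.e
  have hveq := S.v_eq
  rw [he] at hE hveq
  have he0 : 0 < e := he ▸ by positivity
  have hqc' := E.qc.nonneg hqc
  have hUneg : U ≤ 0 := by nlinarith
  have hLd := lD_has E S
  have hd : 0 ≤ linDh p s w * D + quadB p s * D ^ 2 := by
    rcases hD' with ⟨h1, h2⟩ | ⟨⟨h1, h2⟩, h3⟩
    · exact add_nonneg (mul_nonneg (hLd.nonneg h2) hD.le)
        (mul_nonneg (E.qb.nonneg h1) (sq_nonneg D))
    · obtain ⟨hh0, hhD⟩ := Box.hi_sound hp hok h1 E S
      have h2' : (b.qb.lo : ℝ) ≤ 0 := by exact_mod_cast h2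
      obtain ⟨L, hLl⟩ : ∃ L : ℝ, (((b.x2.add (b.mu0.mul b.yc)).add
        ((Box.ww.mul (((b.y.mul b.dkap).scale 2).sub (b.kap.mul b.yc))).scale 8)).lo : ℝ) = L :=
        ⟨_, rfl⟩
      have h3' : 0 ≤ L + (b.qb.lo : ℝ) * (3 / 20 * h) := by
        rw [← hLl]
        have := (Rat.cast_le (K := ℝ)).2 h3
        push_cast at this
        exact this
      have hsv : √v ≤ 1 := Real.sqrt_le_one.2 hv
      have hDb : D ≤ 3 / 20 * h := (hhD hD).trans (by
        calc w * h * √v ≤ 3 / 20 * h * 1 :=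
              mul_le_mul (mul_le_mul_of_nonneg_right S.w_le hh0) hsv (Real.sqrt_nonneg _)
                (mul_nonneg (by norm_num) hh0)
          _ = _ := mul_one _)
      have h4 := mul_le_mul_of_nonneg_right (hLl ▸ hLd.1 : L ≤ linDh p s w) hD.le
      have h5 := mul_le_mul_of_nonneg_right E.qb.1 (sq_nonneg D)
      have h6 := mul_le_mul_of_nonpos_left (mul_le_mul_of_nonneg_right hDb hD.le) h2'
      have h7 := mul_nonneg h3' hD.le
      linarith
  have hLU := lU_has E S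
  have hu := low_U (A := quadA p s v) (a1 := quadA p s 1) (ah := quadA p s (1 / 2))
    (L := -linUh p s w) he0 S.v_pos hv hveq
    (by simpa using (E.qa (1 / 2)).nonneg hah)
    (quadA_anti hs (by linarith [S.v_pos]) hv)
    (fun h => quadA_anti hs (by linarith [S.v_pos]) h)
    (hLU.nonneg hL) (by
      have h1 := (hLU.mul hE).1
      have h2 : min 0 ((b.qa 1).lo : ℝ) ≤ min 0 (quadA p s 1) :=
        min_le_min_left _ (by simpa using (E.qa 1).1)
      have h3 := (Rat.cast_le (K := ℝ)).2 hLa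
      push_cast at h3
      linarith)
  have hWR : 3 / 20 * max 0 (b.rem.hi : ℝ) ≤ wHat p s * (994 / 1000) := by
    have h1 := (E.wh.scale (994 / 1000)).lo_le hrem
    push_cast at h1
    linarith
  have hr : w * remT (((p : ℝ) + 1) * s ^ 2) ≤ 3 / 20 * max 0 (b.rem.hi : ℝ) :=
    (mul_le_mul_of_nonneg_left (E.rem.2.trans (le_max_right _ _)) hw0).trans
      (mul_le_mul_of_nonneg_right S.w_le (le_max_left _ _))
  have h8 := mul_nonneg hw0 (sub_nonneg.2 (hr.trans hWR))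
  have h9 : 0 ≤ -(quadC p s * (U * D)) := by
    have := mul_nonneg hqc' (mul_nonneg (neg_nonneg.2 hUneg) hD.le)
    linarith
  rw [cellT]
  linarith

/-- A test by signs for nonpositive `D`. -/
theorem Box.sign_sound {V : ℚ} (hok : b.ok = true) (hy : 0 < b.y.lo) (hh : b.signOK V = true)
    (E : b.Encl p s) (S : Hat p s w v U D) (hD : D ≤ 0) : 0 ≤ cellT p s w v U D := by
  simp only [Box.signOK, Bool.and_eq_true, decide_eq_true_eq] at hh
  obtain ⟨⟨⟨⟨⟨⟨⟨⟨⟨hneg, hV1⟩, hV2⟩, hqb⟩, hqc⟩, hah⟩, hkap⟩, hlow⟩, hlowA⟩, hconst⟩ := hh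
  have hvV := Box.negTop_sound hok hneg E S hD
  have hs := S.s_mem
  have hz : 0 < 1 - s ^ 2 := by nlinarith [hs.1, hs.2]
  have hw0 := S.w_nonneg
  have hv0 := S.v_pos
  obtain ⟨e, he⟩ : ∃ e, 1 / ((p : ℝ) + 1) = e := ⟨_, rfl⟩
  have hE := E.e
  have hveq := S.v_eq
  rw [he] at hE hveq
  have he0 : 0 < e := he ▸ by positivity
  obtain ⟨y, hye⟩ : ∃ y, ((p : ℝ) + 1) * s ^ 2 = y := ⟨_, rfl⟩
  have hY := E.y
  have hR := E.rlo
  have hlo := S.lo
  rw [hye] at hY hlo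
  obtain ⟨R, hRe⟩ : ∃ R, (1 - s ^ 2) *
      ((((p : ℝ) + 4) * s ^ 2 + 2) / (((p : ℝ) + 3) * s ^ 2 + 3)) = R := ⟨_, rfl⟩
  have hR0 : 0 ≤ R := hRe ▸ mul_nonneg hz.le (div_nonneg (by positivity) (by positivity))
  rw [hRe] at hR hlo
  have hy0 : 0 < y := by
    have : (0 : ℝ) < b.y.lo := by exact_mod_cast hy
    linarith [hY.1]
  have hyhi : y ≤ (b.y.hi : ℝ) := hY.2
  have hqb' := E.qb.nonneg hqb
  have hqc' := E.qc.nonneg hqc
  have hkap' := E.kap.nonneg hkap
  have hLU := lU_has E S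
  have hLow : ((((b.mu0.sub ((Box.ww.mul b.kap).scale 8)).mul b.y)).sub
      (((Box.ww.mul b.qc).mul b.rlo).scale 2)).Has
        (-linUh p s w * y - 2 * (w * quadC p s * R)) := by
    have := (hLU.mul hY).sub (((S.has_w.mul E.qc).mul hR).scale 2)
    push_cast at this
    exact this
  obtain ⟨lD, hlDe, hlD0⟩ : ∃ lD : ℝ, max 0 ((((b.x2.add (b.mu0.mul b.yc)).add
      ((Box.ww.mul (((b.y.mul b.dkap).scale 2).sub (b.kap.mul b.yc))).scale 8)).hi : ℚ) : ℝ) = lD ∧
      0 ≤ lD := ⟨_, rfl, le_max_left _ _⟩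
  have hd1 : -(lD * (w * R)) ≤ linDh p s w * (y * D) := by
    have hyD : y * D ≤ 0 := mul_nonpos_of_nonneg_of_nonpos hy0.le hD
    have h1 := mul_le_mul_of_nonpos_right
      (((lD_has E S).2.trans (le_max_right 0 _)).trans (le_of_eq hlDe)) hyD
    have h2 := mul_le_mul_of_nonneg_left hlo hlD0
    linarith
  obtain ⟨c0, hc0⟩ : ∃ c0 : ℝ, (((b.wh.mul ((Iv.pt (994 / 1000)).sub
      (b.phi.scale (191 / 200 * V)))).mul b.y).lo : ℝ) - lD * b.rlo.hi +
      (b.y.hi : ℝ) * (3 / 20 * (V : ℝ) ^ 2 * min 0 ((b.qa V).lo : ℝ) -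
        3 / 20 * max 0 (b.rem.hi : ℝ)) = c0 := ⟨_, rfl⟩
  have hc0' : 0 ≤ c0 := by
    have := (Rat.cast_le (K := ℝ)).2 hconst
    rw [← hc0, ← hlDe]
    push_cast at this
    exact this
  have hWy : (((b.wh.mul ((Iv.pt (994 / 1000)).sub (b.phi.scale (191 / 200 * V)))).mul b.y).lo
      : ℝ) ≤ wHat p s * y * (994 / 1000) -
        (V : ℝ) * (191 / 200 * (phiT y * wHat p s) * y) := by
    have h := ((E.wh.mul ((Iv.has_pt (994 / 1000)).sub (E.phi.scale (191 / 200 * V)))).mul hY).1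
    rw [hye] at h
    push_cast at h
    linarith
  have hV' : (1 : ℝ) ≤ V := by exact_mod_cast hV1
  have hV2' : (V : ℝ) ≤ 2 := by exact_mod_cast hV2
  have hrem : y * (w ^ 2 * remT (((p : ℝ) + 1) * s ^ 2)) ≤
      (b.y.hi : ℝ) * (w * (3 / 20 * max 0 (b.rem.hi : ℝ))) := by
    have h1 : w ^ 2 * remT (((p : ℝ) + 1) * s ^ 2) ≤ w * (3 / 20 * max 0 (b.rem.hi : ℝ)) := by
      rw [sq, mul_assoc]
      exact mul_le_mul_of_nonneg_left
        ((mul_le_mul_of_nonneg_left (E.rem.2.trans (le_max_right _ _)) hw0).trans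
          (mul_le_mul_of_nonneg_right S.w_le (le_max_left _ _))) hw0
    have h2 : 0 ≤ w * (3 / 20 * max 0 (b.rem.hi : ℝ)) :=
      mul_nonneg hw0 (mul_nonneg (by norm_num) (le_max_left _ _))
    exact (mul_le_mul_of_nonneg_left h1 hy0.le).trans (mul_le_mul_of_nonneg_right hyhi h2)
  have hc0w : 0 ≤ w * c0 := mul_nonneg hw0 hc0'
  have hRhi : lD * (w * R) ≤ lD * (w * b.rlo.hi) :=
    mul_le_mul_of_nonneg_left (mul_le_mul_of_nonneg_left hR.2 hw0) hlD0
  have hqbD := mul_nonneg hy0.le (mul_nonneg hqb' (sq_nonneg D))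
  have hmu0 : 0 ≤ 191 / 200 * (phiT y * wHat p s) := by
    have h1 := hLow.nonneg hlow
    have h2 : 0 ≤ w * quadC p s * R := mul_nonneg (mul_nonneg hw0 hqc') hR0
    have h3 : 0 ≤ -linUh p s w := nonneg_of_mul_nonneg_left (by linarith) hy0
    rw [linUh, hye] at h3
    rw [hye] at hkap'
    linarith [mul_nonneg hw0 hkap']
  have hyhi0 : 0 ≤ (b.y.hi : ℝ) := hy0.le.trans hyhi
  have hVA : (b.y.hi : ℝ) * (w * (3 / 20 * (V : ℝ) ^ 2 * min 0 ((b.qa V).lo : ℝ))) ≤ 0 :=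
    mul_nonpos_of_nonneg_of_nonpos hyhi0 (mul_nonpos_of_nonneg_of_nonpos hw0
      (mul_nonpos_of_nonneg_of_nonpos (by positivity) (min_le_left _ _)))
  suffices h : 0 ≤ y * cellT p s w v U D from nonneg_of_mul_nonneg_right h hy0
  rcases le_or_gt v 1 with hv | hv
  · have hU : U ≤ 0 := by nlinarith
    have hUD : -(2 * (w * quadC p s * R)) * -U ≤ -(y * (2 * quadC p s * (U * D))) := by
      have h1 := mul_le_mul_of_nonneg_left hlo (mul_nonneg hqc' (neg_nonneg.2 hU))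
      linarith
    have hu := low_U (A := y * quadA p s v) (a1 := y * quadA p s 1)
      (ah := y * quadA p s (1 / 2))
      (L := -linUh p s w * y - 2 * (w * quadC p s * R)) he0 hv0 hv hveq
      (mul_nonneg hy0.le (by simpa using (E.qa (1 / 2)).nonneg hah))
      (mul_le_mul_of_nonneg_left (quadA_anti hs (by linarith) hv) hy0.le)
      (fun h => mul_le_mul_of_nonneg_left (quadA_anti hs (by linarith) h) hy0.le)
      (hLow.nonneg hlow) (by
        have h1 := (hLow.mul hE).1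
        have h2 : (b.y.hi : ℝ) * min 0 ((b.qa 1).lo : ℝ) ≤ min 0 (y * quadA p s 1) := by
          refine le_min (mul_nonpos_of_nonneg_of_nonpos hyhi0 (min_le_left _ _)) ?_
          refine (mul_le_mul_of_nonpos_right hyhi (min_le_left _ _)).trans
            (mul_le_mul_of_nonneg_left ?_ hy0.le)
          exact (min_le_right _ _).trans (by simpa using (E.qa 1).1)
        have h3 := (Rat.cast_le (K := ℝ)).2 hlowA
        push_cast at h3
        linarith)
    have hmw : 0 ≤ (V : ℝ) * (191 / 200 * (phiT y * wHat p s) * y) * w :=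
      mul_nonneg (mul_nonneg (by linarith) (mul_nonneg hmu0 hy0.le)) hw0
    have h10 := mul_le_mul_of_nonneg_left hWy hw0
    rw [← hc0] at hc0w
    rw [cellT]
    linarith
  · have hU : 0 ≤ U := by nlinarith
    have hexp := Box.negTop_exp E S hD
    rw [he] at hexp
    have hUb : U ≤ w * V := by
      refine le_of_mul_le_mul_left ?_ he0
      have := mul_le_mul_of_nonneg_left hvV (mul_nonneg he0.le hw0)
      linarith
    have hA : min 0 ((b.qa V).lo : ℝ) ≤ quadA p s v :=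
      ((min_le_right _ _).trans (E.qa V).1).trans (quadA_anti hs (by linarith) hvV)
    have hU2 : U ^ 2 / v ≤ w * (3 / 20 * (V : ℝ) ^ 2) := by
      refine (div_le_self (sq_nonneg U) hv.le).trans ((pow_le_pow_left₀ hU hUb 2).trans ?_)
      rw [mul_pow, sq w, mul_assoc]
      exact mul_le_mul_of_nonneg_left (mul_le_mul_of_nonneg_right S.w_le (sq_nonneg _)) hw0
    have h1 : (b.y.hi : ℝ) * (w * (3 / 20 * (V : ℝ) ^ 2 * min 0 ((b.qa V).lo : ℝ))) ≤
        y * (quadA p s v * (U ^ 2 / v)) := by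
      have h1 := mul_le_mul_of_nonneg_right hA (div_nonneg (sq_nonneg U) hv0.le)
      have h2 := mul_le_mul_of_nonpos_left hU2 (min_le_left 0 ((b.qa V).lo : ℝ))
      have h3 : w * (3 / 20 * (V : ℝ) ^ 2) * min 0 ((b.qa V).lo : ℝ) ≤ 0 :=
        mul_nonpos_of_nonneg_of_nonpos (mul_nonneg hw0 (by positivity)) (min_le_left _ _)
      have h4 := mul_le_mul_of_nonpos_right hyhi h3
      have h5 : w * (3 / 20 * (V : ℝ) ^ 2) * min 0 ((b.qa V).lo : ℝ) ≤
          quadA p s v * (U ^ 2 / v) := by linarith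
      have h6 := mul_le_mul_of_nonneg_left h5 hy0.le
      linarith
    have h2 : 0 ≤ y * (-(quadC p s * (U * D))) := by
      have := mul_nonneg hy0.le (mul_nonneg hqc' (mul_nonneg hU (neg_nonneg.2 hD)))
      linarith
    have h3 := mul_le_mul_of_nonneg_left hUb (mul_nonneg hmu0 hy0.le)
    have h4 : 0 ≤ y * (8 * w * kapT (((p : ℝ) + 1) * s ^ 2) * U) :=
      mul_nonneg hy0.le (mul_nonneg (mul_nonneg (mul_nonneg (by norm_num) hw0) hkap') hU)
    have h10 := mul_le_mul_of_nonneg_left hWy hw0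
    rw [← hc0] at hc0w
    rw [cellT, linUh, hye]
    rw [hye] at h4 hrem
    linarith

end Vale.Agent.P237.Petty.Cor.Tiny
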