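import Vale.Agent.P237.Petty.Cor.Tiny.Sound

/-!
# P237: pieces, leaves and plans of the tiny cell
-/

namespace Vale.Agent.P237.Petty.Cor.Tiny

open Set

variable {p : ℕ} {b : Box} {s w v U D : ℝ}

/-- The square of a bounded nonnegative number below a multiple of it. -/
theorem sq_le_line {P Z X : ℝ} (hP : 0 ≤ P) (hZ : 0 ≤ Z) (hX : Z ≤ X) :
    P / X * Z ^ 2 ≤ P * Z := by
  rcases (hZ.trans hX).eq_or_lt with h | h
  · rw [← h, div_zero, zero_mul]
    exact mul_nonneg hP hZ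
  · rw [div_mul_eq_mul_div, div_le_iff₀ h]
    nlinarith [mul_nonneg (mul_nonneg hP hZ) (sub_nonneg.2 hX)]

/-- The share of the slope beside the square of `U`. -/
theorem theta_line {P Z rho U T el V1 w S0 th : ℝ} (hth : 0 ≤ th) (hP : 0 ≤ P) (hr : 0 ≤ rho)
    (hZ : rho * U - T ≤ Z) (hU : el / (V1 - 1) * U ^ 2 ≤ U)
    (hS : w * S0 = th * P * T) :
    th * P * rho * el / (V1 - 1) * U ^ 2 ≤ th * P * Z + w * S0 := by
  have h1 := mul_le_mul_of_nonneg_left hZ (mul_nonneg hth hP)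
  have h2 := mul_le_mul_of_nonneg_left hU (mul_nonneg (mul_nonneg hth hP) hr)
  rw [hS, show th * P * rho * el / (V1 - 1) * U ^ 2 =
    th * P * rho * (el / (V1 - 1) * U ^ 2) by ring]
  linarith

/-- The sum of the parts of a piece. -/
theorem piece_sum {w S0 P Z q q' U B B0 C th : ℝ}
    (hB : B * Z ^ 2 ≤ B0 * Z ^ 2 + (1 - th) * P * Z)
    (hq : q' * U ^ 2 ≤ q * U ^ 2 + th * P * Z + w * S0)
    (h : 0 ≤ q' * U ^ 2 + B * Z ^ 2 - 2 * C * (U * Z)) :
    0 ≤ w * S0 + P * Z + q * U ^ 2 + B0 * Z ^ 2 - 2 * C * (U * Z) := by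
  linarith

set_option maxHeartbeats 800000 in
/-- A tested piece with the linear slack gives a nonnegative cell. -/
theorem Box.lin_sound {t : Lin} (hp : 198 ≤ p) (hok : b.ok = true) (hh : b.linOK t = true)
    (E : b.Encl p s) (S : Hat p s w v U D) (hD : 0 < D) (hv0 : (t.V0 : ℝ) ≤ v)
    (hv1 : ∀ V1, t.V1 = some V1 → v ≤ (V1 : ℝ)) : 0 ≤ cellT p s w v U D := by
  obtain ⟨-, he0q, -, hc20, -, hz0, -⟩ := Box.ok_iff hok
  simp only [Box.linOK, Bool.and_eq_true, Bool.or_eq_true, decide_eq_true_eq] at hh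
  obtain ⟨⟨⟨⟨⟨⟨⟨⟨⟨⟨⟨⟨⟨hy, hl0⟩, hnr⟩, hn0⟩, hl1⟩, ht0⟩, ht1⟩, hV0⟩, hr0⟩, hqc⟩, hkap⟩, hme⟩,
    hrule⟩, hcase⟩ := hh
  have hs := S.s_mem
  have hz : 0 < 1 - s ^ 2 := by nlinarith [hs.1, hs.2]
  have hw0 := S.w_nonneg
  have hV0' : (1 : ℝ) ≤ t.V0 := by exact_mod_cast hV0
  have hv1' : 1 ≤ v := hV0'.trans hv0
  have hvp := S.v_pos
  obtain ⟨e, he⟩ : ∃ e, 1 / ((p : ℝ) + 1) = e := ⟨_, rfl⟩
  have hE := E.e
  have hveq := S.v_eq
  have hcut := S.cut
  rw [he] at hE hveq hcut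
  have he0 : 0 < e := he ▸ by positivity
  have hU : 0 ≤ U := by nlinarith
  have hy' : 0 < ((p : ℝ) + 1) * s ^ 2 := by
    have : (0 : ℝ) < b.y.lo := by exact_mod_cast hy
    linarith [E.y.1]
  obtain ⟨X, hX⟩ : ∃ X, ((p : ℝ) + 1) * s ^ 2 / (1 - s ^ 2) = X := ⟨_, rfl⟩
  obtain ⟨k, hk⟩ : ∃ k, (1 - s ^ 2) / (((p : ℝ) + 1) * s ^ 2) = k := ⟨_, rfl⟩
  obtain ⟨K, hK⟩ : ∃ K, (2 * s ^ 2 + 1) / (((p : ℝ) + 1) * s ^ 2) + 1 = K := ⟨_, rfl⟩
  have hX0 : 0 < X := hX ▸ div_pos hy' hz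
  have hk0 : 0 < k := hk ▸ div_pos hz hy'
  have hyk : ((p : ℝ) + 1) * s ^ 2 * k = 1 - s ^ 2 := by
    rw [← hk, mul_div_cancel₀ _ hy'.ne']
  have hXk : X * k = 1 := by
    rw [← hX, div_mul_eq_mul_div, hyk, div_self hz.ne']
  have eK : (((p : ℝ) + 3) * s ^ 2 + 1) / (1 - s ^ 2) = X * K := by
    rw [← hX, ← hK]
    have hz' := hz.ne'
    have hy'' := hs.1.ne'
    have hm : ((p : ℝ) + 1) ≠ 0 := by positivity
    field_simp
    ring
  obtain ⟨Z, hZ⟩ : ∃ Z, X * D = Z := ⟨_, rfl⟩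
  have hZ0 : 0 ≤ Z := hZ ▸ (mul_pos hX0 hD).le
  have hkB : (b.c2.mul b.y.inv).Has k := by
    refine (E.c2.mul (E.y.inv hy)).of_eq ?_
    rw [← hk, mul_one_div]
  have hKB : (((b.z.scale 2).add (Iv.pt 1)).mul b.y.inv).Has
      ((2 * s ^ 2 + 1) / (((p : ℝ) + 1) * s ^ 2)) := by
    have := ((E.z.scale 2).add (Iv.has_pt 1)).mul (E.y.inv hy)
    push_cast at this
    rwa [mul_one_div] at this
  obtain ⟨μ, hμ⟩ : ∃ μ, 191 / 200 * (phiT (((p : ℝ) + 1) * s ^ 2) * wHat p s) = μ := ⟨_, rfl⟩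
  have hmuB : b.mu0.Has μ := hμ ▸ E.mu0
  have hmeB := hmuB.mul hE
  have hme0 := hmeB.nonneg hme
  have hμ0 : 0 ≤ μ := nonneg_of_mul_nonneg_left hme0 he0
  have hl0' : (0 : ℝ) ≤ t.lam := by exact_mod_cast hl0
  have hn0' : (0 : ℝ) ≤ t.nu := by exact_mod_cast hn0
  have hl1' : (0 : ℝ) ≤ 1 - t.lam - t.nu := by
    have := (Rat.cast_le (K := ℝ)).2 hl1
    push_cast at this
    exact this
  have ht0' : (0 : ℝ) ≤ t.tht := by exact_mod_cast ht0
  have ht1' : (t.tht : ℝ) ≤ 1 := by exact_mod_cast ht1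
  have hr0' : (0 : ℝ) ≤ t.rho := by exact_mod_cast hr0
  have htail := tail_one S hD hv1'
  rw [he] at htail
  have htK : U - w * v ≤ K * Z := by
    have h2 : 0 ≤ e * (U ^ 2 / (v + 1)) := by positivity
    rw [eK] at htail
    rw [← hZ]
    linarith
  have hqc' := E.qc.nonneg hqc
  have hC : quadC p s * k ≤ ((b.qc.mul (b.c2.mul b.y.inv)).hi : ℝ) := (E.qc.mul hkB).2
  have hC0 : (0 : ℝ) ≤ ((b.qc.mul (b.c2.mul b.y.inv)).hi : ℝ) :=
    (mul_nonneg hqc' hk0.le).trans hC
  have hB0 := ((E.qb.mul hkB.sq).sub ((hmeB.mul hkB).scale (t.lam / 2))).1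
  push_cast at hB0
  have hshift : t.shift = false → t.rho = 0 ∨ (t.rho : ℝ) * U ≤ Z := by
    intro hf
    rcases hrule with (⟨⟨h, -⟩, -⟩ | ⟨⟨⟨h, -⟩, -⟩, -⟩) | ⟨-, h⟩
    · exact Or.inl h
    · rw [hf] at h; exact absurd h (by decide)
    · refine Or.inr ?_
      have := Box.rho_sound hok hr0 h hy E S hD hv0
      rw [hX, hZ] at this
      exact this
  have hnu : (t.nu : ℝ) = 0 ∨ (0 < (t.rho : ℝ) ∧ (t.rho : ℝ) * U ≤ X * D) := by
    rcases hrule with (⟨⟨-, h⟩, -⟩ | ⟨⟨⟨-, -⟩, h⟩, -⟩) | ⟨hs', h⟩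
    · left; exact_mod_cast h
    · left; exact_mod_cast h
    · rcases hnr with h' | h'
      · left; exact_mod_cast h'
      · refine Or.inr ⟨by exact_mod_cast h', ?_⟩
        rw [← hX]
        exact Box.rho_sound hok hr0 h hy E S hD hv0
  have hrem : w * remT (((p : ℝ) + 1) * s ^ 2) ≤ 3 / 20 * max 0 (b.rem.hi : ℝ) :=
    (mul_le_mul_of_nonneg_left (E.rem.2.trans (le_max_right _ _)) hw0).trans
      (mul_le_mul_of_nonneg_right S.w_le (le_max_left _ _))
  have hP0 := ((((((Iv.has_pt 1).sub E.phi).mul E.sh).mul hkB).sub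
      (((E.c2.mul E.dphi).mul E.wh).scale 2)).scale (191 / 200)).add
    ((S.has_w.mul (((E.c2.mul E.dkap).scale 2).sub E.kap)).scale 8) |>.add
    (hmuB.mul (((Iv.has_pt (1 - t.lam - (if t.nu = 0 then 0 else t.nu / t.rho))).sub
      ((hE.sq.mul S.has_w).scale (2 * t.lam))).sub
        ((hKB.add (Iv.has_pt 1)).scale (1 - t.lam - t.nu))))
  push_cast at hP0
  have hnrc : (((if t.nu = 0 then 0 else t.nu / t.rho) : ℚ) : ℝ) =
      if (t.nu : ℝ) = 0 then 0 else (t.nu : ℝ) / t.rho := by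
    split_ifs with h1 h2 h2
    · simp
    · exact absurd (by exact_mod_cast h1) h2
    · exact absurd (by exact_mod_cast h2) h1
    · push_cast; rfl
  obtain ⟨P0, hP0e⟩ : ∃ P0, 191 / 200 * ((1 - phiT (((p : ℝ) + 1) * s ^ 2)) * sHat p s * k -
      2 * ((1 - s ^ 2) * phiT' (((p : ℝ) + 1) * s ^ 2) * wHat p s)) +
      8 * (w * (2 * ((1 - s ^ 2) * kapT' (((p : ℝ) + 1) * s ^ 2)) -
        kapT (((p : ℝ) + 1) * s ^ 2))) +
      μ * (1 - (t.lam : ℝ) - (if (t.nu : ℝ) = 0 then 0 else (t.nu : ℝ) / t.rho) -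
        2 * t.lam * (e ^ 2 * w) - (1 - t.lam - t.nu) * K) = P0 := ⟨_, rfl⟩
  rw [hnrc, hK, hP0e] at hP0
  have hPx : P0 ≤ (191 / 200 * ((1 - phiT (((p : ℝ) + 1) * s ^ 2)) * sHat p s -
      2 * (((p : ℝ) + 1) * s ^ 2) * phiT' (((p : ℝ) + 1) * s ^ 2) * wHat p s)) * k +
      8 * w * (k * (2 * (((p : ℝ) + 1) * s ^ 2) * kapT' (((p : ℝ) + 1) * s ^ 2) -
        kapT (((p : ℝ) + 1) * s ^ 2) * X)) +
      μ * (1 - t.lam - (if (t.nu : ℝ) = 0 then 0 else (t.nu : ℝ) / t.rho) -
        2 * t.lam * (e ^ 2 * w) - (1 - t.lam - t.nu) * K) := by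
    rw [← hP0e]
    refine le_of_eq ?_
    linear_combination (191 / 200 * (2 * phiT' (((p : ℝ) + 1) * s ^ 2) * wHat p s) -
      8 * w * 2 * kapT' (((p : ℝ) + 1) * s ^ 2)) * hyk +
      8 * w * kapT (((p : ℝ) + 1) * s ^ 2) * hXk
  have hcutD : (t.lam : ℝ) = 0 ∨ U - e * (U ^ 2 / v) ≤
      w + X * D + 2 * e ^ 2 * w * |X * D| + e * X * D ^ 2 / 2 := by
    right; rw [← hX]; exact hcut
  have key : ∀ P c0 q : ℝ,
      P ≤ P0 →
      c0 ≤ wHat p s * (994 / 1000) - w * remT (((p : ℝ) + 1) * s ^ 2) -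
        μ * (t.lam + (1 - t.lam - t.nu) * v) →
      q * U ^ 2 ≤ (quadA p s v - t.lam * (μ * e)) * (U ^ 2 / v) +
        (1 - t.lam - t.nu) * (μ * e) * (U ^ 2 / (v + 1)) →
      0 ≤ w * c0 + P * Z + q * U ^ 2 +
        (((b.qb.mul (b.c2.mul b.y.inv).sq).sub
          (((b.mu0.mul b.e).mul (b.c2.mul b.y.inv)).scale (t.lam / 2))).lo : ℝ) * Z ^ 2 -
        2 * ((b.qc.mul (b.c2.mul b.y.inv)).hi : ℝ) * (U * Z) →
      0 ≤ cellT p s w v U D := by
    intro P c0 q h1 h2 h3 h4
    rw [show cellT p s w v U D = w * (wHat p s * (994 / 1000)) -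
        w ^ 2 * remT (((p : ℝ) + 1) * s ^ 2) +
        (-μ + 8 * w * kapT (((p : ℝ) + 1) * s ^ 2)) * U +
        (191 / 200 * ((1 - phiT (((p : ℝ) + 1) * s ^ 2)) * sHat p s -
            2 * (((p : ℝ) + 1) * s ^ 2) * phiT' (((p : ℝ) + 1) * s ^ 2) * wHat p s) +
          μ * X + 8 * w * (2 * (((p : ℝ) + 1) * s ^ 2) * kapT' (((p : ℝ) + 1) * s ^ 2) -
            kapT (((p : ℝ) + 1) * s ^ 2) * X)) * D +
        quadA p s v * (U ^ 2 / v) + quadB p s * D ^ 2 - 2 * quadC p s * (U * D) by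
      rw [cellT, linUh, linDh, ← hμ, ← hX]; ring]
    refine lin_core (k := k) (K := K) (e := e) hy' hz hX.symm hk.symm eK hw0 hU hD.le hμ0
      (E.kap.nonneg hkap) rfl hl0' hn0' hl1' hcutD hnu htail (P := P) (c0 := c0) (q := q)
      (by rw [hZ]; exact h4) h2 (h1.trans hPx) h3 (hB0.trans (le_of_eq (by ring))) hC
  rcases hV : t.V1 with _ | V1
  · simp only [hV, Bool.and_eq_true, decide_eq_true_eq] at hcase
    obtain ⟨⟨⟨⟨⟨hlam, hsh⟩, hrpos⟩, hP⟩, hrest⟩, hquad⟩ := hcase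
    have hrpos' : (0 : ℝ) < t.rho := by exact_mod_cast hrpos
    have hrU : (t.rho : ℝ) * U ≤ Z :=
      (hshift hsh).resolve_left hrpos.ne'
    have hlam' : (t.lam : ℝ) = 0 := by exact_mod_cast hlam
    have hPB := hP0.sub (hmeB.scale (3 / 20 * (1 - t.lam - t.nu) / t.rho))
    push_cast at hPB
    have hPp := hPB.nonneg hP
    have htop : ((((b.qa 1).scale 2).sub (b.qa (-(1 / 2)))).lo : ℝ) ≤ quadA p s v := by
      have h := ((E.qa 1).scale 2).sub (E.qa (-(1 / 2)))
      push_cast at h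
      exact h.1.trans (quadA_ge_top hs hvp)
    obtain ⟨top, htope⟩ : ∃ top : ℝ,
      min 0 ((((b.qa 1).scale 2).sub (b.qa (-(1 / 2)))).lo : ℝ) = top := ⟨_, rfl⟩
    have hq : top / t.V0 * U ^ 2 ≤ (quadA p s v - t.lam * (μ * e)) * (U ^ 2 / v) +
        (1 - t.lam - t.nu) * (μ * e) * (U ^ 2 / (v + 1)) := by
      have h1 : top / t.V0 * U ^ 2 ≤ top / v * U ^ 2 := by
        refine mul_le_mul_of_nonneg_right ?_ (sq_nonneg U)
        rw [div_le_div_iff₀ (by linarith) hvp]
        exact mul_le_mul_of_nonpos_left hv0 (htope ▸ min_le_left _ _)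
      have h2 : top / v * U ^ 2 ≤ quadA p s v * (U ^ 2 / v) := by
        rw [div_mul_eq_mul_div, ← mul_div_assoc]
        gcongr
        rw [← htope]
        exact (min_le_right _ _).trans htop
      have h3 : 0 ≤ (1 - (t.lam : ℝ) - t.nu) * (μ * e) * (U ^ 2 / (v + 1)) :=
        mul_nonneg (mul_nonneg hl1' hme0) (by positivity)
      rw [hlam', zero_mul, sub_zero]
      rw [hlam'] at h3
      linarith
    refine key P0 _ (top / t.V0) le_rfl le_rfl hq ?_
    have hrest' : 3 / 20 * max 0 (b.rem.hi : ℝ) ≤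
        wHat p s * (994 / 1000) - μ * (1 - t.lam - t.nu) := by
      have h := (E.wh.mul ((Iv.has_pt (994 / 1000)).sub
        (E.phi.scale (191 / 200 * (1 - t.lam - t.nu))))).lo_le hrest
      push_cast at h
      rw [← hμ]
      linarith
    have hquad' : 0 ≤ top / t.V0 * U ^ 2 +
        (((b.qb.mul (b.c2.mul b.y.inv).sq).sub
          (((b.mu0.mul b.e).mul (b.c2.mul b.y.inv)).scale (t.lam / 2))).lo : ℝ) * Z ^ 2 -
        2 * ((b.qc.mul (b.c2.mul b.y.inv)).hi : ℝ) * (U * Z) := by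
      simp only [Box.quadOK, Bool.and_eq_true, Bool.or_eq_true, decide_eq_true_eq] at hquad
      rw [← htope]
      rcases hquad with ⟨⟨h1, h2⟩, h3⟩ | ⟨⟨h1, h2⟩, h3⟩
      · have h1' := (Rat.cast_lt (K := ℝ)).2 h1
        have h3' := (Rat.cast_le (K := ℝ)).2 h3
        push_cast at h1' h3'
        exact quad_pos h1' h3'
      · have h2' := (Rat.cast_le (K := ℝ)).2 h2
        have h3' := (Rat.cast_le (K := ℝ)).2 h3
        push_cast at h2' h3'
        exact quad_ray hrpos' hC0 h2' h3' hU hrU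
    have h5 := mul_nonneg hw0
      (sub_nonneg.2 (hrem.trans hrest'))
    have h6 : μ * e * (w * U) * (1 - t.lam - t.nu) ≤
        (3 / 20 * (1 - t.lam - t.nu) / t.rho) * (μ * e) * Z := by
      have h7 : w * U ≤ 3 / 20 * (Z / t.rho) :=
        mul_le_mul S.w_le ((le_div_iff₀ hrpos').2 (by linarith)) hU (by norm_num)
      have := mul_le_mul_of_nonneg_left h7 (mul_nonneg hme0 hl1')
      refine le_trans (le_of_eq ?_) (this.trans (le_of_eq ?_)) <;> ring
    have h8 := mul_nonneg hPp hZ0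
    rw [hlam', hveq, zero_add]
    rw [hlam'] at h5 h6 h8
    linarith
  · simp only [hV, Bool.and_eq_true, Bool.or_eq_true, decide_eq_true_eq] at hcase
    obtain ⟨⟨⟨⟨⟨hV1, hV01⟩, hP⟩, hh'⟩, hrest⟩, hquad⟩ := hcase
    have hvV : v ≤ (V1 : ℝ) := hv1 V1 hV
    have hV1' : (1 : ℝ) < V1 := by exact_mod_cast hV1
    obtain ⟨P, hPe⟩ : ∃ P : ℚ, (((((((Iv.pt 1).sub b.phi).mul b.sh).mul (b.c2.mul b.y.inv)).sub
        (((b.c2.mul b.dphi).mul b.wh).scale 2)).scale (191 / 200)).add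
      ((Box.ww.mul (((b.c2.mul b.dkap).scale 2).sub b.kap)).scale 8) |>.add
      (b.mu0.mul (((Iv.pt (1 - t.lam - (if t.nu = 0 then 0 else t.nu / t.rho))).sub
        ((b.e.sq.mul Box.ww).scale (2 * t.lam))).sub
          (((((b.z.scale 2).add (Iv.pt 1)).mul b.y.inv).add (Iv.pt 1)).scale
            (1 - t.lam - t.nu))))).lo = P := ⟨_, rfl⟩
    have hPP : (P : ℝ) ≤ P0 := hPe ▸ hP0.1
    rw [hPe] at hP hrest hquad
    obtain ⟨num, hnum⟩ : ∃ num : ℚ, ((b.qa V1).sub ((b.mu0.mul b.e).scale t.lam)).lo = num :=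
      ⟨_, rfl⟩
    have hnumv : (num : ℝ) ≤ quadA p s v - t.lam * (μ * e) := by
      rw [← hnum]
      exact ((E.qa V1).sub (hmeB.scale t.lam)).1.trans
        (sub_le_sub_right (quadA_anti hs (by linarith) hvV) _)
    rw [hnum] at hquad
    obtain ⟨q, hqe⟩ : ∃ q : ℚ, (if 0 ≤ num then num / V1 else num / t.V0) +
        (1 - t.lam - t.nu) * (b.mu0.mul b.e).lo / (V1 + 1) = q := ⟨_, rfl⟩
    rw [hqe] at hquad
    have hq : (q : ℝ) * U ^ 2 ≤ (quadA p s v - t.lam * (μ * e)) * (U ^ 2 / v) +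
        (1 - t.lam - t.nu) * (μ * e) * (U ^ 2 / (v + 1)) := by
      rw [← hqe]
      push_cast
      rw [add_mul]
      refine add_le_add ?_ ?_
      · refine le_trans ?_ (mul_le_mul_of_nonneg_right hnumv (by positivity))
        rw [← mul_div_assoc, ← div_mul_eq_mul_div]
        refine mul_le_mul_of_nonneg_right ?_ (sq_nonneg U)
        split
        next h =>
          push_cast
          exact div_le_div_of_nonneg_left (by exact_mod_cast h) hvp hvV
        next h =>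
          push_cast
          rw [div_le_div_iff₀ (by linarith) hvp]
          exact mul_le_mul_of_nonpos_left hv0 (by exact_mod_cast (not_le.1 h).le)
      · have h1 := mul_le_mul_of_nonneg_left hmeB.1 hl1'
        have h2 : (0 : ℝ) ≤ ((b.mu0.mul b.e).lo : ℝ) := by exact_mod_cast hme
        have h3 : (1 - t.lam - t.nu) * ((b.mu0.mul b.e).lo : ℝ) / ((V1 : ℝ) + 1) ≤
            (1 - t.lam - t.nu) * (μ * e) / (v + 1) :=
          div_le_div₀ (mul_nonneg hl1' hme0) h1 (by linarith) (by linarith)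
        exact (mul_le_mul_of_nonneg_right h3 (sq_nonneg U)).trans (le_of_eq (by ring))
    have hP' : (0 : ℝ) ≤ P := by exact_mod_cast hP
    obtain ⟨B0, hB0e⟩ : ∃ B0 : ℚ, ((b.qb.mul (b.c2.mul b.y.inv).sq).sub
        (((b.mu0.mul b.e).mul (b.c2.mul b.y.inv)).scale (t.lam / 2))).lo = B0 := ⟨_, rfl⟩
    obtain ⟨B, hBe⟩ : ∃ B : ℚ, (if t.tht = 1 ∨ t.h = 0 then B0 else
        B0 + (1 - t.tht) * P / (b.yc.hi * (3 / 20) * t.h * t.rv)) = B := ⟨_, rfl⟩
    obtain ⟨q', hq'e⟩ : ∃ q' : ℚ, (if t.tht = 0 then q else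
        q + t.tht * P * t.rho * b.e.lo / (V1 - 1)) = q' := ⟨_, rfl⟩
    obtain ⟨S0, hS0⟩ : ∃ S0 : ℚ,
        (if t.shift = true then t.tht * P * t.rho * V1 else 0) = S0 := ⟨_, rfl⟩
    rw [hS0] at hrest
    rw [hB0e, hBe, hq'e] at hquad
    refine key P (S0 : ℝ) q hPP ?_ hq ?_
    · have h := (E.wh.mul ((Iv.has_pt (994 / 1000)).sub
        (E.phi.scale (191 / 200 * (t.lam + (1 - t.lam - t.nu) * V1))))).lo_le hrest
      push_cast at h
      have h2 := mul_le_mul_of_nonneg_left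
        (mul_le_mul_of_nonneg_left hvV hl1') hμ0
      rw [← hμ] at h2 ⊢
      linarith
    · rw [hB0e]
      have hBZ : (B : ℝ) * Z ^ 2 ≤ (B0 : ℝ) * Z ^ 2 + (1 - t.tht) * P * Z := by
        have h0 : 0 ≤ (1 - (t.tht : ℝ)) * P * Z :=
          mul_nonneg (mul_nonneg (sub_nonneg.2 ht1') hP') hZ0
        rw [← hBe]
        split
        next h => linarith
        next h =>
          push Not at h
          push_cast
          rw [add_mul]
          refine add_le_add le_rfl (sq_le_line (mul_nonneg (sub_nonneg.2 ht1') hP') hZ0 ?_)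
          rcases hh' with hh' | ⟨⟨hi, hrv⟩, hVr⟩
          · exact absurd hh' h.2
          · obtain ⟨hh0, hhD⟩ := Box.hi_sound hp hok hi E S
            have hrv' : (0 : ℝ) ≤ t.rv := by exact_mod_cast hrv.le
            have hVr' : (V1 : ℝ) ≤ (t.rv : ℝ) ^ 2 := by exact_mod_cast hVr
            have hsv : √v ≤ (t.rv : ℝ) := (Real.sqrt_le_left hrv').2 (hvV.trans hVr')
            have hDb : D ≤ 3 / 20 * t.h * t.rv := (hhD hD).trans
              (mul_le_mul (mul_le_mul_of_nonneg_right S.w_le hh0) hsv (Real.sqrt_nonneg _)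
                (mul_nonneg (by norm_num) hh0))
            rw [← hZ]
            have hyc : X ≤ (b.yc.hi : ℝ) := hX ▸ E.yc.2
            calc X * D ≤ (b.yc.hi : ℝ) * (3 / 20 * t.h * t.rv) :=
                  mul_le_mul hyc hDb hD.le (hX0.le.trans hyc)
              _ = _ := by ring
      have hqU : (q' : ℝ) * U ^ 2 ≤ (q : ℝ) * U ^ 2 + t.tht * P * Z + w * (S0 : ℝ) := by
        have hS : 0 ≤ (S0 : ℝ) := by
          rw [← hS0]
          split
          · push_cast; positivity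
          · simp
        have hS' := mul_nonneg hw0 hS
        have h0 : 0 ≤ (t.tht : ℝ) * P * Z := mul_nonneg (mul_nonneg ht0' hP') hZ0
        rw [← hq'e]
        split
        next h => linarith
        next h =>
          push_cast
          have hrZ : (t.rho : ℝ) * U - (if t.shift = true then (t.rho : ℝ) * (w * V1) else 0) ≤
              Z := by
            split
            next hs' =>
              rcases hrule with (⟨⟨h', -⟩, -⟩ | ⟨-, h'⟩) | ⟨h', -⟩
              · simp [h', hZ0]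
              · have h'' : (t.rho : ℝ) * K ≤ 1 := by
                  have h3 := (Rat.cast_le (K := ℝ)).2 h'
                  have h4 := mul_le_mul_of_nonneg_left (hKB.add (Iv.has_pt 1)).2 hr0'
                  push_cast at h3 h4
                  rw [← hK]
                  linarith
                have h5 : (t.rho : ℝ) * (U - w * v) ≤ Z := by
                  rcases le_or_gt (U - w * v) 0 with hn | hn
                  · exact (mul_nonpos_of_nonneg_of_nonpos hr0' hn).trans hZ0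
                  · refine (mul_le_mul_of_nonneg_left htK hr0').trans ?_
                    rw [← mul_assoc]
                    exact mul_le_of_le_one_left hZ0 h''
                have h6 := mul_le_mul_of_nonneg_left (mul_le_mul_of_nonneg_left hvV hw0) hr0'
                linarith
              · rw [hs'] at h'; exact absurd h' (by decide)
            next hs' =>
              rw [sub_zero]
              rcases hshift (by simpa using hs') with h' | h'
              · simp [h', hZ0]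
              · exact h'
          have hUe : (b.e.lo : ℝ) / ((V1 : ℝ) - 1) * U ^ 2 ≤ U := by
            rw [div_mul_eq_mul_div, div_le_iff₀ (by linarith)]
            nlinarith [mul_le_mul_of_nonneg_right hE.1 hU]
          have h9 : w * (S0 : ℝ) = t.tht * P *
              (if t.shift = true then (t.rho : ℝ) * (w * V1) else 0) := by
            rw [← hS0]
            split <;> push_cast <;> ring
          rw [add_mul]
          exact (add_le_add le_rfl (theta_line ht0' hP' hr0' hrZ hUe h9)).trans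
            (le_of_eq (by ring))
      have hquad' : 0 ≤ (q' : ℝ) * U ^ 2 + (B : ℝ) * Z ^ 2 -
          2 * ((b.qc.mul (b.c2.mul b.y.inv)).hi : ℝ) * (U * Z) := by
        simp only [Box.quadOK, Bool.and_eq_true, Bool.or_eq_true, decide_eq_true_eq] at hquad
        rcases hquad with ⟨⟨h1, h2⟩, h3⟩ | ⟨⟨h1, h2⟩, h3⟩
        · exact quad_pos (by exact_mod_cast h1) (by exact_mod_cast h3)
        · by_cases hs' : t.shift = true
          · simp [hs'] at h1
          · simp only [hs', if_false, Bool.false_eq_true] at h1 h2 h3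
            exact quad_ray (by exact_mod_cast h1) hC0 (by exact_mod_cast h2)
              (by exact_mod_cast h3) hU ((hshift (by simpa using hs')).resolve_left h1.ne')
      exact piece_sum hBZ hqU hquad'

/-- The pieces cover everything above one. -/
theorem Box.pieces_sound (hp : 198 ≤ p) (hok : b.ok = true) (E : b.Encl p s)
    (S : Hat p s w v U D) (hD : 0 < D) (hv : 1 < v) : ∀ (ps : List Piece) (r : ℚ) (t : Option Top),
    b.piecesOK ps r t = true → (v ≤ (r : ℝ) → 0 ≤ cellT p s w v U D) → 0 ≤ cellT p s w v U D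
  | [], r, some t, hh, hr => by
    simp only [Box.piecesOK, Bool.and_eq_true, decide_eq_true_eq] at hh
    exact hr ((Box.top_sound hp hok hh.1 E S hD).trans (by exact_mod_cast hh.2))
  | [], r, none, hh, _ => by simp [Box.piecesOK] at hh
  | .form m :: ps, r, t, hh, hr => by
    simp only [Box.piecesOK, Bool.and_eq_true, decide_eq_true_eq] at hh
    obtain ⟨⟨⟨⟨hm, hhi⟩, hrv⟩, hVr⟩, hps⟩ := hh
    refine pieces_sound hp hok E S hD hv ps _ t hps fun hle => ?_
    rw [Rat.cast_max, le_max_iff] at hle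
    rcases hle with hle | hle
    · exact hr hle
    · obtain ⟨hh0, hhD⟩ := Box.hi_sound hp hok hhi E S
      have hrv' : (0 : ℝ) ≤ m.rv := by exact_mod_cast hrv
      have hsv : √v ≤ (m.rv : ℝ) :=
        (Real.sqrt_le_left hrv').2 (hle.trans (by exact_mod_cast hVr))
      refine Box.mat_sound hok hm E S hle ?_ (fun _ => hD.le) (Or.inr ⟨hD, hv.le⟩)
      push_cast
      calc D ≤ w * m.h * √v := hhD hD
        _ ≤ w * m.h * m.rv := mul_le_mul_of_nonneg_left hsv (mul_nonneg S.w_nonneg hh0)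
        _ = _ := by ring
  | .lin l :: ps, r, t, hh, hr => by
    simp only [Box.piecesOK, Bool.and_eq_true, decide_eq_true_eq] at hh
    obtain ⟨⟨hl, hV0⟩, hrest⟩ := hh
    rcases le_or_gt v (r : ℝ) with hle | hlt
    · exact hr hle
    have hv0 : (l.V0 : ℝ) ≤ v :=
      le_trans (by exact_mod_cast hV0) hlt.le
    rcases hV : l.V1 with _ | V1
    · exact Box.lin_sound hp hok hl E S hD hv0 (by simp [hV])
    · simp only [hV] at hrest
      refine pieces_sound hp hok E S hD hv ps _ t hrest fun hle => ?_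
      rw [Rat.cast_max, le_max_iff] at hle
      rcases hle with hle | hle
      · exact hr hle
      · exact Box.lin_sound hp hok hl E S hD hv0 (by simp [hV, hle])

/-- A tested leaf gives a nonnegative cell. -/
theorem Box.cert_sound {c : Cert} (hp : 198 ≤ p) (hok : b.ok = true) (hh : b.certOK c = true)
    (E : b.Encl p s) (S : Hat p s w v U D) : 0 ≤ cellT p s w v U D := by
  have hw := S.w_nonneg
  cases c with
  | bulk m t =>
    simp only [Box.certOK, Bool.and_eq_true, decide_eq_true_eq] at hh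
    obtain ⟨⟨⟨⟨⟨⟨⟨hlam, htop⟩, htV⟩, hneg⟩, hhi⟩, hrv⟩, hVr⟩, hm⟩ := hh
    have hvV : v ≤ (m.V : ℝ) := by
      rcases le_or_gt D 0 with h | h
      · exact Box.negTop_sound hok hneg E S h
      · exact (Box.top_sound hp hok htop E S h).trans (by exact_mod_cast htV)
    obtain ⟨hh0, hhD⟩ := Box.hi_sound hp hok hhi E S
    have hrv' : (0 : ℝ) ≤ m.rv := by exact_mod_cast hrv
    refine Box.mat_sound hok hm E S hvV ?_ (by simp) (Or.inl hlam)
    push_cast
    rcases le_or_gt D 0 with h | h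
    · exact h.trans (mul_nonneg (mul_nonneg hh0 hrv') hw)
    · have hsv : √v ≤ (m.rv : ℝ) :=
        (Real.sqrt_le_left hrv').2 (hvV.trans (by exact_mod_cast hVr))
      calc D ≤ w * m.h * √v := hhD h
        _ ≤ w * m.h * m.rv := mul_le_mul_of_nonneg_left hsv (mul_nonneg hw hh0)
        _ = _ := by ring
  | wide hl n ps t =>
    simp only [Box.certOK, Bool.and_eq_true, decide_eq_true_eq] at hh
    obtain ⟨⟨⟨hlow, hy⟩, hps⟩, hn⟩ := hh
    rcases le_or_gt D 0 with hD | hD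
    · cases n with
      | form m =>
        simp only [Bool.and_eq_true, decide_eq_true_eq] at hn
        obtain ⟨⟨hlam, hneg⟩, hm⟩ := hn
        refine Box.mat_sound hok hm E S (Box.negTop_sound hok hneg E S hD) ?_ (by simp)
          (Or.inl hlam)
        simpa using hD
      | sign V => exact Box.sign_sound hok hy hn E S hD
    · rcases le_or_gt v 1 with hv | hv
      · exact Box.low_sound hp hok hlow E S hD hv
      · refine Box.pieces_sound hp hok E S hD hv ps 1 t hps fun h => ?_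
        push_cast at h
        linarith

/-- A checked plan gives a nonnegative cell on its box. -/
theorem Plan.sound (hp : 198 ≤ p) : ∀ (P : Plan) (b : Box), P.check b = true → b.Mem p s →
    Hat p s w v U D → 0 ≤ cellT p s w v U D
  | .leaf c, b, hh, hm, S => by
    simp only [Plan.check, Bool.and_eq_true] at hh
    exact Box.cert_sound hp hh.1 hh.2 (Box.encl hh.1 hp S.s_mem hm) S
  | .splitY a l r, b, hh, hm, S => by
    simp only [Plan.check, Bool.and_eq_true] at hh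
    rcases le_total (((p : ℝ) + 1) * s ^ 2) (a : ℝ) with h | h
    · exact Plan.sound hp l _ hh.1 ⟨⟨hm.1.1, h⟩, hm.2⟩ S
    · exact Plan.sound hp r _ hh.2 ⟨⟨h, hm.1.2⟩, hm.2⟩ S
  | .splitE a l r, b, hh, hm, S => by
    simp only [Plan.check, Bool.and_eq_true] at hh
    rcases le_total (1 / ((p : ℝ) + 1)) (a : ℝ) with h | h
    · exact Plan.sound hp l _ hh.1 ⟨hm.1, ⟨hm.2.1, h⟩⟩ S
    · exact Plan.sound hp r _ hh.2 ⟨hm.1, ⟨h, hm.2.2⟩⟩ S

end Vale.Agent.P237.Petty.Cor.Tiny
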