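import Vale.Agent.P237.Petty.Cor.Tiny.Facts
import Vale.Agent.P237.Petty.Cor.Tiny.Encl

/-!
# P237: a state of the tiny cell in the variables over `e = 1 / (p + 1)`
-/

namespace Vale.Agent.P237.Petty.Cor.Tiny

open Set
open Ident (half rate)
open Lift (circLow circHigh)

variable {p : ℕ}

/-- The coefficients of the remainder. -/
def phiCoef : ℕ → ℚ
  | 0 => 763340 / 1000000
  | 1 => -2782743 / 1000000
  | 2 => 1172711 / 1000000
  | 3 => -597816 / 10000000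
  | 4 => -207863 / 10000000
  | 5 => 242369 / 100000000
  | 6 => -710287 / 10000000000
  | _ => 0

/-- The remainder of the second order. -/
noncomputable def remT (y : ℝ) : ℝ :=
  (phiCoef 0 : ℝ) + y * (phiCoef 1 + y * (phiCoef 2 + y * (phiCoef 3 + y * (phiCoef 4 +
    y * (phiCoef 5 + y * phiCoef 6)))))

/-- The lower bound of the cell. -/
noncomputable def psiT (p : ℕ) (ell s : ℝ) : ℝ :=
  ell * wS p (arc s) * (3 / 500) + ell ^ 2 * remT (((p : ℝ) + 1) * s ^ 2)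

/-- The coefficient of `U`. -/
noncomputable def linUh (p : ℕ) (s w : ℝ) : ℝ :=
  -(191 / 200) * (phiT (((p : ℝ) + 1) * s ^ 2) * wHat p s) +
    8 * w * kapT (((p : ℝ) + 1) * s ^ 2)

/-- The coefficient of `D`. -/
noncomputable def linDh (p : ℕ) (s w : ℝ) : ℝ :=
  191 / 200 * ((1 - phiT (((p : ℝ) + 1) * s ^ 2)) * sHat p s -
      2 * (((p : ℝ) + 1) * s ^ 2) * phiT' (((p : ℝ) + 1) * s ^ 2) * wHat p s +
      phiT (((p : ℝ) + 1) * s ^ 2) * wHat p s * (((p : ℝ) + 1) * s ^ 2 / (1 - s ^ 2))) +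
    8 * w * (2 * (((p : ℝ) + 1) * s ^ 2) * kapT' (((p : ℝ) + 1) * s ^ 2) -
      kapT (((p : ℝ) + 1) * s ^ 2) * (((p : ℝ) + 1) * s ^ 2 / (1 - s ^ 2)))

/-- The cancelled cell less its bound, over `e ^ 2`. -/
noncomputable def cellT (p : ℕ) (s w v U D : ℝ) : ℝ :=
  w * wHat p s * (994 / 1000) - w ^ 2 * remT (((p : ℝ) + 1) * s ^ 2) + linUh p s w * U +
    linDh p s w * D + quadA p s v * (U ^ 2 / v) + quadB p s * D ^ 2 - 2 * quadC p s * (U * D)

/-- The facts of a state that the leaves use. -/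
structure Hat (p : ℕ) (s w v U D : ℝ) : Prop where
  s_mem : s ∈ Ioo (0 : ℝ) 1
  w_nonneg : 0 ≤ w
  w_le : w ≤ 3 / 20
  v_pos : 0 < v
  v_eq : v = 1 + 1 / ((p : ℝ) + 1) * U
  D_gt : -1 < 1 / ((p : ℝ) + 1) * D
  cut : U - 1 / ((p : ℝ) + 1) * (U ^ 2 / v) ≤ w + ((p : ℝ) + 1) * s ^ 2 / (1 - s ^ 2) * D +
    2 * (1 / ((p : ℝ) + 1)) ^ 2 * w * |((p : ℝ) + 1) * s ^ 2 / (1 - s ^ 2) * D| +
    1 / ((p : ℝ) + 1) * (((p : ℝ) + 1) * s ^ 2 / (1 - s ^ 2)) * D ^ 2 / 2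
  lo : -(((p : ℝ) + 1) * s ^ 2 * D) ≤ w * ((1 - s ^ 2) *
    ((((p : ℝ) + 4) * s ^ 2 + 2) / (((p : ℝ) + 3) * s ^ 2 + 3)))
  hi : 0 < D → ∀ H : ℝ, circLow p s ≤ H * (s * arc s ^ (p + 1)) →
    D ≤ w * Real.exp (1 / ((p : ℝ) + 1) * w / 2) * H * √v
  tail : ∀ c ∈ Icc (0 : ℝ) 1, c - 1 < 1 / ((p : ℝ) + 1) * D →
    v * (((p : ℝ) + 1) * s ^ 2 * (1 - c ^ 2) / (2 - (1 + c ^ 2) * s ^ 2) + Real.log v -
        1 / ((p : ℝ) + 1) * w) ≤
      (1 / ((p : ℝ) + 1) * D + (1 - c)) * ((((p : ℝ) + 3) * s ^ 2 + 1) / (1 - s ^ 2))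

/-- The variables of a state. -/
theorem hat_of_flat (hp : 198 ≤ p) {ell s t a r q : ℝ}
    (hell : ell ∈ Icc 0 (3 / 20 / ((p : ℝ) + 2))) (h : FlatState p ell s t a r q) :
    Hat p s (((p : ℝ) + 1) * ell) (1 / r) (((p : ℝ) + 1) * (1 / r - 1))
      (((p : ℝ) + 1) * ((t - s) / s)) := by
  have hm : (0 : ℝ) < (p : ℝ) + 1 := by positivity
  have h0 := hell.1
  have h1 := hell.2
  rw [le_div_iff₀ (by positivity)] at h1
  have hr := h.state.rate_pos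
  have hs := h.state.s_mem
  have hs0 := hs.1
  have ew : 1 / ((p : ℝ) + 1) * (((p : ℝ) + 1) * ell) = ell := by field_simp
  have ed : 1 / ((p : ℝ) + 1) * (((p : ℝ) + 1) * ((t - s) / s)) = (t - s) / s := by field_simp
  have hell2 : ell ≤ 1 / ((p : ℝ) + 2) := by rw [le_div_iff₀ (by positivity)]; linarith
  refine ⟨hs, by positivity, by nlinarith, by positivity, ?_, ?_, ?_, ?_, ?_, ?_⟩
  · field_simp
    ring
  · rw [ed, lt_div_iff₀ hs.1]
    linarith [h.state.t_mem.1]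
  · have hc := cut_fact (p := p) (by omega) h h0 rfl rfl
    refine le_of_mul_le_mul_left ?_ (show 0 < 1 / ((p : ℝ) + 1) by positivity)
    obtain ⟨X, hX⟩ : ∃ X, ((p : ℝ) + 1) * s ^ 2 / (1 - s ^ 2) = X := ⟨_, rfl⟩
    rw [hX] at hc ⊢
    obtain ⟨v, hv, hve⟩ : ∃ v, 0 < v ∧ 1 / r = v := ⟨_, by positivity, rfl⟩
    rw [hve] at hc ⊢
    obtain ⟨δ, hδ⟩ : ∃ δ, (t - s) / s = δ := ⟨_, rfl⟩
    rw [hδ] at hc ⊢
    rw [show X * (((p : ℝ) + 1) * δ) = ((p : ℝ) + 1) * (X * δ) by ring, abs_mul,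
      abs_of_pos hm]
    refine le_trans (le_of_eq ?_) (hc.trans (le_of_eq ?_))
    · field_simp
    · field_simp
  · have hl := box_lo h h0 hell2 rfl
    have := mul_le_mul_of_nonneg_left hl hm.le
    linarith
  · intro hD H hH
    have hd : 0 < (t - s) / s := (mul_pos_iff_of_pos_left hm).1 hD
    have := mul_le_mul_of_nonneg_left (box_hi h h0 rfl rfl hd hH) hm.le
    rw [ew]
    linarith
  · intro c hc hcD
    rw [ew, ed] at *
    have hu : c * s ∈ Ico (0 : ℝ) t := by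
      refine ⟨mul_nonneg hc.1 hs.1.le, ?_⟩
      rw [lt_div_iff₀ hs.1] at hcD
      linarith
    refine (tail_fact h hu rfl (log_ratio_ge hs hc)).trans (le_of_eq ?_)
    congr 1
    field_simp
    ring

/-- A nonnegative cell over `e ^ 2` gives the bound of the cell. -/
theorem psiT_le_of_cellT (hp : 198 ≤ p) {ell top s t a r q : ℝ} (h : FlatState p top s t a r q)
    (hc : 0 ≤ cellT p s (((p : ℝ) + 1) * ell) (1 / r) (((p : ℝ) + 1) * (1 / r - 1))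
      (((p : ℝ) + 1) * ((t - s) / s))) :
    psiT p ell s ≤
      cancelExpr p (gamT p) (nuT p) ell (fun s t => s + 12 / 5 * (s - t))
        (fun _ _ => 1 + 12 / 5) (fun _ _ => -(12 / 5)) (quadPot (potK p ell) (potB p))
        (quadPotS (potK p ell) (potK' p ell) (potB p) (potB' p))
        (quadPotT (potK p ell) (potB p)) s t a r := by
  refine le_trans ?_ (base_le hp h)
  have h2 := mul_nonneg (sq_nonneg (1 / ((p : ℝ) + 1))) hc
  have hs0 := h.state.s_mem.1.ne'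
  have hr := h.state.rate_pos.ne'
  refine sub_nonneg.1 (le_of_le_of_eq h2 ?_)
  rw [cellT, psiT, linU, linD, linUh, linDh, wHat, sHat]
  field_simp
  ring

end Vale.Agent.P237.Petty.Cor.Tiny
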